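import Vale.Agent.P272.K.T4.FibD
import Vale.Agent.P272.K.C2.PosLin
import Mathlib.Analysis.SpecialFunctions.Integrals.Basic

/-! # Fibre integration by parts and the moments of the radial weights -/

open scoped Manifold ContDiff ComplexOrder Topology
open Complex Set Filter MeasureTheory

set_option linter.all false

noncomputable section

namespace Vale.Agent.P272.K.T4

variable {n : ℕ}

/-! ### The integrated weight -/

/-- `χ₁(s) = ∫_s^1 χ` -/
def up (χ : ℝ → ℝ) (s : ℝ) : ℝ := ∫ t in s..1, χ t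

lemma hasDerivAt_up {χ : ℝ → ℝ} (hχ : Continuous χ) (s : ℝ) : HasDerivAt (up χ) (-χ s) s :=
  intervalIntegral.integral_hasDerivAt_left (hχ.intervalIntegrable _ _)
    hχ.stronglyMeasurable.stronglyMeasurableAtFilter hχ.continuousAt

lemma deriv_up {χ : ℝ → ℝ} (hχ : Continuous χ) (s : ℝ) : deriv (up χ) s = -χ s :=
  (hasDerivAt_up hχ s).deriv

theorem Wt.up {χ : ℝ → ℝ} (hχ : Wt χ) : Wt (up χ) where
  smooth := by
    rw [contDiff_infty_iff_deriv]
    refine ⟨fun s => (hasDerivAt_up hχ.smooth.continuous s).differentiableAt, ?_⟩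
    have : deriv (T4.up χ) = fun s => -χ s := funext fun s => deriv_up hχ.smooth.continuous s
    rw [this]
    exact hχ.smooth.neg
  nonneg := by
    intro s
    rcases le_total s 1 with h | h
    · exact intervalIntegral.integral_nonneg h fun t _ => hχ.nonneg t
    · unfold T4.up
      rw [intervalIntegral.integral_symm, intervalIntegral.integral_zero_ae]
      · simp
      · refine Eventually.of_forall fun t ht => hχ.zero t ?_
        rw [uIoc_of_le h] at ht
        exact ht.1.le
  pos := by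
    refine intervalIntegral.integral_pos one_pos (hχ.smooth.continuous.continuousOn)
      (fun t _ => hχ.nonneg t) ⟨0, by simp, hχ.pos⟩
  zero := by
    intro s h
    unfold T4.up
    rw [intervalIntegral.integral_symm, intervalIntegral.integral_zero_ae]
    · simp
    · refine Eventually.of_forall fun t ht => hχ.zero t ?_
      rw [uIoc_of_le h] at ht
      exact ht.1.le

/-! ### integration by parts in the fibre -/

section parts
variable {χ : ℝ → ℝ} {M : Matrix (Fin n) (Fin n) ℂ} {F : Cm n → ℂ}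

lemma contDiff_re_quad (M : Matrix (Fin n) (Fin n) ℂ) {m : WithTop ℕ∞} :
    ContDiff ℝ m fun w : Cm n => (quad M w).re := by
  have h1 : ContDiff ℝ m fun w : Cm n => quad M w := by
    unfold quad
    refine ContDiff.sum fun i _ => ContDiff.sum fun j _ => ?_
    exact contDiff_const.mul ((contDiff_apply ℝ ℂ i).mul
      (Complex.conjCLE.contDiff.comp (contDiff_apply ℝ ℂ j)))
  exact Complex.reCLM.contDiff.comp h1

lemma fib_intC (hχ : Wt χ) (hM : M.PosDef) (hF : Continuous F) :
    Integrable fun w => F w * ((χ (quad M w).re : ℝ) : ℂ) := by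
  have := fib_int hχ hM hF
  refine this.congr (Eventually.of_forall fun w => ?_)
  simp [mul_comm]

lemma fib_intR (hχ : Wt χ) (hM : M.PosDef) {F : Cm n → ℝ} (hF : Continuous F) :
    Integrable fun w => F w * χ (quad M w).re := by
  have := fib_int hχ hM hF
  refine this.congr (Eventually.of_forall fun w => ?_)
  simp [mul_comm]

lemma continuous_dz {F : Cm n → ℂ} (hF : ContDiff ℝ 1 F) (m : Fin n) : Continuous (dz m F) := by
  rw [INT.dz_fun_eq]
  have := hF.continuous_fderiv (by norm_num)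
  fun_prop

lemma integral_dz_weight (hχ : Wt χ) (hM : M.PosDef) (hF : ContDiff ℝ 1 F) (m : Fin n) :
    ∫ w, dz m F w * ((up χ (quad M w).re : ℝ) : ℂ) =
      ∑ l, M m l * ∫ w, F w * cj (w l) * ((χ (quad M w).re : ℝ) : ℂ) := by
  have hc : Continuous χ := hχ.smooth.continuous
  have hw : ContDiff ℝ 1 fun w : Cm n => ((up χ (quad M w).re : ℝ) : ℂ) :=
    Complex.ofRealCLM.contDiff.comp ((hχ.up.smooth.of_le (by exact_mod_cast le_top)).comp (contDiff_re_quad M))
  have hcd : ContDiff ℝ 1 fun w : Cm n => F w * ((up χ (quad M w).re : ℝ) : ℂ) := hF.mul hw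
  have hs : HasCompactSupport fun w : Cm n => F w * ((up χ (quad M w).re : ℝ) : ℂ) := by
    have h := fib_supp hχ.up hM F
    have h2 : (fun w : Cm n => F w * ((up χ (quad M w).re : ℝ) : ℂ)) =
        fun w => up χ (quad M w).re • F w := by funext w; simp [mul_comm]
    rw [h2]; exact h
  have h0 := INT.integral_dz_eq_zero hcd hs m
  have h1 : ∀ w, dz m (fun w : Cm n => F w * ((up χ (quad M w).re : ℝ) : ℂ)) w =
      dz m F w * ((up χ (quad M w).re : ℝ) : ℂ) -
        ∑ l, M m l * (F w * cj (w l) * ((χ (quad M w).re : ℝ) : ℂ)) := by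
    intro w
    have hFd : DifferentiableAt ℝ F w := (hF.differentiable (by norm_num)) w
    have hwd : DifferentiableAt ℝ (fun w : Cm n => ((up χ (quad M w).re : ℝ) : ℂ)) w :=
      (hw.differentiable (by norm_num)) w
    rw [dz_mul hFd hwd, dz_real_comp (hasDerivAt_up hc _).differentiableAt
      (re_diff (diff_quad_snd M)), dz_re_quad_snd hM.1, deriv_up hc]
    rw [sub_eq_add_neg, Finset.mul_sum, Finset.mul_sum, ← Finset.sum_neg_distrib]
    congr 1
    refine Finset.sum_congr rfl fun l _ => ?_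
    push_cast; ring
  have hi : ∀ l, Integrable fun w : Cm n =>
      M m l * (F w * cj (w l) * ((χ (quad M w).re : ℝ) : ℂ)) := by
    intro l
    refine Integrable.const_mul ?_ _
    exact fib_intC hχ hM (hF.continuous.mul
      (Complex.continuous_conj.comp (continuous_apply l)))
  simp only [h1] at h0
  rw [integral_sub (fib_intC hχ.up hM (continuous_dz hF m))
    (integrable_finset_sum _ fun l _ => hi l), integral_finset_sum _ (fun l _ => hi l)] at h0
  rw [sub_eq_zero.1 h0]
  exact Finset.sum_congr rfl fun l _ => integral_const_mul _ _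

/-- fibre integration by parts -/
theorem fib_parts (hχ : Wt χ) (hM : M.PosDef) (hF : ContDiff ℝ 1 F) (j : Fin n) :
    ∫ w, F w * cj (w j) * ((χ (quad M w).re : ℝ) : ℂ) =
      ∑ m, M⁻¹ j m * ∫ w, dz m F w * ((up χ (quad M w).re : ℝ) : ℂ) := by
  simp only [integral_dz_weight hχ hM hF, Finset.mul_sum]
  rw [Finset.sum_comm]
  have h1 : ∀ l, ∑ m, M⁻¹ j m * (M m l * ∫ w, F w * cj (w l) * ((χ (quad M w).re : ℝ) : ℂ)) =
      (M⁻¹ * M) j l * ∫ w, F w * cj (w l) * ((χ (quad M w).re : ℝ) : ℂ) := by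
    intro l
    rw [Matrix.mul_apply, Finset.sum_mul]
    exact Finset.sum_congr rfl fun m _ => by ring
  simp only [h1]
  rw [Matrix.nonsing_inv_mul _ (by simpa using hM.det_pos.ne')]
  rw [Finset.sum_eq_single j]
  · simp
  · intro l _ hl
    rw [Matrix.one_apply_ne hl.symm, zero_mul]
  · simp

end parts

/-! ### second and fourth moments -/

section moments
variable {χ : ℝ → ℝ} {M : Matrix (Fin n) (Fin n) ℂ}

lemma cd_co {m : WithTop ℕ∞} (i : Fin n) : ContDiff ℝ m fun w : Cm n => w i :=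
  contDiff_apply ℝ ℂ i

lemma cd_cjco {m : WithTop ℕ∞} (i : Fin n) : ContDiff ℝ m fun w : Cm n => cj (w i) :=
  Complex.conjCLE.contDiff.comp (contDiff_apply ℝ ℂ i)

/-- one step of the moment recursion, one factor `w_i` -/
theorem mom2 (hχ : Wt χ) (hM : M.PosDef) (i j : Fin n) :
    ∫ w : Cm n, w i * cj (w j) * ((χ (quad M w).re : ℝ) : ℂ) =
      M⁻¹ j i * ∫ w : Cm n, ((up χ (quad M w).re : ℝ) : ℂ) := by
  rw [fib_parts hχ hM (F := fun w => w i) (cd_co i) j, Finset.sum_eq_single i]
  · congr 1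
    congr 1
    funext w
    rw [dz_coord, if_pos rfl, one_mul]
  · intro m _ hm
    simp [dz_coord, hm]
  · simp

theorem mom4_ijkl (hχ : Wt χ) (hM : M.PosDef) (i j k l : Fin n) :
    ∫ w : Cm n, w i * cj (w j) * w k * cj (w l) * ((χ (quad M w).re : ℝ) : ℂ) =
      (M⁻¹ j i * M⁻¹ l k + M⁻¹ j k * M⁻¹ l i) *
        ∫ w : Cm n, ((up (up χ) (quad M w).re : ℝ) : ℂ) := by
  have e0 : (fun w : Cm n => w i * cj (w j) * w k * cj (w l) * ((χ (quad M w).re : ℝ) : ℂ)) =
      fun w => (w i * (w k * cj (w l))) * cj (w j) * ((χ (quad M w).re : ℝ) : ℂ) := by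
    funext w; ring
  have e1 : ∀ m (w : Cm n), dz m (fun w : Cm n => w i * (w k * cj (w l))) w =
      (if m = i then 1 else 0) * (w k * cj (w l)) + (if m = k then 1 else 0) * (w i * cj (w l)) := by
    intro m w
    rw [dz_mul (diff_coord i w) ((diff_coord k w).fun_mul (diff_conj_coord l w)),
      dz_mul (diff_coord k w) (diff_conj_coord l w), dz_coord, dz_coord, dz_conj_coord]
    ring
  have hi : ∀ i l : Fin n,
      Integrable fun w : Cm n => w i * cj (w l) * ((up χ (quad M w).re : ℝ) : ℂ) := fun i l =>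
    fib_intC hχ.up hM ((cd_co i).continuous (𝕜 := ℝ) (n := 0) |>.mul
      ((cd_cjco l).continuous (𝕜 := ℝ) (n := 0)))
  have e2 : ∀ m, ∫ w : Cm n, dz m (fun w : Cm n => w i * (w k * cj (w l))) w *
        ((up χ (quad M w).re : ℝ) : ℂ) =
      (if m = i then 1 else 0) * (∫ w : Cm n, w k * cj (w l) * ((up χ (quad M w).re : ℝ) : ℂ)) +
      (if m = k then 1 else 0) * (∫ w : Cm n, w i * cj (w l) * ((up χ (quad M w).re : ℝ) : ℂ)) := by
    intro m
    rw [← integral_const_mul, ← integral_const_mul, ← integral_add ((hi k l).const_mul _)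
      ((hi i l).const_mul _)]
    congr 1
    funext w
    rw [e1]; ring
  rw [e0, fib_parts hχ hM (F := fun w => w i * (w k * cj (w l)))
    ((cd_co i).mul ((cd_co k).mul (cd_cjco l))) j]
  simp only [e2, mul_add, Finset.sum_add_distrib]
  have e3 : ∀ (a : Fin n) (z : ℂ), ∑ m, M⁻¹ j m * ((if m = a then 1 else 0) * z) =
      M⁻¹ j a * z := by
    intro a z
    rw [Finset.sum_eq_single a]
    · simp
    · intro m _ hm; simp [hm]
    · simp
  rw [e3, e3, mom2 hχ.up hM, mom2 hχ.up hM]
  ring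

/-- the total mass does not depend on the metric -/
theorem mass_eq {E : Type*} [NormedAddCommGroup E] [NormedSpace ℝ E] (φ : ℝ → E)
    (hM : M.PosDef) : M.det.re • ∫ w : Cm n, φ (quad M w).re =
      ∫ w : Cm n, φ (quad (1 : Matrix (Fin n) (Fin n) ℂ) w).re := by
  obtain ⟨B, hB⟩ := C2.exists_factor hM.transpose.posSemidef
  have hM' : M = B.transpose * 1 * B.map (starRingEnd ℂ) := by
    have := congrArg Matrix.transpose hB
    rw [Matrix.transpose_transpose, Matrix.transpose_mul] at this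
    rw [Matrix.mul_one, this]
    congr 1
  have hdet : M.det = B.det * (starRingEnd ℂ) B.det := by
    rw [hM', Matrix.mul_one, Matrix.det_mul, Matrix.det_transpose]
    congr 1
    exact ((starRingEnd ℂ).map_det B).symm
  have hdet' : M.det.re = ‖B.det‖ ^ 2 := by
    rw [hdet, Complex.mul_conj, Complex.ofReal_re, Complex.normSq_eq_norm_sq]
  have hu : IsUnit B.det := by
    rw [isUnit_iff_ne_zero]
    intro h0
    have := hM.det_pos
    rw [hdet, h0, zero_mul] at this
    exact lt_irrefl _ this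
  have h := integral_comp_mulVec hu (fun w => φ (quad (1 : Matrix (Fin n) (Fin n) ℂ) w).re)
  rw [← h, hdet']
  congr 1
  congr 1
  funext w
  rw [← quad_pull, ← hM']

/-- the constant `∫ χ₂(|w|²) dw` -/
def c0 (n : ℕ) (χ : ℝ → ℝ) : ℝ :=
  ∫ w : Cm n, up (up χ) (quad (1 : Matrix (Fin n) (Fin n) ℂ) w).re

lemma c0_pos (n : ℕ) {χ : ℝ → ℝ} (hχ : Wt χ) : 0 < c0 n χ := by
  have hc : Continuous fun w : Cm n => up (up χ) (quad (1 : Matrix (Fin n) (Fin n) ℂ) w).re :=
    hχ.up.up.smooth.continuous.comp (cont_quad _)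
  have hs : HasCompactSupport fun w : Cm n =>
      up (up χ) (quad (1 : Matrix (Fin n) (Fin n) ℂ) w).re := by
    have := fib_supp (n := n) (E := ℝ) hχ.up.up Matrix.PosDef.one (fun _ => 1)
    simpa using this
  refine hc.integral_pos_of_hasCompactSupport_nonneg_nonzero hs (fun w => hχ.up.up.nonneg _)
    (x := 0) ?_
  have : (quad (1 : Matrix (Fin n) (Fin n) ℂ) (0 : Cm n)).re = 0 := by
    simp [quad]
  rw [this]
  exact hχ.up.up.pos.ne'

lemma cont_quart (B : Fin n → Fin n → Matrix (Fin n) (Fin n) ℂ) :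
    Continuous fun w : Cm n => P1.quart B w w w w := by
  unfold P1.quart
  refine continuous_finset_sum _ fun i _ => continuous_finset_sum _ fun j _ =>
    continuous_finset_sum _ fun k _ => continuous_finset_sum _ fun l _ => ?_
  have h1 : ∀ i : Fin n, Continuous fun w : Cm n => w i := fun i => continuous_apply i
  have h2 : ∀ i : Fin n, Continuous fun w : Cm n => (starRingEnd ℂ) (w i) := fun i =>
    Complex.continuous_conj.comp (continuous_apply i)
  exact continuous_const.mul ((((h1 i).mul (h2 j)).mul (h1 k)).mul (h2 l))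

/-- integrability of the integrand of `mom4` -/
theorem mom4_int (hχ : Wt χ) (hM : M.PosDef) (B : Fin n → Fin n → Matrix (Fin n) (Fin n) ℂ) :
    Integrable fun w : Cm n => P1.quart B w w w w * ((χ (quad M w).re : ℝ) : ℂ) *
      ((M.det.re : ℝ) : ℂ) :=
  (fib_intC hχ hM (cont_quart B)).mul_const _

lemma mom_alg (P : Matrix (Fin n) (Fin n) ℂ) (B : Fin n → Fin n → Matrix (Fin n) (Fin n) ℂ)
    (x : ℂ) : ∑ i, ∑ j, ∑ k, ∑ l, B i j k l * ((P j i * P l k + P j k * P l i) * x) =
      x * (∑ i, ∑ j, P j i * (P * B i j).trace + ∑ i, ∑ j, (P * B i j * P) j i) := by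
  have h1 : ∀ i j, ∑ k, ∑ l, B i j k l * ((P j i * P l k + P j k * P l i) * x) =
      x * (P j i * (P * B i j).trace + (P * B i j * P) j i) := by
    intro i j
    rw [Finset.sum_comm]
    have t1 : (P * B i j).trace = ∑ l, ∑ k, P l k * B i j k l := by
      simp only [Matrix.trace, Matrix.diag, Matrix.mul_apply]
    have t2 : (P * B i j * P) j i = ∑ l, ∑ k, P j k * B i j k l * P l i := by
      simp only [Matrix.mul_apply, Finset.sum_mul]
    rw [t1, t2, Finset.mul_sum, ← Finset.sum_add_distrib, Finset.mul_sum]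
    refine Finset.sum_congr rfl fun l _ => ?_
    rw [Finset.mul_sum, ← Finset.sum_add_distrib, Finset.mul_sum]
    exact Finset.sum_congr rfl fun k _ => by ring
  simp only [h1, mul_add, Finset.sum_add_distrib, Finset.mul_sum]

/-- the fourth moments -/
theorem mom4' (hχ : Wt χ) (hM : M.PosDef) (B : Fin n → Fin n → Matrix (Fin n) (Fin n) ℂ) :
    ∫ w : Cm n, P1.quart B w w w w * ((χ (quad M w).re : ℝ) : ℂ) * ((M.det.re : ℝ) : ℂ) =
      (c0 n χ : ℂ) * (∑ i, ∑ j, M⁻¹ j i * (M⁻¹ * B i j).trace +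
        ∑ i, ∑ j, (M⁻¹ * B i j * M⁻¹) j i) := by
  have hmass : ((M.det.re : ℝ) : ℂ) * ∫ w : Cm n, ((up (up χ) (quad M w).re : ℝ) : ℂ) =
      (c0 n χ : ℂ) := by
    rw [integral_complex_ofReal, ← Complex.ofReal_mul]
    congr 1
    have := mass_eq (fun s => up (up χ) s) hM
    rw [smul_eq_mul] at this
    rw [this, c0]
  have hint : ∀ i j k l, Integrable fun w : Cm n =>
      B i j k l * (w i * cj (w j) * w k * cj (w l) * ((χ (quad M w).re : ℝ) : ℂ)) := by
    intro i j k l
    refine Integrable.const_mul ?_ _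
    refine fib_intC hχ hM ?_
    have h1 : ∀ i : Fin n, Continuous fun w : Cm n => w i := fun i => continuous_apply i
    have h2 : ∀ i : Fin n, Continuous fun w : Cm n => cj (w i) := fun i =>
      Complex.continuous_conj.comp (continuous_apply i)
    exact (((h1 i).mul (h2 j)).mul (h1 k)).mul (h2 l)
  have e1 : (fun w : Cm n => P1.quart B w w w w * ((χ (quad M w).re : ℝ) : ℂ)) = fun w =>
      ∑ i, ∑ j, ∑ k, ∑ l,
        B i j k l * (w i * cj (w j) * w k * cj (w l) * ((χ (quad M w).re : ℝ) : ℂ)) := by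
    funext w
    simp only [P1.quart, Finset.sum_mul]
    refine Finset.sum_congr rfl fun i _ => Finset.sum_congr rfl fun j _ =>
      Finset.sum_congr rfl fun k _ => Finset.sum_congr rfl fun l _ => ?_
    simp only [cj]
    ring
  have e2 : ∫ w : Cm n, P1.quart B w w w w * ((χ (quad M w).re : ℝ) : ℂ) =
      ∑ i, ∑ j, ∑ k, ∑ l, B i j k l * ((M⁻¹ j i * M⁻¹ l k + M⁻¹ j k * M⁻¹ l i) *
        ∫ w : Cm n, ((up (up χ) (quad M w).re : ℝ) : ℂ)) := by
    rw [e1, integral_finset_sum _ fun i _ => integrable_finset_sum _ fun j _ =>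
      integrable_finset_sum _ fun k _ => integrable_finset_sum _ fun l _ => hint i j k l]
    refine Finset.sum_congr rfl fun i _ => ?_
    rw [integral_finset_sum _ fun j _ => integrable_finset_sum _ fun k _ =>
      integrable_finset_sum _ fun l _ => hint i j k l]
    refine Finset.sum_congr rfl fun j _ => ?_
    rw [integral_finset_sum _ fun k _ => integrable_finset_sum _ fun l _ => hint i j k l]
    refine Finset.sum_congr rfl fun k _ => ?_
    rw [integral_finset_sum _ fun l _ => hint i j k l]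
    refine Finset.sum_congr rfl fun l _ => ?_
    rw [integral_const_mul, mom4_ijkl hχ hM]
  rw [integral_mul_const, e2, ← hmass]
  have := mom_alg M⁻¹ B (∫ w : Cm n, ((up (up χ) (quad M w).re : ℝ) : ℂ))
  rw [this]
  ring

/-- the fourth moments -/
theorem mom4 {χ : ℝ → ℝ} (hχ : Wt χ) : ∃ c0 : ℝ, 0 < c0 ∧
    ∀ M : Matrix (Fin n) (Fin n) ℂ, M.PosDef → ∀ B : Fin n → Fin n → Matrix (Fin n) (Fin n) ℂ,
    ∫ w : Cm n, P1.quart B w w w w * ((χ (quad M w).re : ℝ) : ℂ) * ((M.det.re : ℝ) : ℂ) =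
      (c0 : ℂ) * (∑ i, ∑ j, M⁻¹ j i * (M⁻¹ * B i j).trace +
        ∑ i, ∑ j, (M⁻¹ * B i j * M⁻¹) j i) :=
  ⟨c0 n χ, c0_pos n hχ, fun _ hM B => mom4' hχ hM B⟩

end moments

/-! ### the statement for metrics on `X` -/

lemma quad_sq (H : Matrix (Fin n) (Fin n) ℂ) (w : Cm n) :
    P1.quart (fun i j => H i j • H) w w w w = quad H w ^ 2 := by
  have : quad H w ^ 2 = (∑ i, ∑ j, H i j * (w i * cj (w j))) *
      ∑ k, ∑ l, H k l * (w k * cj (w l)) := by rw [sq]; rfl
  rw [this]
  unfold P1.quart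
  rw [Finset.sum_mul]
  refine Finset.sum_congr rfl fun i _ => ?_
  rw [Finset.sum_mul]
  refine Finset.sum_congr rfl fun j _ => ?_
  rw [Finset.mul_sum]
  refine Finset.sum_congr rfl fun k _ => ?_
  rw [Finset.mul_sum]
  refine Finset.sum_congr rfl fun l _ => ?_
  simp only [Matrix.smul_apply, smul_eq_mul, cj]
  ring

lemma trace_re_inv {G H : Matrix (Fin n) (Fin n) ℂ} (hG : G.PosDef) (hH : H.PosSemidef) :
    (G⁻¹ * H).trace = (((G⁻¹ * H).trace.re : ℝ) : ℂ) := by
  have := C2.trace_mul_nonneg hG.inv.posSemidef hH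
  rw [Complex.le_def] at this
  exact Complex.ext (by simp) (by simpa using this.2.symm)

lemma trace_four {G H : Matrix (Fin n) (Fin n) ℂ} (hG : G.PosDef) (hH : H.IsHermitian) :
    0 ≤ (H * (G⁻¹ * H * G⁻¹)).trace.re := by
  have h1 : (H * G⁻¹ * H).PosSemidef := by
    have := hG.inv.posSemidef.mul_mul_conjTranspose_same H
    rwa [hH.eq] at this
  have h2 := C2.trace_mul_nonneg h1 hG.inv.posSemidef
  rw [Complex.le_def] at h2
  have h3 : H * (G⁻¹ * H * G⁻¹) = H * G⁻¹ * H * G⁻¹ := by simp only [Matrix.mul_assoc]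
  rw [h3]
  exact h2.1

/-- `E |w|_h⁴ = c ((tr_g h)² + tr (h g⁻¹ h g⁻¹))` -/
theorem mom_sq {χ : ℝ → ℝ} (hχ : Wt χ) {G H : Matrix (Fin n) (Fin n) ℂ} (hG : G.PosDef)
    (hH : H.PosSemidef) :
    ∫ w : Cm n, (quad H w).re ^ 2 * χ (quad G w).re * G.det.re =
      c0 n χ * ((G⁻¹ * H).trace.re ^ 2 + (H * (G⁻¹ * H * G⁻¹)).trace.re) := by
  have h := mom4' hχ hG (fun i j => H i j • H)
  have e1 : ∀ w : Cm n, P1.quart (fun i j => H i j • H) w w w w *
      ((χ (quad G w).re : ℝ) : ℂ) * ((G.det.re : ℝ) : ℂ) =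
      (((quad H w).re ^ 2 * χ (quad G w).re * G.det.re : ℝ) : ℂ) := by
    intro w
    have : quad H w = (((quad H w).re : ℝ) : ℂ) :=
      Complex.ext (by simp) (by simp [quad_im hH.1 w])
    rw [quad_sq, this]
    push_cast
    simp
  have e2 : ∑ i, ∑ j, G⁻¹ j i * (G⁻¹ * (H i j • H)).trace = (G⁻¹ * H).trace ^ 2 := by
    have : (G⁻¹ * H).trace = ∑ j, ∑ i, G⁻¹ j i * H i j := by
      simp only [Matrix.trace, Matrix.diag, Matrix.mul_apply]
    simp only [Matrix.mul_smul, Matrix.trace_smul, smul_eq_mul]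
    generalize (G⁻¹ * H).trace = t at this ⊢
    have e : t ^ 2 = (∑ j, ∑ i, G⁻¹ j i * H i j) * t := by rw [← this, sq]
    rw [e, Finset.sum_mul, Finset.sum_comm]
    refine Finset.sum_congr rfl fun j _ => ?_
    rw [Finset.sum_mul]
    exact Finset.sum_congr rfl fun i _ => by ring
  have e3 : ∑ i, ∑ j, (G⁻¹ * (H i j • H) * G⁻¹) j i = (H * (G⁻¹ * H * G⁻¹)).trace := by
    have : (H * (G⁻¹ * H * G⁻¹)).trace = ∑ i, ∑ j, H i j * (G⁻¹ * H * G⁻¹) j i := by
      simp only [Matrix.trace, Matrix.diag]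
      exact Finset.sum_congr rfl fun i _ => Matrix.mul_apply
    rw [this]
    refine Finset.sum_congr rfl fun i _ => Finset.sum_congr rfl fun j _ => ?_
    rw [Matrix.mul_smul, Matrix.smul_mul, Matrix.smul_apply, smul_eq_mul]
  simp only [e1, e2, e3] at h
  rw [integral_complex_ofReal] at h
  have h' := congrArg Complex.re h
  rw [Complex.ofReal_re, Complex.re_ofReal_mul, Complex.add_re] at h'
  rw [h']
  congr 2
  rw [trace_re_inv hG hH, ← Complex.ofReal_pow, Complex.ofReal_re, Complex.ofReal_re]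

theorem mom (n : ℕ) (X : Type) [TopologicalSpace X] [T2Space X] [CompactSpace X]
    [ChartedSpace (Cm n) X] [IsManifold 𝓘(ℂ, Cm n) ω X] : MomStatement n X := by
  intro χ hχ
  refine ⟨c0 n χ, ∫ w : Cm n, χ (quad (1 : Matrix (Fin n) (Fin n) ℂ) w).re, c0_pos n hχ,
    integral_nonneg fun w => hχ.nonneg _, ?_⟩
  intro h hh g hg e x hx
  have hG : (g e (e x)).PosDef := hg.posDef e x hx
  have hH : (h e (e x)).PosDef := hh.posDef e x hx
  constructor
  · have h1 := mom_sq hχ hG hH.posSemidef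
    have h2 := trace_four hG hH.1
    unfold Eg nq Tr
    rw [h1]
    exact mul_le_mul_of_nonneg_left (by linarith) (c0_pos n hχ).le
  · unfold Eg
    have := mass_eq (fun s => χ s) hG
    rw [← this, smul_eq_mul]
    simp only [one_mul]
    rw [integral_mul_const, mul_comm]

end Vale.Agent.P272.K.T4
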