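import Vale.Agent.P272.K.T4.L2
import Vale.Agent.P272.K.T4.Mom

/-! # Block A of T4+: all four statements -/

open scoped Manifold ContDiff ComplexOrder Topology
open Complex Set Filter MeasureTheory

set_option linter.all false

noncomputable section

namespace Vale.Agent.P272.K.T4

open INT (intX)

variable {n : ℕ}

theorem mom4_c0 {χ : ℝ → ℝ} (hχ : Wt χ) : Mom4 n χ (c0 n χ) := fun _ hM B => mom4' hχ hM B

theorem l2 (n : ℕ) (X : Type) [TopologicalSpace X] [T2Space X] [CompactSpace X]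
    [ChartedSpace (Cm n) X] [IsManifold 𝓘(ℂ, Cm n) ω X] : L2Statement n X :=
  fun χ hχ => ⟨2 * c0 n χ, by have := c0_pos n hχ; positivity, fun _ hh _ hg hr =>
    L2_global hχ (c0_pos n hχ) (mom4_c0 hχ) hg hh hr⟩

section
variable {X : Type*} [TopologicalSpace X] [T2Space X] [CompactSpace X]
    [ChartedSpace (Cm n) X] [IsManifold 𝓘(ℂ, Cm n) ω X]
    {g h : Chart n X → Cm n → Matrix (Fin n) (Fin n) ℂ} {χ : ℝ → ℝ}

/-- (G2) for helper232 -/
theorem G2 (hχ : Wt χ) (hg : IsKahler g) (hh : IsHermitian h) (hneg : NonposHSC h) :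
    intX (fun e z => Ml (g e) (h e) z * dt g e z) ≤ intX (fun e z => Tr g h e z * dt g e z) :=
  intX_Ml_le hχ (c0_pos n hχ) (mom4_c0 hχ) hg hh hneg

end

end Vale.Agent.P272.K.T4
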