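import Vale.Agent.P272.K.T4.Fun
import Vale.Agent.P272.K.Asm.Phase1

/-! P272/T4: block L3 (the bound of `∫ tr_g h`) and the final step. -/

open scoped Manifold ContDiff ComplexOrder Topology Matrix
open Complex Set Filter MeasureTheory

set_option linter.all false

noncomputable section

namespace Vale.Agent.P272.K.T4

open INT (IsDensity intX)

variable {n : ℕ}

theorem exists_wt : ∃ χ : ℝ → ℝ, Wt χ :=
  ⟨fun s => Real.smoothTransition (1 - s),
    Real.smoothTransition.contDiff.comp (contDiff_const.sub contDiff_id),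
    fun s => Real.smoothTransition.nonneg _,
    by simp [Real.smoothTransition.one],
    fun s hs => Real.smoothTransition.zero_of_nonpos (by linarith)⟩

section
variable {X : Type*} [TopologicalSpace X] [ChartedSpace (Cm n) X]
  {g h : Chart n X → Cm n → Matrix (Fin n) (Fin n) ℂ} {e : Chart n X} {z : Cm n}
  {F G : Chart n X → Cm n → Cm n → ℝ} {χ : ℝ → ℝ}

/-- integrability of the fibre average -/
def EgInt (χ : ℝ → ℝ) (g : Chart n X → Cm n → Matrix (Fin n) (Fin n) ℂ)
    (F : Chart n X → Cm n → Cm n → ℝ) (e : Chart n X) (z : Cm n) : Prop :=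
  Integrable fun w : Cm n => F e z w * χ (quad (g e z) w).re * (g e z).det.re

lemma Eg_add (hF : EgInt χ g F e z) (hG : EgInt χ g G e z) :
    Eg χ g (fun e z w => F e z w + G e z w) e z = Eg χ g F e z + Eg χ g G e z := by
  unfold Eg
  rw [← integral_add hF hG]
  congr 1; funext w; ring

lemma Eg_const_mul (c : ℝ) : Eg χ g (fun e z w => c * F e z w) e z = c * Eg χ g F e z := by
  unfold Eg
  rw [← integral_const_mul]
  congr 1; funext w; ring

lemma Eg_mono (hχ : Wt χ) (hd : 0 ≤ (g e z).det.re) (hF : EgInt χ g F e z) (hG : EgInt χ g G e z)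
    (h : ∀ w, F e z w ≤ G e z w) : Eg χ g F e z ≤ Eg χ g G e z := by
  unfold Eg
  exact integral_mono hF hG fun w =>
    mul_le_mul_of_nonneg_right (mul_le_mul_of_nonneg_right (h w) (hχ.nonneg _)) hd

end

section
variable {X : Type} [TopologicalSpace X] [ChartedSpace (Cm n) X]
    [IsManifold 𝓘(ℂ, Cm n) ω X] [T2Space X] [CompactSpace X]

lemma quad_csmul (M : Matrix (Fin n) (Fin n) ℂ) (b : ℂ) (v : Cm n) :
    quad M (b • v) = ((‖b‖ ^ 2 : ℝ) : ℂ) * quad M v := by
  unfold quad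
  rw [Finset.mul_sum]
  refine Finset.sum_congr rfl fun i _ => ?_
  rw [Finset.mul_sum]
  refine Finset.sum_congr rfl fun j _ => ?_
  have hb : b * cj b = ((‖b‖ ^ 2 : ℝ) : ℂ) := by
    simp [cj, Complex.mul_conj, Complex.normSq_eq_norm_sq]
  rw [← hb]
  simp only [Pi.smul_apply, smul_eq_mul, cj, map_mul]
  ring

/-- comparison of the derivatives along the two sprays -/
lemma Yd_sub {g h : Chart n X → Cm n → Matrix (Fin n) (Fin n) ℂ}
    (F : Chart n X → Cm n → Cm n → ℝ) (b : ℂ) (e : Chart n X) (z w : Cm n) :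
    Yd h b F e z w = Yd g b F e z w + Wd F e z w (-(b • P1.dGam (g e) (h e) z w)) := by
  unfold Yd Wd
  rw [← map_add]
  congr 1
  unfold spray
  ext
  · simp
  · simp only [Prod.mk_add_mk, dGam_eq, Pi.add_apply, Pi.neg_apply, Pi.smul_apply, Pi.sub_apply,
      smul_eq_mul]
    ring

/-- **L3**: the bound of `∫ tr_g h` -/
theorem trace_bound_hyp (hDens : DensStatement n X) (hL1 : L1Statement n X)
    (hL2 : L2Statement n X) (hMom : MomStatement n X) (hL5 : L5Statement n X)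
    (hCo : CoerStatement n X) (hyp : BrodyHyperbolic n X)
    {h : Chart n X → Cm n → Matrix (Fin n) (Fin n) ℂ} (hh : IsHermitian h)
    (hneg : NonposHSC h) :
    ∃ C : ℝ, ∀ g : Chart n X → Cm n → Matrix (Fin n) (Fin n) ℂ, IsKahler g → RicGe g →
      intX (fun e z => Tr g h e z * dt g e z) ≤ C * intX (fun e z => dt g e z) := by
  obtain ⟨χ, hχ⟩ := exists_wt
  obtain ⟨c, C₀, F₁, F₂, hc, hC₀, hF₁, hF₂, hW₁, hW₂, hco⟩ := hCo hyp h hh
  obtain ⟨c₀, C₁, hc₀, hC₁, hmom⟩ := hMom χ hχ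
  obtain ⟨C₂, hC₂, hl2⟩ := hL2 χ hχ
  have hε : 0 < c₀ / (4 * (c + 1)) := by positivity
  obtain ⟨Cε, hCε, hl5⟩ := hL5 χ hχ h hh hneg _ hε
  set A := c * Cε + 2 * C₀ ^ 2 * C₂ with hA
  set B := C₀ * C₁ + c * Cε with hB
  have hA0 : 0 ≤ A := by positivity
  have hB0 : 0 ≤ B := by positivity
  refine ⟨B + (A + 1) ^ 2 / c₀, fun g hg hric => ?_⟩
  have hgH := hg.toIsHermitian
  have hdet : ∀ e x, At e x → 0 < (g e (e x)).det.re := fun e x hx =>
    (Complex.lt_def.1 (hgH.posDef e x hx).det_pos).1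
  -- the functions involved
  have sN : SmTFun fun e z w => nq h e z w ^ 2 := (nq_smTFun hh).pow 2
  have sD : SmTFun (Dq h) := Dq_smTFun hh
  have sY₁ : SmTFun (Yd g 1 F₁) := Yd_smTFun hgH hF₁ 1
  have sY₂ : SmTFun (Yd g Complex.I F₂) := Yd_smTFun hgH hF₂ Complex.I
  have sP : SmTFun (fun e z w => Pq g h e z w + Rq h e z w) := (Pq_smTFun hgH hh).add (Rq_smTFun hh)
  have s1 : SmTFun (fun (_ : Chart n X) (_ _ : Cm n) => (1 : ℝ)) := SmTFun.const 1
  have I : ∀ {F : Chart n X → Cm n → Cm n → ℝ}, SmTFun F → ∀ e x, At e x → EgInt χ g F e (e x) :=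
    fun hF e x hx => (hDens χ hχ g hgH _ hF.cTFun).1 e x hx
  have Dn : ∀ {F : Chart n X → Cm n → Cm n → ℝ}, SmTFun F →
      IsDensity fun e z => Eg χ g F e z * dt g e z := fun hF => (hDens χ hχ g hgH _ hF.cTFun).2
  -- pointwise inequality on the tangent bundle
  have hpt : ∀ e x w, At e x → (1 / 2) * nq h e (e x) w ^ 2 ≤
      C₀ * 1 + (c * Dq h e (e x) w + (Yd g 1 F₁ e (e x) w + (Yd g Complex.I F₂ e (e x) w +
        2 * C₀ ^ 2 * (Pq g h e (e x) w + Rq h e (e x) w)))) := by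
    intro e x w hx
    have h1 := hco e x w hx
    have hN := nq_nonneg hh hx w
    have hP := Pq_nonneg g hh hx w
    have hR := Rq_nonneg hneg hx w
    have h2 : ∀ b : ℂ, ‖b‖ = 1 → nq h e (e x) (-(b • P1.dGam (g e) (h e) (e x) w)) =
        Pq g h e (e x) w := by
      intro b hb
      have : -(b • P1.dGam (g e) (h e) (e x) w) = (-b) • P1.dGam (g e) (h e) (e x) w := by
        rw [neg_smul]
      unfold nq Pq
      rw [this, quad_csmul, norm_neg, hb]
      simp
    have h3 := (abs_le.1 (hW₁ e x w (-((1 : ℂ) • P1.dGam (g e) (h e) (e x) w)) hx)).2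
    have h4 := (abs_le.1 (hW₂ e x w (-(Complex.I • P1.dGam (g e) (h e) (e x) w)) hx)).2
    rw [h2 1 (by simp)] at h3
    rw [h2 Complex.I (by simp)] at h4
    rw [Yd_sub (g := g) F₁, Yd_sub (g := g) F₂] at h1
    set N := nq h e (e x) w
    set P := Pq g h e (e x) w
    have h5 : √P ^ 2 = P := Real.sq_sqrt hP
    have h6 : 2 * (C₀ * N * √P) ≤ (1 / 2) * N ^ 2 + 2 * C₀ ^ 2 * P := by
      nlinarith [sq_nonneg (N - 2 * C₀ * √P)]
    have h7 : 0 ≤ 2 * C₀ ^ 2 * Rq h e (e x) w := by positivity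
    nlinarith
  -- pointwise inequality on X
  have hX : ∀ e x, At e x → (c₀ / 2) * (Tr g h e (e x) ^ 2 * dt g e (e x)) ≤
      C₀ * C₁ * dt g e (e x) + (c * (Eg χ g (Dq h) e (e x) * dt g e (e x)) +
        (Eg χ g (Yd g 1 F₁) e (e x) * dt g e (e x) +
        (Eg χ g (Yd g Complex.I F₂) e (e x) * dt g e (e x) +
        2 * C₀ ^ 2 * (Eg χ g (fun e z w => Pq g h e z w + Rq h e z w) e (e x) *
          dt g e (e x))))) := by
    intro e x hx
    obtain ⟨m1, m2⟩ := hmom h hh g hgH e x hx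
    have i1 := I s1 e x hx
    have iD := I (SmTFun.const_mul c sD) e x hx
    have iP := I (SmTFun.const_mul (2 * C₀ ^ 2) sP) e x hx
    have iY₂ := I sY₂ e x hx
    have iY₁ := I sY₁ e x hx
    have iYP := I (sY₂.add (SmTFun.const_mul (2 * C₀ ^ 2) sP)) e x hx
    have iYYP := I (sY₁.add (sY₂.add (SmTFun.const_mul (2 * C₀ ^ 2) sP))) e x hx
    have iDYYP := I ((SmTFun.const_mul c sD).add
      (sY₁.add (sY₂.add (SmTFun.const_mul (2 * C₀ ^ 2) sP)))) e x hx
    have k1 : Eg χ g (fun e z w => (1 / 2) * nq h e z w ^ 2) e (e x) ≤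
        Eg χ g (fun e z w => C₀ * 1 + (c * Dq h e z w + (Yd g 1 F₁ e z w +
          (Yd g Complex.I F₂ e z w + 2 * C₀ ^ 2 * (Pq g h e z w + Rq h e z w))))) e (e x) :=
      Eg_mono hχ (hdet e x hx).le (I (SmTFun.const_mul (1 / 2) sN) e x hx)
        (I ((SmTFun.const_mul C₀ s1).add ((SmTFun.const_mul c sD).add
          (sY₁.add (sY₂.add (SmTFun.const_mul (2 * C₀ ^ 2) sP))))) e x hx)
        fun w => hpt e x w hx
    have k2 : Eg χ g (fun e z w => (1 / 2) * nq h e z w ^ 2) e (e x) =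
        (1 / 2) * Eg χ g (fun e z w => nq h e z w ^ 2) e (e x) :=
      Eg_const_mul (F := fun e z w => nq h e z w ^ 2) (1 / 2)
    have k3 : Eg χ g (fun e z w => C₀ * 1 + (c * Dq h e z w + (Yd g 1 F₁ e z w +
          (Yd g Complex.I F₂ e z w + 2 * C₀ ^ 2 * (Pq g h e z w + Rq h e z w))))) e (e x) =
        C₀ * Eg χ g (fun _ _ _ => 1) e (e x) + (c * Eg χ g (Dq h) e (e x) +
          (Eg χ g (Yd g 1 F₁) e (e x) + (Eg χ g (Yd g Complex.I F₂) e (e x) +
            2 * C₀ ^ 2 * Eg χ g (fun e z w => Pq g h e z w + Rq h e z w) e (e x)))) := by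
      rw [Eg_add (F := fun _ _ _ => C₀ * 1) (G := fun e z w => c * Dq h e z w + (Yd g 1 F₁ e z w +
          (Yd g Complex.I F₂ e z w + 2 * C₀ ^ 2 * (Pq g h e z w + Rq h e z w))))
          (I (SmTFun.const_mul C₀ s1) e x hx) iDYYP,
        Eg_add (F := fun e z w => c * Dq h e z w) (G := fun e z w => Yd g 1 F₁ e z w +
          (Yd g Complex.I F₂ e z w + 2 * C₀ ^ 2 * (Pq g h e z w + Rq h e z w))) iD iYYP,
        Eg_add (F := Yd g 1 F₁) (G := fun e z w => Yd g Complex.I F₂ e z w +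
          2 * C₀ ^ 2 * (Pq g h e z w + Rq h e z w)) iY₁ iYP,
        Eg_add (F := Yd g Complex.I F₂) (G := fun e z w =>
          2 * C₀ ^ 2 * (Pq g h e z w + Rq h e z w)) iY₂ iP,
        Eg_const_mul (F := fun _ _ _ => (1 : ℝ)), Eg_const_mul (F := Dq h),
        Eg_const_mul (F := fun e z w => Pq g h e z w + Rq h e z w)]
    rw [k2, k3] at k1
    have hd := (hdet e x hx).le
    have hd' : 0 ≤ dt g e (e x) := hd
    have k4 : (c₀ / 2) * Tr g h e (e x) ^ 2 ≤ C₀ * C₁ + (c * Eg χ g (Dq h) e (e x) +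
          (Eg χ g (Yd g 1 F₁) e (e x) + (Eg χ g (Yd g Complex.I F₂) e (e x) +
            2 * C₀ ^ 2 * Eg χ g (fun e z w => Pq g h e z w + Rq h e z w) e (e x)))) := by
      have := mul_le_mul_of_nonneg_left m2 hC₀
      linarith
    have k5 := mul_le_mul_of_nonneg_right k4 hd'
    linarith
  -- integrate
  have dT : IsDensity fun e z => Tr g h e z * dt g e z :=
    isDensity_trace (F := fun T => T) hgH hh continuous_id
  have dT2 : IsDensity fun e z => Tr g h e z ^ 2 * dt g e z :=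
    isDensity_trace (F := fun T => T ^ 2) hgH hh (by fun_prop)
  have d0 : IsDensity fun e z => dt g e z := by
    have := isDensity_trace (F := fun _ => (1 : ℝ)) hgH hh continuous_const
    simpa [dt] using this
  have dD := (Dn sD).const_mul c
  have dY₁ := Dn sY₁
  have dY₂ := Dn sY₂
  have dP := (Dn sP).const_mul (2 * C₀ ^ 2)
  have e1 : (c₀ / 2) * intX (fun e z => Tr g h e z ^ 2 * dt g e z) ≤
      C₀ * C₁ * intX (fun e z => dt g e z) +
        (c * intX (fun e z => Eg χ g (Dq h) e z * dt g e z) +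
        (intX (fun e z => Eg χ g (Yd g 1 F₁) e z * dt g e z) +
        (intX (fun e z => Eg χ g (Yd g Complex.I F₂) e z * dt g e z) +
        2 * C₀ ^ 2 * intX (fun e z => Eg χ g (fun e z w => Pq g h e z w + Rq h e z w) e z *
          dt g e z)))) := by
    rw [← INT.intX_const_mul, ← INT.intX_const_mul, ← INT.intX_const_mul, ← INT.intX_const_mul,
      ← INT.intX_add dY₂ dP, ← INT.intX_add dY₁ (dY₂.add dP),
      ← INT.intX_add dD (dY₁.add (dY₂.add dP)),
      ← INT.intX_add (d0.const_mul (C₀ * C₁)) (dD.add (dY₁.add (dY₂.add dP)))]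
    exact INT.intX_mono (dT2.const_mul _) ((d0.const_mul (C₀ * C₁)).add
      (dD.add (dY₁.add (dY₂.add dP)))) fun e x hx => hX e x hx
  rw [hL1 χ hχ g hg F₁ hF₁ 1, hL1 χ hχ g hg F₂ hF₂ Complex.I] at e1
  have e2 := hl2 h hh g hg hric
  have e3 := hl5 g hg hric
  have e4 : intX (fun e z => (Tr g h e z + 1) * dt g e z) =
      intX (fun e z => Tr g h e z * dt g e z) + intX (fun e z => dt g e z) := by
    rw [← INT.intX_add dT d0]
    congr 1; funext e z; ring
  rw [e4] at e3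
  set S2 := intX (fun e z => Tr g h e z ^ 2 * dt g e z) with hS2
  set S1 := intX (fun e z => Tr g h e z * dt g e z) with hS1
  set S0 := intX (fun e z => dt g e z) with hS0
  have p2 : 0 ≤ S2 := INT.intX_nonneg fun e x hx => mul_nonneg (sq_nonneg _) (hdet e x hx).le
  have p0 : 0 ≤ S0 := INT.intX_nonneg fun e x hx => (hdet e x hx).le
  have e5 : (c₀ / 4) * S2 ≤ A * S1 + B * S0 := by
    have q1 := mul_le_mul_of_nonneg_left e3 hc
    have q2 := mul_le_mul_of_nonneg_left e2 (by positivity : 0 ≤ 2 * C₀ ^ 2)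
    have q3 : c * (c₀ / (4 * (c + 1)) * S2) ≤ (c₀ / 4) * S2 := by
      have : c * (c₀ / (4 * (c + 1))) ≤ c₀ / 4 := by
        rw [← mul_div_assoc, div_le_div_iff₀ (by positivity) (by norm_num)]
        nlinarith
      nlinarith
    rw [hA, hB]
    nlinarith
  have dq : IsDensity fun e z => (c₀ / 4) * (Tr g h e z ^ 2 * dt g e z) :=
    dT2.const_mul _
  have e6 : 0 ≤ (c₀ / 4) * S2 - (A + 1) * S1 + (A + 1) ^ 2 / c₀ * S0 := by
    rw [hS2, hS1, hS0, ← INT.intX_const_mul, ← INT.intX_const_mul, ← INT.intX_const_mul,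
      ← INT.intX_sub dq (dT.const_mul (A + 1)),
      ← INT.intX_add (dq.sub (dT.const_mul (A + 1))) (d0.const_mul ((A + 1) ^ 2 / c₀))]
    refine INT.intX_nonneg fun e x hx => ?_
    have : (c₀ / 4) * (Tr g h e (e x) ^ 2 * dt g e (e x)) - (A + 1) * (Tr g h e (e x) *
        dt g e (e x)) + (A + 1) ^ 2 / c₀ * dt g e (e x) =
        (c₀ / 4) * (Tr g h e (e x) - 2 * (A + 1) / c₀) ^ 2 * dt g e (e x) := by
      field_simp; ring
    rw [this]
    exact mul_nonneg (by positivity) (hdet e x hx).le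
  nlinarith

/-- from the bound of `∫ tr_g h` to the conclusion -/
theorem conclusion (hPI : PosOfIneq n X)
    {w h : Chart n X → Cm n → Matrix (Fin n) (Fin n) ℂ} (hw : IsKahler w) (hh : IsHermitian h)
    (hb : ∃ C : ℝ, ∀ g : Chart n X → Cm n → Matrix (Fin n) (Fin n) ℂ, IsKahler g → RicGe g →
      intX (fun e z => Tr g h e z * dt g e z) ≤ C * intX (fun e z => dt g e z))
    {a : ℝ} (hke : TwistedKE w a) {φ : Chart n X → Cm n → ℝ} (hφ : IsCanonicalMetric φ) :
    ∃ I : ℝ, 0 < I ∧ IsIntegral (fun e z => (cHess (φ e) z + (a : ℂ) • w e z).det.re) I := by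
  obtain ⟨C₁, hC₁⟩ := hb
  obtain ⟨C, hC, hCw⟩ := exists_comparison hh hw.toIsHermitian
  refine hPI w hw a φ hφ (C * C₁) fun t ht => ?_
  obtain ⟨ψ, hψ, hpos, hric⟩ := hke (t - a) (sub_pos.2 ht)
  have hta : a + (t - a) = t := by ring
  simp only [hta] at hpos hric
  refine ⟨ψ, hψ, hpos, ?_⟩
  have hg := isKahler_twist hψ hw t hpos
  set g : Chart n X → Cm n → Matrix (Fin n) (Fin n) ℂ :=
    fun e z => cHess (ψ e) z + (t : ℂ) • w e z with hgdef
  have hgH := hg.toIsHermitian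
  have hdet : ∀ e x, At e x → 0 < (g e (e x)).det.re := fun e x hx =>
    (Complex.lt_def.1 (hgH.posDef e x hx).det_pos).1
  have hd1 : IsDensity fun e z => Tr g h e z * dt g e z :=
    isDensity_trace (F := fun T => T) hgH hh continuous_id
  have hd4 : IsDensity fun e z => Tr g w e z * dt g e z :=
    isDensity_trace (F := fun T => T) hgH hw.toIsHermitian continuous_id
  have h7 : intX (fun e z => Tr g w e z * dt g e z) ≤
      C * intX (fun e z => Tr g h e z * dt g e z) := by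
    rw [← INT.intX_const_mul]
    refine INT.intX_mono hd4 (hd1.const_mul C) fun e x hx => ?_
    have h8 : 0 ≤ ((g e (e x))⁻¹ * ((C : ℂ) • h e (e x) - w e (e x))).trace.re :=
      trace_mul_nonneg_re (hgH.posDef e x hx).inv.posSemidef (hCw e x hx)
    rw [Matrix.mul_sub, Matrix.mul_smul, Matrix.trace_sub, Matrix.trace_smul, smul_eq_mul,
      Complex.sub_re, Complex.re_ofReal_mul] at h8
    have := mul_le_mul_of_nonneg_right (sub_nonneg.1 h8) (hdet e x hx).le
    unfold Tr dt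
    linarith
  calc intX (fun e z => ((g e z)⁻¹ * w e z).trace.re * (g e z).det.re)
      ≤ C * intX (fun e z => Tr g h e z * dt g e z) := h7
    _ ≤ C * (C₁ * intX (fun e z => dt g e z)) := mul_le_mul_of_nonneg_left (hC₁ g hg hric) hC.le
    _ = C * C₁ * intX (fun e z => (g e z).det.re) := by unfold dt; ring

end

end Vale.Agent.P272.K.T4
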