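import Vale.Agent.P272.K.T4.L5Iface
import Vale.Agent.P272.K.Asm.Twisted

/-! P272/T4, block L5, global half: general facts on integrals of nonnegative densities. -/

open scoped Manifold ContDiff ComplexOrder Topology
open Set Metric MeasureTheory Filter

set_option linter.all false

noncomputable section

namespace Vale.Agent.P272.K.T4

open INT (IsDensity intX part Part)

variable {n : ℕ}

section
variable {X : Type} [TopologicalSpace X] [T2Space X] [CompactSpace X] [ChartedSpace (Cm n) X]
  [IsManifold 𝓘(ℂ, Cm n) ω X]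

/-- the integral of a nonnegative density over a compact piece of a chart is at most its integral
over `X` -/
theorem setIntegral_le_intX {D : Chart n X → Cm n → ℝ} (hD : IsDensity D)
    (h0 : ∀ e x, At e x → 0 ≤ D e (e x)) {e : Chart n X} (he : e ∈ atlas (Cm n) X)
    {K : Set (Cm n)} (hK : IsCompact K) (hKe : K ⊆ e.target) :
    ∫ z in K, D e z ≤ intX D := by
  -- the compact set `e.symm '' K` and a cutoff function
  have hK' : IsCompact (e.symm '' K) :=
    hK.image_of_continuousOn (e.continuousOn_symm.mono hKe)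
  have hKs : e.symm '' K ⊆ e.source := by
    rintro _ ⟨z, hz, rfl⟩; exact e.map_target (hKe hz)
  obtain ⟨V, hVo, hKV, hVe⟩ := normal_exists_closure_subset hK'.isClosed e.open_source hKs
  obtain ⟨f, hf1, hf0, -, hf01⟩ := exists_continuous_one_zero_of_isCompact hK'
    hVo.isClosed_compl (disjoint_left.2 fun x hx hx' => hx' (hKV hx))
  have hsupp : tsupport (f : X → ℝ) ⊆ e.source := by
    refine (closure_mono ?_).trans hVe
    intro x hx
    by_contra hxV
    exact hx (hf0 hxV)
  have hDf : IsDensity fun e z => f (e.symm z) * D e z := hD.smul f.continuous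
  have h1 : intX (fun e z => f (e.symm z) * D e z) = ∫ z in e.target, f (e.symm z) * D e z := by
    refine INT.intX_of_support hDf he (isClosed_tsupport (f : X → ℝ)) hsupp ?_
    intro e' x hx hxK
    simp only [hx.left_inv]
    rw [image_eq_zero_of_notMem_tsupport hxK, zero_mul]
  have hint : IntegrableOn (fun z => f (e.symm z) * D e z) e.target :=
    INT.integrableOn_dens hD he f.continuous hsupp
  have hnn : ∀ z ∈ e.target, 0 ≤ f (e.symm z) * D e z := by
    intro z hz
    have := h0 e (e.symm z) (At.of_target he hz)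
    rw [e.right_inv hz] at this
    exact mul_nonneg (hf01 _).1 this
  have h2 : ∫ z in K, D e z = ∫ z in K, f (e.symm z) * D e z := by
    refine setIntegral_congr_fun hK.measurableSet fun z hz => ?_
    simp only [hf1 ⟨z, hz, rfl⟩]
    simp
  have h3 : ∫ z in K, f (e.symm z) * D e z ≤ ∫ z in e.target, f (e.symm z) * D e z := by
    refine setIntegral_mono_set hint ?_ (HasSubset.Subset.eventuallyLE hKe)
    filter_upwards [ae_restrict_mem e.open_target.measurableSet] with z hz using hnn z hz
  rw [h2]
  refine h3.trans ?_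
  rw [← h1]
  refine INT.intX_mono hDf hD fun e' x hx => ?_
  have := h0 e' x hx
  simp only [hx.left_inv]
  calc f x * D e' (e' x) ≤ 1 * D e' (e' x) := mul_le_mul_of_nonneg_right (hf01 x).2 this
    _ = _ := one_mul _

/-- `-i∂∂̄ log det g` is a `(1,1)`-form -/
lemma isForm_ric {g : Chart n X → Cm n → Matrix (Fin n) (Fin n) ℂ} (hg : IsHermitian g) :
    IsForm fun (e : Chart n X) z => cHess (fun y => Real.log (g e y).det.re) z :=
  isForm_canonical (φ := fun e y => Real.log (g e y).det.re)
    (fun e x hx => (((contDiffAt_re (contDiffAt_det (hg.smooth e x hx))).log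
      (hg.det_re_pos hx).ne').of_le (by exact WithTop.coe_le_coe.2 le_top)))
    (fun e e' x hx hx' => log_det_change hg hx hx')

lemma smooth_logdet {g : Chart n X → Cm n → Matrix (Fin n) (Fin n) ℂ} (hg : IsHermitian g)
    {e : Chart n X} {x : X} (hx : At e x) :
    ContDiffAt ℝ ∞ (fun y => Real.log (g e y).det.re) (e x) :=
  (contDiffAt_re (contDiffAt_det (hg.smooth e x hx))).log (hg.det_re_pos hx).ne'

lemma isForm_ric_add {g : Chart n X → Cm n → Matrix (Fin n) (Fin n) ℂ} (hg : IsHermitian g) :
    IsForm fun (e : Chart n X) z => -cHess (fun y => Real.log (g e y).det.re) z + g e z := by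
  have h1 : IsForm fun (e : Chart n X) z =>
      (-1 : ℂ) • cHess (fun y => Real.log (g e y).det.re) z + g e z :=
    IsForm.add ((isForm_ric hg).smul (-1)) hg.isForm
  have h2 : (fun (e : Chart n X) z => -cHess (fun y => Real.log (g e y).det.re) z + g e z) =
      fun (e : Chart n X) z =>
      (-1 : ℂ) • cHess (fun y => Real.log (g e y).det.re) z + g e z := by
    funext e z; simp
  rw [h2]; exact h1

/-- `⟨Ric_g + g, h⟩_g det g` is a density -/
lemma isDensity_Ml {g h : Chart n X → Cm n → Matrix (Fin n) (Fin n) ℂ} (hg : IsHermitian g)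
    (hh : IsHermitian h) : IsDensity fun e z => Ml (g e) (h e) z * (g e z).det.re where
  cont e x hx := by
    have hgi : ∀ i j, ContDiffAt ℝ ∞ (fun y => (g e y)⁻¹ i j) (e x) :=
      fun i j => contDiffAt_inv (hg.smooth e x hx) (hg.det_ne_zero hx) i j
    have hR : ∀ i j, ContDiffAt ℝ ∞
        (fun y => (-cHess (fun y => Real.log (g e y).det.re) y + g e y) i j) (e x) := by
      intro i j
      have h1 := contDiffAt_cHess (m := ∞) (smooth_logdet hg hx) (le_of_eq rfl) i j
      exact (h1.neg).add (hg.smooth e x hx i j)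
    have h3 := contDiffAt_trace_mul (contDiffAt_mul_entry (contDiffAt_mul_entry hgi hR) hgi)
      (hh.smooth e x hx)
    exact ((contDiffAt_re h3).mul (contDiffAt_re (contDiffAt_det (hg.smooth e x hx)))).continuousAt
  change e e' x hx hx' := by
    have h1 := trace_inv2 hg.isForm (isForm_ric_add hg) hh.isForm hx hx'
    simp only [← Matrix.mul_assoc] at h1
    unfold Ml
    rw [h1, det_form_re hg.isForm hx hx']
    ring

lemma Ml_nonneg {g h : Chart n X → Cm n → Matrix (Fin n) (Fin n) ℂ} (hg : IsHermitian g)
    (hh : IsHermitian h) (hric : RicGe g) {e : Chart n X} {x : X} (hx : At e x) :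
    0 ≤ Ml (g e) (h e) (e x) := by
  have hgx := hg.posDef e x hx
  have hP : ((g e (e x))⁻¹ * h e (e x) * (g e (e x))⁻¹).PosSemidef := by
    have := (hh.posDef e x hx).posSemidef.mul_mul_conjTranspose_same (g e (e x))⁻¹
    rwa [hgx.inv.isHermitian.eq] at this
  have h2 := C2.trace_mul_nonneg hP (hric e x hx)
  have h3 : ((g e (e x))⁻¹ * (-cHess (fun y => Real.log (g e y).det.re) (e x) + g e (e x)) *
      (g e (e x))⁻¹ * h e (e x)).trace = ((g e (e x))⁻¹ * h e (e x) * (g e (e x))⁻¹ *
        (-cHess (fun y => Real.log (g e y).det.re) (e x) + g e (e x))).trace := by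
    rw [Matrix.mul_assoc ((g e (e x))⁻¹ * _) (g e (e x))⁻¹ (h e (e x)), Matrix.trace_mul_comm,
      ← Matrix.mul_assoc]
  unfold Ml
  rw [h3]
  exact (Complex.le_def.1 h2).1

end

end Vale.Agent.P272.K.T4
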