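import Vale.Agent.P272.K.T4.Defs

/-! P272/T4, block L5: the local (one chart) estimate, as a proposition. -/

open scoped Manifold ContDiff ComplexOrder Topology
open Set Metric MeasureTheory

noncomputable section

namespace Vale.Agent.P272.K.T4

variable {n : ℕ}

/-- fibre average in one chart: `Eg χ g F e z = El χ (g e) (F e) z` by definition -/
def El (χ : ℝ → ℝ) (g : Cm n → Matrix (Fin n) (Fin n) ℂ) (F : Cm n → Cm n → ℝ) (z : Cm n) : ℝ :=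
  ∫ w : Cm n, F z w * χ (quad (g z) w).re * (g z).det.re

/-- `tr_g h` in one chart -/
def Tl (g h : Cm n → Matrix (Fin n) (Fin n) ℂ) (z : Cm n) : ℝ := ((g z)⁻¹ * h z).trace.re

/-- `|Γ_h(w,w) - Γ_g(w,w)|_h²` in one chart -/
def Pl (g h : Cm n → Matrix (Fin n) (Fin n) ℂ) (z w : Cm n) : ℝ :=
  (quad (h z) (P1.dGam g h z w)).re

/-- `-R^h(w,w̄,w,w̄)` in one chart -/
def Rl (h : Cm n → Matrix (Fin n) (Fin n) ℂ) (z w : Cm n) : ℝ := -(quart (curv h z) w).re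

/-- `|R^h(w,w̄)w|_h²` in one chart -/
def Xl (h : Cm n → Matrix (Fin n) (Fin n) ℂ) (z w : Cm n) : ℝ := (quad (h z) (xiV h z w)).re

/-- `⟨Ric_g + g, h⟩_g` in one chart -/
def Ml (g h : Cm n → Matrix (Fin n) (Fin n) ℂ) (z : Cm n) : ℝ :=
  ((g z)⁻¹ * (-cHess (fun y => Real.log (g y).det.re) z + g z) * (g z)⁻¹ * h z).trace.re

/-- smooth positive definite matrix function on `U` -/
structure SmPos (U : Set (Cm n)) (g : Cm n → Matrix (Fin n) (Fin n) ℂ) : Prop where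
  smooth : ∀ z ∈ U, ∀ i j, ContDiffAt ℝ ∞ (fun y => g y i j) z
  pos : ∀ z ∈ U, (g z).PosDef

/-- The local estimate. -/
def LocalL5 (n : ℕ) : Prop :=
  ∀ (χ : ℝ → ℝ) (_ : Wt χ) (U : Set (Cm n)) (_ : IsOpen U)
    (h : Cm n → Matrix (Fin n) (Fin n) ℂ) (_ : SmPos U h)
    (_ : ∀ z ∈ U, ∀ ξ : Cm n, (quart (curv h z) ξ).re ≤ 0)
    (ψ : Cm n → ℝ) (_ : ContDiff ℝ ∞ ψ) (_ : HasCompactSupport ψ) (_ : tsupport ψ ⊆ U)
    (_ : ∀ z, 0 ≤ ψ z) (ε : ℝ) (_ : 0 < ε), ∃ C : ℝ, 0 ≤ C ∧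
    ∀ (g : Cm n → Matrix (Fin n) (Fin n) ℂ) (_ : SmPos U g)
      (_ : ∀ z ∈ U, ∀ i j k, dz k (fun y => g y i j) z = dz i (fun y => g y k j) z)
      (_ : ∀ z ∈ U, (-cHess (fun y => Real.log (g y).det.re) z + g z).PosSemidef),
      ∫ z in U, ψ z * (El χ g (Xl h) z / Tl g h z * (g z).det.re) ≤
        ∫ z in tsupport ψ, (ε * Tl g h z ^ 2 +
          C * (El χ g (fun z w => Pl g h z w + Rl h z w) z + Ml g h z)) * (g z).det.re

end Vale.Agent.P272.K.T4
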