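import Vale.Agent.P272.K.T4.L5Glob
import Vale.Agent.P272.K.T4.BlockA
import Vale.Agent.P272.K.T4.L3

/-! P272/T4, block L5: `LocalL5` implies `L5Statement` (all other inputs proved). -/

open scoped Manifold ContDiff

set_option linter.all false

noncomputable section

namespace Vale.Agent.P272.K.T4

theorem g2 (n : ℕ) (X : Type) [TopologicalSpace X] [T2Space X] [CompactSpace X]
    [ChartedSpace (Cm n) X] [IsManifold 𝓘(ℂ, Cm n) ω X] : G2Statement n X := by
  obtain ⟨χ, hχ⟩ := exists_wt
  exact fun h hh hneg g hg _ => G2 hχ hg hh hneg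

theorem l5_of_local {n : ℕ} (hL : LocalL5 n) (X : Type) [TopologicalSpace X] [T2Space X]
    [CompactSpace X] [ChartedSpace (Cm n) X] [IsManifold 𝓘(ℂ, Cm n) ω X] : L5Statement n X :=
  l5_of hL (l2 n X) (mom n X) (g2 n X)

end Vale.Agent.P272.K.T4
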