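import Vale.Agent.P272.K.T4.Chr

/-! P272/T4, block (b2a): the transition maps of the tangent bundle preserve the spray. -/

open scoped Manifold ContDiff ComplexOrder Topology Matrix
open Set Metric

set_option linter.unusedSectionVars false

noncomputable section

namespace Vale.Agent.P272.K.T4

open LIN

variable {n : ℕ} {X : Type*} [TopologicalSpace X] [ChartedSpace (Cm n) X]
  {h : Chart n X → Cm n → Matrix (Fin n) (Fin n) ℂ} {e e' : Chart n X} {x : X}

/-- transition map of the tangent bundle -/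
def TM (e e' : Chart n X) (p : Cm n × Cm n) : Cm n × Cm n :=
  (e' (e.symm p.1), (jacM e e' (e.symm p.1)).mulVec p.2)

variable [IsManifold 𝓘(ℂ, Cm n) ω X]

lemma TM_contDiffAt (hx : At e x) (hx' : At e' x) (w : Cm n) :
    ContDiffAt ℝ ∞ (TM e e') (e x, w) := by
  have h1 : ContDiffAt ℝ ∞ (fun z => e' (e.symm z)) (e x) :=
    ((transition hx hx').restrict_scalars ℝ).of_le (by exact le_top)
  have h2 : ∀ p i, ContDiffAt ℝ ∞ (fun z => jacM e e' (e.symm z) p i) (e x) := fun p i =>
    ((jacM_holo hx hx' p i).restrict_scalars ℝ).of_le (by exact le_top)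
  have hf : ContDiffAt ℝ ∞ (fun p : Cm n × Cm n => p.1) (e x, w) := contDiffAt_fst
  refine ContDiffAt.prodMk (ContDiffAt.comp (g := fun z => e' (e.symm z)) (e x, w) h1 hf) ?_
  rw [contDiffAt_pi]
  intro m
  have : (fun p : Cm n × Cm n => (jacM e e' (e.symm p.1)).mulVec p.2 m) =
      fun p => ∑ k, jacM e e' (e.symm p.1) m k * p.2 k := rfl
  show ContDiffAt ℝ ∞ (fun p : Cm n × Cm n => (jacM e e' (e.symm p.1)).mulVec p.2 m) (e x, w)
  rw [this]
  refine ContDiffAt.sum fun k _ => ?_
  refine ContDiffAt.mul (ContDiffAt.comp (g := fun z => jacM e e' (e.symm z) m k) (e x, w)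
    (h2 m k) hf) ?_
  have h3 : ContDiffAt ℝ ∞ (fun p : Cm n × Cm n => p.2) (e x, w) := contDiffAt_snd
  exact (contDiffAt_pi.1 h3) k

/-- the differential of the transition map of the tangent bundle -/
lemma fderiv_TM (hx : At e x) (hx' : At e' x) (w u v : Cm n) :
    fderiv ℝ (TM e e') (e x, w) (u, v) = ((jacM e e' x).mulVec u,
      (∑ i, u i • C2.DM i (fun z => jacM e e' (e.symm z)) (e x)).mulVec w +
        (jacM e e' x).mulVec v) := by
  have hd : DifferentiableAt ℝ (TM e e') (e x, w) :=
    (TM_contDiffAt hx hx' w).differentiableAt (by simp)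
  have h1 : DifferentiableAt ℝ (fun p => (TM e e' p).1) (e x, w) := hd.fst
  have h2 : DifferentiableAt ℝ (fun p => (TM e e' p).2) (e x, w) := hd.snd
  have hsplit : fderiv ℝ (TM e e') (e x, w) (u, v) =
      (fderiv ℝ (fun p => (TM e e' p).1) (e x, w) (u, v),
        fderiv ℝ (fun p => (TM e e' p).2) (e x, w) (u, v)) := by
    have := h1.fderiv_prodMk h2
    have e1 : (fun p => ((TM e e' p).1, (TM e e' p).2)) = TM e e' := rfl
    rw [e1] at this
    rw [this]; rfl
  rw [hsplit]
  refine Prod.ext ?_ ?_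
  · -- first component
    have hτ := transition_differentiableAt hx hx'
    have hτR : HasFDerivAt (fun z => e' (e.symm z)) (fderiv ℝ (fun z => e' (e.symm z)) (e x)) (e x) :=
      (hτ.restrictScalars ℝ).hasFDerivAt
    have hc : HasFDerivAt (fun p : Cm n × Cm n => e' (e.symm p.1))
        ((fderiv ℝ (fun z => e' (e.symm z)) (e x)).comp (ContinuousLinearMap.fst ℝ (Cm n) (Cm n)))
        (e x, w) :=
      HasFDerivAt.comp (g := fun z => e' (e.symm z)) (e x, w) hτR hasFDerivAt_fst
    show fderiv ℝ (fun p : Cm n × Cm n => e' (e.symm p.1)) (e x, w) (u, v) = _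
    rw [hc.fderiv]
    funext p
    show (fderiv ℝ (fun z => e' (e.symm z)) (e x) u) p = _
    rw [fderivR_of_holo hτ, jmat_mulVec hτ]
    rfl
  · -- second component
    funext m
    have hJ : ∀ k, HasFDerivAt (fun z => jacM e e' (e.symm z) m k)
        (fderiv ℝ (fun z => jacM e e' (e.symm z) m k) (e x)) (e x) := fun k =>
      (((jacM_holo hx hx' m k).differentiableAt (by simp)).restrictScalars ℝ).hasFDerivAt
    have hk : ∀ k, HasFDerivAt (fun p : Cm n × Cm n => jacM e e' (e.symm p.1) m k * p.2 k)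
        (jacM e e' x m k • ((ContinuousLinearMap.proj k : Cm n →L[ℝ] ℂ).comp
          (ContinuousLinearMap.snd ℝ (Cm n) (Cm n))) + w k •
          ((fderiv ℝ (fun z => jacM e e' (e.symm z) m k) (e x)).comp
            (ContinuousLinearMap.fst ℝ (Cm n) (Cm n)))) (e x, w) := by
      intro k
      have a1 : HasFDerivAt (fun p : Cm n × Cm n => jacM e e' (e.symm p.1) m k)
          ((fderiv ℝ (fun z => jacM e e' (e.symm z) m k) (e x)).comp
            (ContinuousLinearMap.fst ℝ (Cm n) (Cm n))) (e x, w) :=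
        HasFDerivAt.comp (g := fun z => jacM e e' (e.symm z) m k) (e x, w) (hJ k) hasFDerivAt_fst
      have a2 : HasFDerivAt (fun p : Cm n × Cm n => p.2 k)
          ((ContinuousLinearMap.proj k : Cm n →L[ℝ] ℂ).comp
          (ContinuousLinearMap.snd ℝ (Cm n) (Cm n))) (e x, w) :=
        ((ContinuousLinearMap.proj k : Cm n →L[ℝ] ℂ).comp
          (ContinuousLinearMap.snd ℝ (Cm n) (Cm n))).hasFDerivAt
      have a3 := a1.fun_mul a2
      simp only [hx.left_inv] at a3
      exact a3
    have hsum : HasFDerivAt (fun p : Cm n × Cm n => ∑ k, jacM e e' (e.symm p.1) m k * p.2 k)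
        (∑ k, (jacM e e' x m k • ((ContinuousLinearMap.proj k : Cm n →L[ℝ] ℂ).comp
          (ContinuousLinearMap.snd ℝ (Cm n) (Cm n))) + w k •
          ((fderiv ℝ (fun z => jacM e e' (e.symm z) m k) (e x)).comp
            (ContinuousLinearMap.fst ℝ (Cm n) (Cm n))))) (e x, w) :=
      HasFDerivAt.fun_sum fun k _ => hk k
    have hm : fderiv ℝ (fun p => (TM e e' p).2) (e x, w) (u, v) m =
        fderiv ℝ (fun p : Cm n × Cm n => ∑ k, jacM e e' (e.symm p.1) m k * p.2 k) (e x, w) (u, v) := by
      rw [← ContinuousLinearMap.proj_apply (R := ℝ) (φ := fun _ : Fin n => ℂ) m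
        (fderiv ℝ (fun p => (TM e e' p).2) (e x, w) (u, v)), ← ContinuousLinearMap.comp_apply,
        ← fderiv_apply h2 m]
      rfl
    show fderiv ℝ (fun p => (TM e e' p).2) (e x, w) (u, v) m = _
    rw [hm, hsum.fderiv]
    simp only [sum_apply, add_apply, smul_apply, ContinuousLinearMap.comp_apply,
      ContinuousLinearMap.coe_fst', ContinuousLinearMap.coe_snd', ContinuousLinearMap.proj_apply,
      smul_eq_mul, Pi.add_apply, Matrix.mulVec, dotProduct, Matrix.sum_apply, Matrix.smul_apply,
      C2.DM_apply, Finset.sum_add_distrib]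
    rw [add_comm]
    congr 1
    refine Finset.sum_congr rfl fun k _ => ?_
    rw [fderiv_eq, Finset.sum_mul, Finset.mul_sum]
    refine Finset.sum_congr rfl fun i _ => ?_
    rw [dzb_of_holo ((jacM_holo hx hx' m k).differentiableAt (by simp))]
    ring

/-- the transition maps of the tangent bundle preserve the spray -/
theorem TM_spray (hh : IsHermitian h) (hx : At e x) (hx' : At e' x) (b : ℂ) (w : Cm n) :
    fderiv ℝ (TM e e') (e x, w) (spray (h e) b (e x, w)) =
      spray (h e') b (TM e e' (e x, w)) := by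
  have hT : TM e e' (e x, w) = (e' x, (jacM e e' x).mulVec w) := by
    simp only [TM]; rw [hx.left_inv]
  rw [hT]
  simp only [spray]
  rw [fderiv_TM hx hx']
  refine Prod.ext ?_ ?_
  · simp only [Matrix.mulVec_smul]
  · have hc := chr_change hh hx hx' w
    simp only [Matrix.mulVec_neg, Matrix.mulVec_smul, hc, hessJ]
    have : ∑ i, (b • w) i • C2.DM i (fun z => jacM e e' (e.symm z)) (e x) =
        b • ∑ i, w i • C2.DM i (fun z => jacM e e' (e.symm z)) (e x) := by
      rw [Finset.smul_sum]
      exact Finset.sum_congr rfl fun i _ => by rw [Pi.smul_apply, smul_eq_mul, smul_smul]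
    rw [this, Matrix.smul_mulVec, smul_add]
    abel

end Vale.Agent.P272.K.T4
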