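import Vale.Agent.P272.K.T4.FibD
import Vale.Agent.P272.K.T4.TMap

/-! # Fibre averages on the manifold: DensStatement; the real derivative along the spray -/

open scoped Manifold ContDiff ComplexOrder Topology
open Complex Set Filter MeasureTheory

set_option linter.all false

noncomputable section

namespace Vale.Agent.P272.K.T4

open INT (IsDensity intX)

variable {n : ℕ} {X : Type*} [TopologicalSpace X] [ChartedSpace (Cm n) X]
  {χ : ℝ → ℝ} {g : Chart n X → Cm n → Matrix (Fin n) (Fin n) ℂ}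
  {F : Chart n X → Cm n → Cm n → ℝ} {e e' : Chart n X} {x : X}

lemma Eg_eq (χ : ℝ → ℝ) (g : Chart n X → Cm n → Matrix (Fin n) (Fin n) ℂ)
    (F : Chart n X → Cm n → Cm n → ℝ) (e : Chart n X) (z : Cm n) :
    Eg χ g F e z = (∫ w : Cm n, χ (quad (g e z) w).re • F e z w) * dt g e z := by
  unfold Eg dt
  rw [← integral_mul_const]
  congr 1; funext w; rw [smul_eq_mul]; ring

lemma at_target (he : e ∈ atlas (Cm n) X) {z : Cm n} (hz : z ∈ e.target) :
    At e (e.symm z) ∧ e (e.symm z) = z := ⟨⟨he, e.map_target hz⟩, e.right_inv hz⟩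

lemma herm_cont (hg : IsHermitian g) (he : e ∈ atlas (Cm n) X) {z : Cm n} (hz : z ∈ e.target)
    (i j : Fin n) : ContinuousAt (fun y => g e y i j) z := by
  obtain ⟨h1, h2⟩ := at_target he hz
  have := (hg.smooth e _ h1 i j).continuousAt
  rwa [h2] at this

lemma herm_pos (hg : IsHermitian g) (he : e ∈ atlas (Cm n) X) {z : Cm n} (hz : z ∈ e.target) :
    (g e z).PosDef := by
  obtain ⟨h1, h2⟩ := at_target he hz
  have := hg.posDef e _ h1
  rwa [h2] at this

lemma ctfun_cont (hF : CTFun F) (he : e ∈ atlas (Cm n) X) {z : Cm n} (hz : z ∈ e.target)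
    (w : Cm n) : ContinuousAt (fun p : Cm n × Cm n => F e p.1 p.2) (z, w) := by
  obtain ⟨h1, h2⟩ := at_target he hz
  have := hF.cont e _ w h1
  rwa [h2] at this

lemma ctfun_fibre (hF : CTFun F) (hx : At e x) : Continuous fun w => F e (e x) w :=
  cont_fibre (F := fun p : Cm n × Cm n => F e p.1 p.2) fun w => hF.cont e x w hx

lemma Eg_cont (hχ : Wt χ) (hg : IsHermitian g) (hF : CTFun F) (hx : At e x) :
    ContinuousAt (fun z => Eg χ g F e z) (e x) := by
  have h1 : (fun z => Eg χ g F e z) = fun z =>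
      (∫ w : Cm n, χ (quad (g e z) w).re • F e z w) * dt g e z := by
    funext z; exact Eg_eq χ g F e z
  rw [h1]
  refine ContinuousAt.mul ?_ (det_contAt fun i j => (hg.smooth e x hx i j).continuousAt)
  exact fib_cont_param (F := fun p : Cm n × Cm n => F e p.1 p.2) hχ e.open_target
    (fun z hz => herm_cont hg hx.1 hz) (fun z hz => herm_pos hg hx.1 hz)
    (fun z hz w => ctfun_cont hF hx.1 hz w) hx.mem_target

variable [IsManifold 𝓘(ℂ, Cm n) ω X]

lemma dt_change (hg : IsHermitian g) (hx : At e x) (hx' : At e' x) :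
    dt g e (e x) = ‖(jacM e e' x).det‖ ^ 2 * dt g e' (e' x) :=
  det_form_re hg.isForm hx hx'

lemma Eg_change (hg : IsHermitian g) (hF : IsTFun F) (hx : At e x) (hx' : At e' x) :
    Eg χ g F e (e x) = Eg χ g F e' (e' x) := by
  rw [Eg_eq, Eg_eq, dt_change hg hx hx']
  have h1 := fib_form (χ := χ) (M := g e' (e' x)) (jacM_isUnit hx hx') (F e' (e' x))
  rw [← h1, hg.change e e' x hx hx', smul_eq_mul]
  have h2 : (fun w => χ (quad ((jacM e e' x).transpose * g e' (e' x) *
      (jacM e e' x).map (starRingEnd ℂ)) w).re • F e (e x) w) = fun w =>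
      χ (quad ((jacM e e' x).transpose * g e' (e' x) *
      (jacM e e' x).map (starRingEnd ℂ)) w).re • F e' (e' x) ((jacM e e' x).mulVec w) := by
    funext w; rw [hF e e' x w hx hx']
  rw [h2]; ring

theorem Eg_isDensity (hχ : Wt χ) (hg : IsHermitian g) (hF : CTFun F) :
    IsDensity fun e z => Eg χ g F e z * dt g e z where
  cont e x h := (Eg_cont hχ hg hF h).mul (det_contAt fun i j => (hg.smooth e x h i j).continuousAt)
  change e e' x h h' := by
    show Eg χ g F e (e x) * dt g e (e x) = Eg χ g F e' (e' x) * dt g e' (e' x) * _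
    rw [Eg_change hg hF.change h h', dt_change hg h h']; ring

lemma Eg_int (hχ : Wt χ) (hg : IsHermitian g) (hF : CTFun F) (hx : At e x) :
    Integrable fun w : Cm n => F e (e x) w * χ (quad (g e (e x)) w).re * (g e (e x)).det.re := by
  have h := (fib_int hχ (hg.posDef e x hx) (ctfun_fibre hF hx)).mul_const (g e (e x)).det.re
  refine h.congr (Eventually.of_forall fun w => ?_)
  simp only [smul_eq_mul]; ring

theorem dens (n : ℕ) (X : Type) [TopologicalSpace X] [T2Space X] [CompactSpace X]
    [ChartedSpace (Cm n) X] [IsManifold 𝓘(ℂ, Cm n) ω X] : DensStatement n X :=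
  fun χ hχ g hg F hF => ⟨fun e x hx => Eg_int hχ hg hF hx, Eg_isDensity hχ hg hF⟩

end Vale.Agent.P272.K.T4
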