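import Vale.Agent.P272.K.T4.TMap

/-! P272/T4, block (b2a): smoothness of the spray, and the bracket of the two real fields. -/

open scoped Manifold ContDiff ComplexOrder Topology Matrix
open Set Metric

set_option linter.unusedSectionVars false

noncomputable section

namespace Vale.Agent.P272.K.T4

open LIN

variable {n : ℕ} {h : Cm n → Matrix (Fin n) (Fin n) ℂ} {z w : Cm n}

/-- the Christoffel matrix `(Γ_i)_{k m} = Γ^m_{i k}` -/
def chrM (h : Cm n → Matrix (Fin n) (Fin n) ℂ) (i : Fin n) (z : Cm n) :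
    Matrix (Fin n) (Fin n) ℂ := C2.DM i h z * (h z)⁻¹

lemma chr_apply (h : Cm n → Matrix (Fin n) (Fin n) ℂ) (z w : Cm n) (m : Fin n) :
    chr h z w m = ∑ i, ∑ k, w i * w k * chrM h i z k m := rfl

/-- the vector `Σ R_{i j̄ k l̄} w_i w̄_j w_k`, indexed by `l` -/
def crv (h : Cm n → Matrix (Fin n) (Fin n) ℂ) (z w : Cm n) (l : Fin n) : ℂ :=
  ∑ i, ∑ j, ∑ k, curv h z i j k l * (w i * (starRingEnd ℂ) (w j) * w k)

lemma chrM_contDiffAt (hs : C2.MC ∞ h z) (h0 : (h z).det ≠ 0) (i : Fin n) :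
    C2.MC ∞ (chrM h i) z :=
  (hs.DM (m' := ∞) (le_of_eq rfl)).mul (hs.inv h0)

lemma chr_contDiffAt (hs : C2.MC ∞ h z) (h0 : (h z).det ≠ 0) (w : Cm n) :
    ContDiffAt ℝ ∞ (fun p : Cm n × Cm n => chr h p.1 p.2) (z, w) := by
  rw [contDiffAt_pi]
  intro m
  have h3 : ContDiffAt ℝ ∞ (fun p : Cm n × Cm n => p.2) (z, w) := contDiffAt_snd
  have hf : ContDiffAt ℝ ∞ (fun p : Cm n × Cm n => p.1) (z, w) := contDiffAt_fst
  show ContDiffAt ℝ ∞ (fun p : Cm n × Cm n => ∑ i, ∑ k, p.2 i * p.2 k * chrM h i p.1 k m) (z, w)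
  refine ContDiffAt.sum fun i _ => ContDiffAt.sum fun k _ => ?_
  refine (((contDiffAt_pi.1 h3) i).mul ((contDiffAt_pi.1 h3) k)).mul ?_
  exact ContDiffAt.comp (g := fun z => chrM h i z k m) (z, w) (chrM_contDiffAt hs h0 i k m) hf

lemma spray_contDiffAt (hs : C2.MC ∞ h z) (h0 : (h z).det ≠ 0) (b : ℂ) (w : Cm n) :
    ContDiffAt ℝ ∞ (spray h b) (z, w) := by
  have h3 : ContDiffAt ℝ ∞ (fun p : Cm n × Cm n => p.2) (z, w) := contDiffAt_snd
  exact (h3.const_smul b).prodMk ((chr_contDiffAt hs h0 w).const_smul b).neg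

/-- the derivative of the `m`-th component of the Christoffel vector -/
lemma hasFDerivAt_chr (hs : C2.MC ∞ h z) (h0 : (h z).det ≠ 0) (w : Cm n) (m : Fin n) (u v : Cm n) :
    fderiv ℝ (fun p : Cm n × Cm n => chr h p.1 p.2) (z, w) (u, v) m =
      ∑ i, ∑ k, ((v i * w k + w i * v k) * chrM h i z k m +
        w i * w k * fderiv ℝ (fun z => chrM h i z k m) z u) := by
  have hd : DifferentiableAt ℝ (fun p : Cm n × Cm n => chr h p.1 p.2) (z, w) :=
    (chr_contDiffAt hs h0 w).differentiableAt (by simp)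
  have hm : fderiv ℝ (fun p : Cm n × Cm n => chr h p.1 p.2) (z, w) (u, v) m =
      fderiv ℝ (fun p : Cm n × Cm n => chr h p.1 p.2 m) (z, w) (u, v) := by
    rw [← ContinuousLinearMap.proj_apply (R := ℝ) (φ := fun _ : Fin n => ℂ) m
        (fderiv ℝ (fun p : Cm n × Cm n => chr h p.1 p.2) (z, w) (u, v)),
        ← ContinuousLinearMap.comp_apply, ← fderiv_apply hd m]
  have hw : ∀ i, HasFDerivAt (fun p : Cm n × Cm n => p.2 i)
      ((ContinuousLinearMap.proj i : Cm n →L[ℝ] ℂ).comp
        (ContinuousLinearMap.snd ℝ (Cm n) (Cm n))) (z, w) := fun i =>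
    ((ContinuousLinearMap.proj i : Cm n →L[ℝ] ℂ).comp
        (ContinuousLinearMap.snd ℝ (Cm n) (Cm n))).hasFDerivAt
  have hc : ∀ i k, HasFDerivAt (fun p : Cm n × Cm n => chrM h i p.1 k m)
      ((fderiv ℝ (fun z => chrM h i z k m) z).comp (ContinuousLinearMap.fst ℝ (Cm n) (Cm n)))
      (z, w) := fun i k =>
    HasFDerivAt.comp (g := fun z => chrM h i z k m) (z, w)
      (((chrM_contDiffAt hs h0 i k m).differentiableAt (by simp)).hasFDerivAt) hasFDerivAt_fst
  have hall := HasFDerivAt.fun_sum (u := Finset.univ) fun i _ =>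
    HasFDerivAt.fun_sum (u := Finset.univ) fun k _ => ((hw i).fun_mul (hw k)).fun_mul (hc i k)
  have e1 : (fun p : Cm n × Cm n => chr h p.1 p.2 m) =
      fun p : Cm n × Cm n => ∑ i, ∑ k, p.2 i * p.2 k * chrM h i p.1 k m := rfl
  rw [hm, e1, hall.fderiv]
  simp only [sum_apply, add_apply, smul_apply, ContinuousLinearMap.comp_apply,
      ContinuousLinearMap.coe_fst', ContinuousLinearMap.coe_snd', ContinuousLinearMap.proj_apply,
      smul_eq_mul]
  refine Finset.sum_congr rfl fun i _ => Finset.sum_congr rfl fun k _ => ?_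
  ring

/-- `∂_j̄ Γ^m_{ik} = -R_{i j̄ k l̄} h^{l̄ m}` -/
lemma dzb_chrM (hs : C2.MC ∞ h z) (h0 : (h z).det ≠ 0) (i j k m : Fin n) :
    dzb j (fun z => chrM h i z k m) z = -∑ l, curv h z i j k l * (h z)⁻¹ l m := by
  have hle2 : (2 : WithTop ℕ∞) ≤ ∞ := by exact WithTop.coe_le_coe.2 le_top
  have hle1 : (1 : WithTop ℕ∞) ≤ ∞ := by exact WithTop.coe_le_coe.2 le_top
  have h1 : C2.DMb j (chrM h i) z = -((-C2.DM i (C2.DMb j h) z +
      C2.DM i h z * (h z)⁻¹ * C2.DMb j h z) * (h z)⁻¹) := by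
    have hD : C2.MC ∞ (C2.DM i h) z := hs.DM (m' := ∞) (le_of_eq rfl)
    rw [show chrM h i = fun z => C2.DM i h z * (h z)⁻¹ from rfl,
      C2.DMb_mul (hD.md (by simp)) ((hs.inv h0).md (by simp)), C2.DMb_inv (hs.mono hle1) h0,
      ← C2.DM_DMb_comm (hs.mono hle2)]
    simp only [Matrix.mul_assoc, Matrix.add_mul, Matrix.neg_mul, Matrix.mul_neg]
    abel
  have h2 : ∀ l, curv h z i j k l = (-C2.DM i (C2.DMb j h) z +
      C2.DM i h z * (h z)⁻¹ * C2.DMb j h z) k l := by
    intro l
    rw [curv, Matrix.add_apply, Matrix.neg_apply]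
    congr 1
    rw [Matrix.mul_assoc, Matrix.mul_apply]
    refine Finset.sum_congr rfl fun q _ => ?_
    rw [Matrix.mul_apply, Finset.mul_sum]
    refine Finset.sum_congr rfl fun p _ => ?_
    simp only [C2.DM_apply, C2.DMb_apply]
    ring
  show C2.DMb j (chrM h i) z k m = _
  rw [h1, Matrix.neg_apply, Matrix.mul_apply]
  congr 1
  exact Finset.sum_congr rfl fun l _ => by rw [h2]

/-- the bracket of the two real fields vanishes where `R(w, w̄) w = 0` -/
theorem spray_bracket (hs : C2.MC ∞ h z) (h0 : (h z).det ≠ 0) (w : Cm n)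
    (hR : ∀ l, crv h z w l = 0) :
    fderiv ℝ (spray h 1) (z, w) (spray h Complex.I (z, w)) =
      fderiv ℝ (spray h Complex.I) (z, w) (spray h 1 (z, w)) := by
  have hd : DifferentiableAt ℝ (fun p : Cm n × Cm n => chr h p.1 p.2) (z, w) :=
    (chr_contDiffAt hs h0 w).differentiableAt (by simp)
  have hsp : ∀ (b : ℂ) (u v : Cm n), fderiv ℝ (spray h b) (z, w) (u, v) =
      (b • v, -(b • fderiv ℝ (fun p : Cm n × Cm n => chr h p.1 p.2) (z, w) (u, v))) := by
    intro b u v
    have h1 : HasFDerivAt (spray h b) ((b • ContinuousLinearMap.snd ℝ (Cm n) (Cm n)).prod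
        (-(b • fderiv ℝ (fun p : Cm n × Cm n => chr h p.1 p.2) (z, w)))) (z, w) :=
      (hasFDerivAt_snd.const_smul b).prodMk (hd.hasFDerivAt.const_smul b).neg
    rw [h1.fderiv]
    rfl
  -- the key identity
  have key : fderiv ℝ (fun p : Cm n × Cm n => chr h p.1 p.2) (z, w)
      (Complex.I • w, -(Complex.I • chr h z w)) =
      Complex.I • fderiv ℝ (fun p : Cm n × Cm n => chr h p.1 p.2) (z, w)
        ((1 : ℂ) • w, -((1 : ℂ) • chr h z w)) := by
    funext m
    rw [Pi.smul_apply, hasFDerivAt_chr hs h0, hasFDerivAt_chr hs h0, smul_eq_mul, ← sub_eq_zero,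
      Finset.mul_sum, ← Finset.sum_sub_distrib]
    have h1 : ∀ i, (∑ k, (((-(Complex.I • chr h z w)) i * w k + w i * (-(Complex.I • chr h z w)) k) *
        chrM h i z k m + w i * w k * fderiv ℝ (fun z => chrM h i z k m) z (Complex.I • w))) -
        Complex.I * (∑ k, (((-((1 : ℂ) • chr h z w)) i * w k + w i * (-((1 : ℂ) • chr h z w)) k) *
        chrM h i z k m + w i * w k * fderiv ℝ (fun z => chrM h i z k m) z ((1 : ℂ) • w))) =
        ∑ k, ∑ j, (-2 * Complex.I) * (w i * w k * (starRingEnd ℂ) (w j) *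
          dzb j (fun z => chrM h i z k m) z) := by
      intro i
      rw [Finset.mul_sum, ← Finset.sum_sub_distrib]
      refine Finset.sum_congr rfl fun k _ => ?_
      have h2 : fderiv ℝ (fun z => chrM h i z k m) z (Complex.I • w) =
          Complex.I * fderiv ℝ (fun z => chrM h i z k m) z ((1 : ℂ) • w) +
            ∑ j, (-2 * Complex.I) * ((starRingEnd ℂ) (w j) * dzb j (fun z => chrM h i z k m) z) := by
        rw [fderiv_eq, fderiv_eq, Finset.mul_sum, ← Finset.sum_add_distrib]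
        refine Finset.sum_congr rfl fun j _ => ?_
        have h3 : cj ((Complex.I • w) j) = -Complex.I * cj (w j) := by
          simp [cj]
        rw [h3, Pi.smul_apply, one_smul, smul_eq_mul]
        show _ = Complex.I * (dz j (fun z => chrM h i z k m) z * w j +
          dzb j (fun z => chrM h i z k m) z * cj (w j)) + (-2 * Complex.I) * (cj (w j) *
            dzb j (fun z => chrM h i z k m) z)
        ring
      rw [h2]
      simp only [Pi.neg_apply, Pi.smul_apply, smul_eq_mul, one_smul, mul_add, Finset.mul_sum,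
        add_mul]
      have h4 : ∀ j, w i * w k * (-2 * Complex.I * ((starRingEnd ℂ) (w j) *
          dzb j (fun z => chrM h i z k m) z)) = -2 * Complex.I * (w i * w k *
          (starRingEnd ℂ) (w j) * dzb j (fun z => chrM h i z k m) z) := fun j => by ring
      rw [Finset.sum_congr rfl fun j _ => h4 j]
      ring
    rw [Finset.sum_congr rfl fun i _ => h1 i]
    have h5 : ∑ i, ∑ k, ∑ j, (-2 * Complex.I) * (w i * w k * (starRingEnd ℂ) (w j) *
          dzb j (fun z => chrM h i z k m) z) =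
        (2 * Complex.I) * ∑ l, crv h z w l * (h z)⁻¹ l m := by
      simp only [crv, dzb_chrM hs h0]
      have h6 : ∀ l, (∑ i, ∑ j, ∑ k, curv h z i j k l * (w i * (starRingEnd ℂ) (w j) * w k)) *
          (h z)⁻¹ l m = ∑ i, ∑ k, ∑ j, w i * w k * (starRingEnd ℂ) (w j) *
            (curv h z i j k l * (h z)⁻¹ l m) := by
        intro l
        rw [Finset.sum_mul]
        refine Finset.sum_congr rfl fun i _ => ?_
        rw [Finset.sum_comm, Finset.sum_mul]
        refine Finset.sum_congr rfl fun k _ => ?_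
        rw [Finset.sum_mul]
        exact Finset.sum_congr rfl fun j _ => by ring
      have h7 : ∑ l, ∑ i, ∑ k, ∑ j, w i * w k * (starRingEnd ℂ) (w j) *
            (curv h z i j k l * (h z)⁻¹ l m) = ∑ i, ∑ k, ∑ j, ∑ l,
            w i * w k * (starRingEnd ℂ) (w j) * (curv h z i j k l * (h z)⁻¹ l m) := by
        rw [Finset.sum_comm]
        refine Finset.sum_congr rfl fun i _ => ?_
        rw [Finset.sum_comm]
        refine Finset.sum_congr rfl fun k _ => ?_
        rw [Finset.sum_comm]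
      rw [Finset.sum_congr rfl fun l _ => h6 l, h7, Finset.mul_sum]
      refine Finset.sum_congr rfl fun i _ => ?_
      rw [Finset.mul_sum]
      refine Finset.sum_congr rfl fun k _ => ?_
      rw [Finset.mul_sum]
      refine Finset.sum_congr rfl fun j _ => ?_
      rw [mul_neg, Finset.mul_sum, Finset.mul_sum, ← Finset.sum_neg_distrib, Finset.mul_sum]
      exact Finset.sum_congr rfl fun l _ => by ring
    rw [h5]
    simp [hR]
  rw [show spray h Complex.I (z, w) = (Complex.I • w, -(Complex.I • chr h z w)) from rfl,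
    show spray h 1 (z, w) = ((1 : ℂ) • w, -((1 : ℂ) • chr h z w)) from rfl, hsp, hsp, key]
  refine Prod.ext ?_ ?_
  · simp
  · simp

end Vale.Agent.P272.K.T4
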