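import Vale.Agent.P272.K.T4.FibE
import Vale.Agent.P272.K.T4.Bracket
import Vale.Agent.P272.K.INT.Global

/-! # Invariance of the Liouville measure on the manifold: L1Statement -/

open scoped Manifold ContDiff ComplexOrder Topology
open Complex Set Filter MeasureTheory

set_option linter.all false

noncomputable section

namespace Vale.Agent.P272.K.T4

open INT (IsDensity intX Part part)

section pointwise
variable {n : ℕ}

lemma fderiv_ofReal {E : Type*} [NormedAddCommGroup E] [NormedSpace ℝ E] {f : E → ℝ} {p : E}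
    (hf : DifferentiableAt ℝ f p) (v : E) :
    fderiv ℝ (fun y => (f y : ℂ)) p v = ((fderiv ℝ f p v : ℝ) : ℂ) := by
  have h := Complex.ofRealCLM.hasFDerivAt.comp p hf.hasFDerivAt
  have h2 : HasFDerivAt (fun y => (f y : ℂ)) (Complex.ofRealCLM.comp (fderiv ℝ f p)) p := h
  rw [h2.fderiv]; rfl

/-- the derivative of a real function in terms of `∂/∂z_i` -/
lemma fderiv_real_eq {f : Cm n → ℝ} {z : Cm n} (hf : DifferentiableAt ℝ f z) (v : Cm n) :
    fderiv ℝ f z v = 2 * (∑ i, v i * dz i (fun y => (f y : ℂ)) z).re := by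
  have hfc : DifferentiableAt ℝ (fun y => (f y : ℂ)) z :=
    Complex.ofRealCLM.differentiableAt.comp z hf
  have h1 : ∀ i, dzb i (fun y => (f y : ℂ)) z = cj (dz i (fun y => (f y : ℂ)) z) := by
    intro i
    rw [← dzb_cj hfc]
    congr 1
    funext y; simp [cj]
  have h2 := fderiv_eq (fun y => (f y : ℂ)) z v
  rw [fderiv_ofReal hf] at h2
  have h3 := congrArg Complex.re h2
  rw [Complex.ofReal_re] at h3
  rw [h3, Complex.re_sum, Complex.re_sum, Finset.mul_sum]
  refine Finset.sum_congr rfl fun i _ => ?_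
  rw [h1]
  simp only [cj, Complex.add_re, Complex.mul_re, Complex.conj_re, Complex.conj_im]
  ring

lemma fderiv_pair {F : Cm n × Cm n → ℝ} {p : Cm n × Cm n} (hF : DifferentiableAt ℝ F p)
    (u v : Cm n) : fderiv ℝ F p (u, v) =
      fderiv ℝ (fun y => F (y, p.2)) p.1 u + fderiv ℝ (fun y => F (p.1, y)) p.2 v := by
  have h1 : HasFDerivAt (fun y : Cm n => (y, p.2))
      ((ContinuousLinearMap.id ℝ (Cm n)).prod (0 : Cm n →L[ℝ] Cm n)) p.1 :=
    (hasFDerivAt_id _).prodMk (hasFDerivAt_const _ _)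
  have h2 : HasFDerivAt (fun y => F (y, p.2)) _ p.1 :=
    HasFDerivAt.comp (g := F) (f := fun y : Cm n => (y, p.2)) p.1 hF.hasFDerivAt h1
  have h3 : HasFDerivAt (fun y : Cm n => (p.1, y))
      ((0 : Cm n →L[ℝ] Cm n).prod (ContinuousLinearMap.id ℝ (Cm n))) p.2 :=
    (hasFDerivAt_const _ _).prodMk (hasFDerivAt_id _)
  have h4 : HasFDerivAt (fun y => F (p.1, y)) _ p.2 :=
    HasFDerivAt.comp (g := F) (f := fun y : Cm n => (p.1, y)) p.2 hF.hasFDerivAt h3
  rw [h2.fderiv, h4.fderiv]
  have h5 : (u, v) = (u, (0 : Cm n)) + ((0 : Cm n), v) := by simp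
  rw [h5, map_add]
  rfl

/-- the real derivative along the spray is twice the real part of the complex spray -/
lemma fderiv_spray {g : Cm n → Matrix (Fin n) (Fin n) ℂ} {F : Cm n × Cm n → ℝ}
    {p : Cm n × Cm n} (hF : DifferentiableAt ℝ F p) (b : ℂ) :
    fderiv ℝ F p (spray g b p) = 2 * (b * spr g (fun q => (F q : ℂ)) p).re := by
  have h1 : DifferentiableAt ℝ (fun y => F (y, p.2)) p.1 := by
    have h1 : DifferentiableAt ℝ (fun y : Cm n => (y, p.2)) p.1 :=
      differentiableAt_id.prodMk (differentiableAt_const _)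
    exact DifferentiableAt.comp (f := fun y : Cm n => (y, p.2)) (g := F) p.1 hF h1
  have h2 : DifferentiableAt ℝ (fun y => F (p.1, y)) p.2 := by
    have h1 : DifferentiableAt ℝ (fun y : Cm n => (p.1, y)) p.2 :=
      (differentiableAt_const _).prodMk differentiableAt_id
    exact DifferentiableAt.comp (f := fun y : Cm n => (p.1, y)) (g := F) p.2 hF h1
  unfold spray
  rw [fderiv_pair hF, fderiv_real_eq h1, fderiv_real_eq h2]
  unfold spr
  rw [← mul_add, ← Complex.add_re]
  congr 2
  simp only [Pi.smul_apply, Pi.neg_apply, smul_eq_mul, mul_sub, Finset.mul_sum]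
  rw [sub_eq_add_neg, ← Finset.sum_neg_distrib]
  congr 1
  · exact Finset.sum_congr rfl fun i _ => by ring
  · exact Finset.sum_congr rfl fun i _ => by ring

end pointwise

variable {n : ℕ} {X : Type*} [TopologicalSpace X] [ChartedSpace (Cm n) X]
  {χ : ℝ → ℝ} {g : Chart n X → Cm n → Matrix (Fin n) (Fin n) ℂ}
  {F : Chart n X → Cm n → Cm n → ℝ} {e e' : Chart n X} {x : X}

/-- product of a function on `X` and a function on the tangent bundle -/
def mulF (v : X → ℝ) (F : Chart n X → Cm n → Cm n → ℝ) (e : Chart n X) (z w : Cm n) : ℝ :=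
  v (e.symm z) * F e z w

lemma SmTFun.mulF {v : X → ℝ} (hv : SmoothFn (n := n) v) (hF : SmTFun F) :
    SmTFun (mulF v F) where
  change e e' x w h h' := by
    unfold T4.mulF; rw [h.left_inv, h'.left_inv, hF.change e e' x w h h']
  smooth e x w h := by
    have h1 : ContDiffAt ℝ ∞ (fun p : Cm n × Cm n => v (e.symm p.1)) (e x, w) :=
      ContDiffAt.comp (f := fun p : Cm n × Cm n => p.1) (g := fun z => v (e.symm z)) (e x, w)
        (hv e x h) contDiffAt_fst
    exact h1.mul (hF.smooth e x w h)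

lemma SmTFun.diff (hF : SmTFun F) (h : At e x) (w : Cm n) :
    DifferentiableAt ℝ (fun p : Cm n × Cm n => F e p.1 p.2) (e x, w) :=
  (hF.smooth e x w h).differentiableAt (by simp)

lemma SmTFun.ctfun (hF : SmTFun F) : CTFun F where
  change := hF.change
  cont e x w h := (hF.smooth e x w h).continuousAt

variable [IsManifold 𝓘(ℂ, Cm n) ω X]

lemma tfun_TM (hF : IsTFun F) (hx : At e x) (hx' : At e' x) (w : Cm n) :
    (fun p : Cm n × Cm n => F e p.1 p.2) =ᶠ[𝓝 (e x, w)]
      fun p => F e' (TM e e' p).1 (TM e e' p).2 := by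
  have h1 : ∀ᶠ p : Cm n × Cm n in 𝓝 (e x, w), p.1 ∈ e.target ∧ At e (e.symm p.1) ∧
      At e' (e.symm p.1) :=
    (continuousAt_fst (p := (e x, w))).eventually (hx.nhds_at hx')
  filter_upwards [h1] with p hp
  have h2 := hF e e' (e.symm p.1) p.2 hp.2.1 hp.2.2
  rw [e.right_inv hp.1] at h2
  exact h2

/-- the spray derivative of a smooth function is a function on the tangent bundle -/
theorem Yd_ctfun (hg : IsHermitian g) (b : ℂ) (hF : SmTFun F) : CTFun (Yd g b F) where
  change e e' x w h h' := by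
    have hT : TM e e' (e x, w) = (e' x, (jacM e e' x).mulVec w) := by
      simp only [TM]; rw [h.left_inv]
    unfold Yd
    rw [(tfun_TM hF.change h h' w).fderiv_eq]
    have h1 : HasFDerivAt (fun p : Cm n × Cm n => F e' p.1 p.2)
        (fderiv ℝ (fun p : Cm n × Cm n => F e' p.1 p.2) (TM e e' (e x, w))) (TM e e' (e x, w)) := by
      rw [hT]; exact (hF.diff h' _).hasFDerivAt
    have h2 : HasFDerivAt (fun p => F e' (TM e e' p).1 (TM e e' p).2) _ (e x, w) :=
      HasFDerivAt.comp (g := fun p : Cm n × Cm n => F e' p.1 p.2) (f := TM e e') (e x, w) h1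
        ((TM_contDiffAt h h' w).differentiableAt (by simp)).hasFDerivAt
    rw [h2.fderiv, ContinuousLinearMap.comp_apply, TM_spray hg h h' b w, hT]
  cont e x w h := by
    have h1 : ContinuousAt (fun p => fderiv ℝ (fun p : Cm n × Cm n => F e p.1 p.2) p) (e x, w) :=
      ((hF.smooth e x w h).fderiv_right (m := 0) (by simp)).continuousAt
    have h2 : ContinuousAt (fun p : Cm n × Cm n => spray (g e) b (p.1, p.2)) (e x, w) :=
      (spray_contDiffAt (h := g e) (fun i j => hg.smooth e x h i j)
        (hg.posDef e x h).det_pos.ne' b w).continuousAt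
    exact h1.clm_apply h2

omit [IsManifold 𝓘(ℂ, Cm n) ω X] in
lemma Yd_zero (b : ℂ) {v : X → ℝ} (hx : At e x) (h0 : x ∉ tsupport v) (w : Cm n) :
    Yd g b (mulF v F) e (e x) w = 0 := by
  unfold Yd
  have h1 : ∀ᶠ y in 𝓝 (e x), e.symm y ∈ (tsupport v)ᶜ := by
    apply (e.continuousAt_symm (e.map_source hx.2)).eventually_mem
    rw [e.left_inv hx.2]
    exact (isClosed_tsupport v).isOpen_compl.mem_nhds h0
  have h2 : (fun p : Cm n × Cm n => mulF v F e p.1 p.2) =ᶠ[𝓝 (e x, w)] fun _ => (0 : ℝ) := by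
    filter_upwards [(continuousAt_fst (p := (e x, w))).eventually h1] with p hp
    unfold mulF
    rw [image_eq_zero_of_notMem_tsupport hp, zero_mul]
  rw [h2.fderiv_eq, fderiv_fun_const]
  rfl

variable [T2Space X] [CompactSpace X]

/-- L1 for functions supported over a chart -/
theorem L1_piece (hχ : Wt χ) (hg : IsKahler g) (hF : SmTFun F) (b : ℂ) {v : X → ℝ}
    (hv : SmoothFn (n := n) v) (he : e ∈ atlas (Cm n) X) (hs : tsupport v ⊆ e.source) :
    intX (fun e z => Eg χ g (Yd g b (mulF v F)) e z * dt g e z) = 0 := by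
  have hgh : IsHermitian g := hg.toIsHermitian
  have hvF : SmTFun (mulF v F) := SmTFun.mulF hv hF
  have hC : CTFun (Yd g b (mulF v F)) := Yd_ctfun hgh b hvF
  have hD := Eg_isDensity hχ hgh hC
  have hz0 : ∀ (e' : Chart n X) x, At e' x → x ∉ tsupport v →
      Eg χ g (Yd g b (mulF v F)) e' (e' x) * dt g e' (e' x) = 0 := by
    intro e' x hx hxv
    have : Eg χ g (Yd g b (mulF v F)) e' (e' x) = 0 := by
      unfold Eg
      simp only [Yd_zero b hx hxv, zero_mul, integral_zero]
    rw [this, zero_mul]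
  rw [INT.intX_of_support hD he (isClosed_tsupport v) hs hz0]
  -- the local function
  set G : Cm n × Cm n → ℝ := (e.target ×ˢ (univ : Set (Cm n))).indicator
    fun p => mulF v F e p.1 p.2 with hG
  set K : Set (Cm n) := e '' tsupport v with hK
  have hKc : IsCompact K :=
    (isClosed_tsupport v).isCompact.image_of_continuousOn (e.continuousOn.mono hs)
  have hKt : K ⊆ e.target := by
    rintro _ ⟨x, hx, rfl⟩; exact e.map_source (hs hx)
  have hG0 : ∀ p : Cm n × Cm n, p.1 ∉ K → ((G p : ℝ) : ℂ) = 0 := by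
    intro p hp
    by_cases h : p.1 ∈ e.target
    · rw [hG, indicator_of_mem (by exact ⟨h, mem_univ _⟩)]
      unfold mulF
      rw [image_eq_zero_of_notMem_tsupport (fun h' => hp ⟨_, h', e.right_inv h⟩), zero_mul]; rfl
    · rw [hG, indicator_of_notMem (fun h' => h h'.1)]; rfl
  have hGe : ∀ z ∈ e.target, ∀ w, G =ᶠ[𝓝 (z, w)] fun p => mulF v F e p.1 p.2 := by
    intro z hz w
    filter_upwards [(continuousAt_fst (p := (z, w))).eventually (e.open_target.mem_nhds hz)]
      with p hp
    rw [hG, indicator_of_mem (by exact ⟨hp, mem_univ _⟩)]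
  have hGs : ∀ z ∈ e.target, ∀ w : Cm n, ContDiffAt ℝ ∞ G (z, w) := by
    intro z hz w
    have := hvF.smooth e (e.symm z) w ⟨he, e.map_target hz⟩
    rw [e.right_inv hz] at this
    exact this.congr_of_eventuallyEq (hGe z hz w)
  have hG1 : ∀ z ∈ e.target, ∀ w : Cm n, ContDiffAt ℝ 1 (fun p => ((G p : ℝ) : ℂ)) (z, w) :=
    fun z hz w => (Complex.ofRealCLM.contDiff.contDiffAt.comp (z, w) (hGs z hz w)).of_le
      (by norm_cast)
  have hloc : LocMet e.target (g e) :=
    { isOpen := e.open_target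
      smooth := fun z hz i j => by
        have := hg.smooth e (e.symm z) ⟨he, e.map_target hz⟩ i j
        rwa [e.right_inv hz] at this
      pos := fun z hz => herm_pos hgh he hz
      closed := fun z hz i j l => by
        have := hg.closed e (e.symm z) ⟨he, e.map_target hz⟩ i j l
        rwa [e.right_inv hz] at this }
  obtain ⟨hint, hzero⟩ := local_L1 hloc hχ hKc hKt hG0 hG1
  -- the integrand
  have hpt : ∀ z ∈ e.target, ∀ w, Yd g b (mulF v F) e z w * χ (quad (g e z) w).re *
      (g e z).det.re * dt g e z =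
      2 * (b * (spr (g e) (fun p => ((G p : ℝ) : ℂ)) (z, w) * wt χ (g e) (z, w))).re := by
    intro z hz w
    have h1 : Yd g b (mulF v F) e z w =
        2 * (b * spr (g e) (fun q => (G q : ℂ)) (z, w)).re := by
      unfold Yd
      rw [← (hGe z hz w).fderiv_eq]
      exact fderiv_spray ((hGs z hz w).differentiableAt (by simp)) b
    have hdet : (g e z).det = (((g e z).det.re : ℝ) : ℂ) := by
      apply Complex.ext
      · simp
      · simpa using (INT.posDef_det_re (hloc.pos z hz)).2
    have h2 : wt χ (g e) (z, w) = ((χ (quad (g e z) w).re * (g e z).det.re ^ 2 : ℝ) : ℂ) := by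
      unfold wt
      simp only []
      rw [hdet]; push_cast; rw [Complex.ofReal_re]
    rw [h1, h2, ← mul_assoc b, Complex.re_mul_ofReal]
    unfold dt
    ring
  set H : Cm n × Cm n → ℂ := fun p => spr (g e) (fun p => ((G p : ℝ) : ℂ)) p * wt χ (g e) p with hH
  set f : Cm n × Cm n → ℝ := fun p => 2 * (b * H p).re with hf
  have hfi : Integrable f := ((hint.const_mul b).re).const_mul 2
  have hf0 : ∫ p, f p = 0 := by
    rw [hf, integral_const_mul]
    have h1 : ∫ p, (b * H p).re = (∫ p, b * H p).re := integral_re (hint.const_mul b)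
    rw [h1, integral_const_mul, hzero]
    simp
  have hprod : ∫ p, f p = ∫ z, ∫ w, f (z, w) := by
    exact integral_prod f hfi
  rw [hprod] at hf0
  rw [← hf0]
  have hzero' : ∀ z, z ∉ e.target → ∫ w, f (z, w) = 0 := by
    intro z hz
    have : ∀ w, f (z, w) = 0 := by
      intro w
      have h1 := spr_zero (g := g e) (p := (z, w)) hG0 hKc (fun h => hz (hKt h))
      simp only [hf, hH, h1]; simp
    simp [this]
  rw [← setIntegral_eq_integral_of_forall_compl_eq_zero (s := e.target) hzero']
  refine setIntegral_congr_fun e.open_target.measurableSet fun z hz => ?_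
  show Eg χ g (Yd g b (mulF v F)) e z * dt g e z = ∫ w, f (z, w)
  unfold Eg
  rw [← integral_mul_const]
  congr 1
  funext w
  exact hpt z hz w

omit [T2Space X] [CompactSpace X] [IsManifold 𝓘(ℂ, Cm n) ω X] in
/-- algebra of averages -/
lemma Eg_sum {ι : Type*} (s : Finset ι) {G : ι → Chart n X → Cm n → Cm n → ℝ}
    (hi : ∀ i ∈ s, Integrable fun w : Cm n =>
      G i e (e x) w * χ (quad (g e (e x)) w).re * (g e (e x)).det.re) :
    Eg χ g (fun e z w => ∑ i ∈ s, G i e z w) e (e x) = ∑ i ∈ s, Eg χ g (G i) e (e x) := by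
  unfold Eg
  rw [← integral_finsetSum _ hi]
  congr 1; funext w
  rw [Finset.sum_mul, Finset.sum_mul]

/-- **L1**: the average of a derivative along the spray of a Kähler metric vanishes -/
theorem L1_global (hχ : Wt χ) (hg : IsKahler g) (hF : SmTFun F) (b : ℂ) :
    intX (fun e z => Eg χ g (Yd g b F) e z * dt g e z) = 0 := by
  have hgh : IsHermitian g := hg.toIsHermitian
  set P := part n X with hP
  have hp : ∀ i, SmTFun (mulF (P.ρ i) F) := fun i => SmTFun.mulF (P.smooth i) hF
  have hc : ∀ i, CTFun (Yd g b (mulF (P.ρ i) F)) := fun i => Yd_ctfun hgh b (hp i)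
  have h1 : ∀ e x, At e x → ∀ w, Yd g b F e (e x) w =
      ∑ i, Yd g b (mulF (P.ρ i) F) e (e x) w := by
    intro e x hx w
    unfold Yd
    have h2 : (fun p : Cm n × Cm n => F e p.1 p.2) =
        fun p => ∑ i, mulF (P.ρ i) F e p.1 p.2 := by
      funext p
      unfold mulF
      rw [← Finset.sum_mul, P.sum, one_mul]
    rw [h2, fderiv_fun_sum fun i _ => (hp i).diff hx w, ContinuousLinearMap.sum_apply]
  have h3 : intX (fun e z => Eg χ g (Yd g b F) e z * dt g e z) =
      intX (fun e z => ∑ i, Eg χ g (Yd g b (mulF (P.ρ i) F)) e z * dt g e z) := by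
    refine INT.intX_congr fun e x hx => ?_
    rw [← Finset.sum_mul, ← Eg_sum Finset.univ fun i _ => Eg_int hχ hgh (hc i) hx]
    congr 1
    unfold Eg
    congr 1; funext w
    rw [h1 e x hx w]
  rw [h3, INT.intX_sum Finset.univ fun i _ => Eg_isDensity hχ hgh (hc i)]
  exact Finset.sum_eq_zero fun i _ => L1_piece hχ hg hF b (P.smooth i) (P.mem i) (P.supp i)

theorem l1 (n : ℕ) (X : Type) [TopologicalSpace X] [T2Space X] [CompactSpace X]
    [ChartedSpace (Cm n) X] [IsManifold 𝓘(ℂ, Cm n) ω X] : L1Statement n X :=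
  fun _ hχ _ hg _ hF b => L1_global hχ hg hF b

end Vale.Agent.P272.K.T4
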