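import Vale.Agent.P272.K.T4.Defs

/-! P272/T4: transformation laws of curvature, `quad`, `quart`, `xiL`, `xiV`, `dGam`. -/

open scoped Manifold ContDiff ComplexOrder Topology Matrix
open Complex Set Filter

set_option linter.all false

noncomputable section

namespace Vale.Agent.P272.K.T4

open C2 (DM DMb MD MC)

variable {n : ℕ}

/-- the curvature as a family of matrices -/
def Cv (h : Cm n → Matrix (Fin n) (Fin n) ℂ) (z : Cm n) (i j : Fin n) : Matrix (Fin n) (Fin n) ℂ :=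
  -DM i (DMb j h) z + DM i h z * (h z)⁻¹ * DMb j h z

lemma curv_eq_Cv (h : Cm n → Matrix (Fin n) (Fin n) ℂ) (z : Cm n) (i j k l : Fin n) :
    curv h z i j k l = Cv h z i j k l := by
  unfold curv Cv
  rw [Matrix.add_apply, Matrix.neg_apply, Matrix.mul_apply, Finset.sum_comm]
  congr 1
  refine Finset.sum_congr rfl fun p _ => ?_
  rw [Matrix.mul_apply, Finset.sum_mul]
  rfl

lemma Cv_congr {h h' : Cm n → Matrix (Fin n) (Fin n) ℂ} {z : Cm n} (H : h =ᶠ[𝓝 z] h')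
    (i j : Fin n) : Cv h z i j = Cv h' z i j := by
  unfold Cv
  rw [C2.DM_congr (C2.DMb_eventuallyEq H), C2.DM_congr H, C2.DMb_congr H, H.eq_of_nhds]

/-- entrywise holomorphy -/
def Hol' (A : Cm n → Matrix (Fin n) (Fin n) ℂ) (z : Cm n) : Prop :=
  ∀ p i, ContDiffAt ℂ ω (fun y => A y p i) z

lemma Hol'.eventually {A : Cm n → Matrix (Fin n) (Fin n) ℂ} {z : Cm n} (h : Hol' A z) :
    ∀ᶠ y in 𝓝 z, Hol' A y := by
  have : ∀ i, ∀ᶠ y in 𝓝 z, ∀ j, ContDiffAt ℂ ω (fun y => A y i j) y := by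
    intro i
    rw [Filter.eventually_all]
    exact fun j => (h i j).eventually (by simp)
  exact Filter.eventually_all.2 this

lemma Hol'.mc {A : Cm n → Matrix (Fin n) (Fin n) ℂ} {z : Cm n} (h : Hol' A z)
    (m : WithTop ℕ∞) : MC m A z := fun i j => by
  have := (h i j).restrict_scalars ℝ
  exact this.of_le le_top

lemma Hol'.dmb {A : Cm n → Matrix (Fin n) (Fin n) ℂ} {z : Cm n} (h : Hol' A z) (j : Fin n) :
    DMb j A z = 0 := by
  ext a b
  exact dzb_of_holo ((h a b).differentiableAt (by simp))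

section local_law
variable {A G h : Cm n → Matrix (Fin n) (Fin n) ℂ} {z : Cm n}

lemma DM_law (hA : Hol' A z) (hG : MC 1 G z) (i : Fin n) :
    DM i (fun y => A y * G y * (A y)ᴴ) z =
      (DM i A z * G z + A z * DM i G z) * (A z)ᴴ := by
  have h1 : MD A z := (hA.mc 1).md one_ne_zero
  have h2 : MD G z := hG.md one_ne_zero
  have h3 : MD (fun y => (A y)ᴴ) z := ((hA.mc 1).conjTranspose).md one_ne_zero
  have h4 : MD (fun y => A y * G y) z := ((hA.mc 1).mul hG).md one_ne_zero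
  rw [C2.DM_mul h4 h3, C2.DM_mul h1 h2, C2.DM_conjTranspose h1, hA.dmb]
  simp

lemma DMb_law (hA : Hol' A z) (hG : MC 1 G z) (j : Fin n) :
    DMb j (fun y => A y * G y * (A y)ᴴ) z =
      A z * (DMb j G z * (A z)ᴴ + G z * (DM j A z)ᴴ) := by
  have h1 : MD A z := (hA.mc 1).md one_ne_zero
  have h2 : MD G z := hG.md one_ne_zero
  have h3 : MD (fun y => (A y)ᴴ) z := ((hA.mc 1).conjTranspose).md one_ne_zero
  have h4 : MD (fun y => A y * G y) z := ((hA.mc 1).mul hG).md one_ne_zero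
  rw [C2.DMb_mul h4 h3, C2.DMb_mul h1 h2, C2.DMb_conjTranspose h1, hA.dmb]
  simp [Matrix.mul_add, Matrix.mul_assoc]

lemma Cv_law (hA : Hol' A z) (hG : MC 2 G z) (hA0 : IsUnit (A z).det) (hG0 : IsUnit (G z).det)
    (i j : Fin n) :
    Cv (fun y => A y * G y * (A y)ᴴ) z i j = A z * Cv G z i j * (A z)ᴴ := by
  have hG1 : MC 1 G z := hG.mono (by norm_num)
  have e1 : DMb j (fun y => A y * G y * (A y)ᴴ) =ᶠ[𝓝 z] fun y =>
      A y * (DMb j G y * (A y)ᴴ + G y * (DM j A y)ᴴ) := by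
    have hG' : ∀ᶠ y in 𝓝 z, MC 1 G y := C2.MC.eventually (q := 1) hG1
    filter_upwards [hA.eventually, hG'] with y hy hy2
    exact DMb_law hy hy2 j
  have hA1 : MD A z := (hA.mc 1).md one_ne_zero
  have hAH : MC 1 (fun y => (A y)ᴴ) z := (hA.mc 1).conjTranspose
  have hDG : MC 1 (DMb j G) z := hG.DMb (by norm_num)
  have hDA : MC 1 (DM j A) z := (hA.mc 2).DM (by norm_num)
  have hDAH : MC 1 (fun y => (DM j A y)ᴴ) z := hDA.conjTranspose
  have e2 : DMb i (DM j A) z = 0 := by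
    have h5 : DM j (DMb i A) z = DMb i (DM j A) z := C2.DM_DMb_comm (hA.mc 2)
    rw [← h5]
    have h6 : DMb i A =ᶠ[𝓝 z] fun _ => 0 := by
      filter_upwards [hA.eventually] with y hy using hy.dmb i
    rw [C2.DM_congr h6, C2.DM_const]
  have e3 : DM i (DMb j (fun y => A y * G y * (A y)ᴴ)) z =
      DM i A z * (DMb j G z * (A z)ᴴ + G z * (DM j A z)ᴴ) +
      A z * (DM i (DMb j G) z * (A z)ᴴ + DM i G z * (DM j A z)ᴴ) := by
    rw [C2.DM_congr e1, C2.DM_mul hA1 (((hDG.mul hAH).add (hG1.mul hDAH)).md one_ne_zero),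
      C2.DM_add ((hDG.mul hAH).md one_ne_zero) ((hG1.mul hDAH).md one_ne_zero),
      C2.DM_mul (hDG.md one_ne_zero) (hAH.md one_ne_zero),
      C2.DM_mul (hG1.md one_ne_zero) (hDAH.md one_ne_zero),
      C2.DM_conjTranspose hA1, C2.DM_conjTranspose (hDA.md one_ne_zero), hA.dmb, e2]
    simp
  unfold Cv
  rw [e3, DM_law hA hG1, DMb_law hA hG1]
  have hu : IsUnit ((A z)ᴴ).det := by
    rw [Matrix.det_conjTranspose]; exact hA0.star
  have hinv : (A z * G z * (A z)ᴴ)⁻¹ = ((A z)ᴴ)⁻¹ * ((G z)⁻¹ * (A z)⁻¹) := by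
    rw [Matrix.mul_inv_rev, Matrix.mul_inv_rev]
  rw [hinv]
  have c1 : (A z)ᴴ * ((A z)ᴴ)⁻¹ = 1 := Matrix.mul_nonsing_inv _ hu
  have c2 : (A z)⁻¹ * A z = 1 := Matrix.nonsing_inv_mul _ hA0
  have c3 : G z * (G z)⁻¹ = 1 := Matrix.mul_nonsing_inv _ hG0
  have c4 : (G z)⁻¹ * G z = 1 := Matrix.nonsing_inv_mul _ hG0
  have key : (DM i A z * G z + A z * DM i G z) * (A z)ᴴ * (((A z)ᴴ)⁻¹ * ((G z)⁻¹ * (A z)⁻¹)) *
      (A z * (DMb j G z * (A z)ᴴ + G z * (DM j A z)ᴴ)) =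
      (DM i A z * G z + A z * DM i G z) * (G z)⁻¹ *
        (DMb j G z * (A z)ᴴ + G z * (DM j A z)ᴴ) := by
    calc _ = (DM i A z * G z + A z * DM i G z) * ((A z)ᴴ * ((A z)ᴴ)⁻¹) * (G z)⁻¹ *
          ((A z)⁻¹ * A z) * (DMb j G z * (A z)ᴴ + G z * (DM j A z)ᴴ) := by
            simp only [Matrix.mul_assoc]
      _ = _ := by rw [c1, c2]; simp
  rw [key]
  have key2 : (DM i A z * G z + A z * DM i G z) * (G z)⁻¹ *
        (DMb j G z * (A z)ᴴ + G z * (DM j A z)ᴴ) =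
      DM i A z * DMb j G z * (A z)ᴴ + DM i A z * G z * (DM j A z)ᴴ +
      A z * DM i G z * (G z)⁻¹ * DMb j G z * (A z)ᴴ + A z * DM i G z * (DM j A z)ᴴ := by
    have k1 : DM i A z * G z * (G z)⁻¹ = DM i A z := by rw [Matrix.mul_assoc, c3, Matrix.mul_one]
    have k2 : A z * DM i G z * (G z)⁻¹ * (G z * (DM j A z)ᴴ) = A z * DM i G z * (DM j A z)ᴴ := by
      rw [Matrix.mul_assoc (A z * DM i G z), ← Matrix.mul_assoc (G z)⁻¹, c4, Matrix.one_mul]
    rw [Matrix.add_mul, k1, Matrix.mul_add, Matrix.add_mul, Matrix.add_mul, k2]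
    simp only [Matrix.mul_assoc]
    abel
  rw [key2]
  simp only [Matrix.mul_add, Matrix.add_mul, Matrix.mul_neg, Matrix.neg_mul, Matrix.mul_assoc]
  abel

end local_law

section comp
variable {G : Cm n → Matrix (Fin n) (Fin n) ℂ} {τ : Cm n → Cm n} {z : Cm n}

lemma MC.comp_holo {m : WithTop ℕ∞} (hG : MC m G (τ z)) (h : ContDiffAt ℂ ω τ z) :
    MC m (fun y => G (τ y)) z := fun i j =>
  (hG i j).comp z ((h.restrict_scalars ℝ).of_le le_top)

lemma DM_comp (hG : MC 1 G (τ z)) (h : ContDiffAt ℂ ω τ z) (i : Fin n) :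
    DM i (fun y => G (τ y)) z = ∑ p, jmat τ z p i • DM p G (τ z) := by
  ext a b
  rw [Matrix.sum_apply]
  simp only [Matrix.smul_apply, smul_eq_mul]
  rw [C2.DM_apply, dz_comp_holo (f := fun y => G y a b) ((hG a b).differentiableAt one_ne_zero)
    (h.differentiableAt (by simp))]
  exact Finset.sum_congr rfl fun p _ => mul_comm _ _

lemma DMb_comp (hG : MC 1 G (τ z)) (h : ContDiffAt ℂ ω τ z) (i : Fin n) :
    DMb i (fun y => G (τ y)) z = ∑ p, cj (jmat τ z p i) • DMb p G (τ z) := by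
  ext a b
  rw [Matrix.sum_apply]
  simp only [Matrix.smul_apply, smul_eq_mul]
  rw [C2.DMb_apply, dzb_comp_holo (f := fun y => G y a b) ((hG a b).differentiableAt one_ne_zero)
    (h.differentiableAt (by simp))]
  exact Finset.sum_congr rfl fun p _ => mul_comm _ _

lemma DM_DMb_comp (hG : MC 2 G (τ z)) (h : ContDiffAt ℂ ω τ z) (i j : Fin n) :
    DM i (DMb j (fun y => G (τ y))) z =
      ∑ p, ∑ q, (jmat τ z p i * cj (jmat τ z q j)) • DM p (DMb q G) (τ z) := by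
  have hG1 : MC 1 G (τ z) := hG.mono (by norm_num)
  have e1 : DMb j (fun y => G (τ y)) =ᶠ[𝓝 z] fun y => ∑ q, cj (jmat τ y q j) • DMb q G (τ y) := by
    have hG' : ∀ᶠ y in 𝓝 z, MC 1 G (τ y) := h.continuousAt.eventually
      (C2.MC.eventually (q := 1) hG1)
    filter_upwards [h.eventually (by simp), hG'] with y hy hy2
    exact DMb_comp hy2 hy j
  rw [C2.DM_congr e1]
  ext a b
  rw [C2.DM_apply]
  simp only [Matrix.sum_apply, Matrix.smul_apply, smul_eq_mul]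
  have hd2 : ∀ q, DifferentiableAt ℝ (fun y => jmat τ y q j) z := fun q =>
    ((jmat_holo h q j).differentiableAt (by simp)).restrictScalars ℝ
  have hd3 : ∀ q, DifferentiableAt ℝ (fun y => cj (jmat τ y q j)) z := fun q =>
    Complex.conjCLE.differentiableAt.comp z (hd2 q)
  have hd1 : ∀ q, DifferentiableAt ℝ (fun y => DMb q G y a b) (τ z) := fun q =>
    ((hG.DMb (k := q) (m' := 1) (by norm_num)) a b).differentiableAt one_ne_zero
  have hd4 : ∀ q, DifferentiableAt ℝ (fun y => DMb q G (τ y) a b) z := fun q =>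
    (hd1 q).comp z ((h.differentiableAt (by simp)).restrictScalars ℝ)
  rw [dz_sum (F := fun q y => cj (jmat τ y q j) * DMb q G (τ y) a b) Finset.univ
    fun q _ => (hd3 q).mul (hd4 q)]
  rw [Finset.sum_comm]
  refine Finset.sum_congr rfl fun q _ => ?_
  rw [dz_mul (hd3 q) (hd4 q), dz_cj (hd2 q),
    dzb_of_holo ((jmat_holo h q j).differentiableAt (by simp)),
    dz_comp_holo (f := fun y => DMb q G y a b) (hd1 q) (h.differentiableAt (by simp))]
  simp only [cj, map_zero, zero_mul, zero_add]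
  rw [Finset.mul_sum]
  refine Finset.sum_congr rfl fun p _ => ?_
  rw [C2.DM_apply]; ring

lemma Cv_comp (hG : MC 2 G (τ z)) (h : ContDiffAt ℂ ω τ z) (i j : Fin n) :
    Cv (fun y => G (τ y)) z i j =
      ∑ p, ∑ q, (jmat τ z p i * cj (jmat τ z q j)) • Cv G (τ z) p q := by
  have hG1 : MC 1 G (τ z) := hG.mono (by norm_num)
  unfold Cv
  rw [DM_DMb_comp hG h, DM_comp hG1 h, DMb_comp hG1 h]
  simp only [smul_add, smul_neg, Finset.sum_add_distrib, Finset.sum_neg_distrib]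
  congr 1
  rw [Finset.sum_mul, Finset.sum_mul]
  refine Finset.sum_congr rfl fun p _ => ?_
  rw [Finset.mul_sum]
  refine Finset.sum_congr rfl fun q _ => ?_
  simp only [Matrix.smul_mul, Matrix.mul_smul, smul_smul]
  rw [mul_comm]

end comp

section manifold
variable {X : Type*} [TopologicalSpace X] [ChartedSpace (Cm n) X] [IsManifold 𝓘(ℂ, Cm n) ω X]
  {h g : Chart n X → Cm n → Matrix (Fin n) (Fin n) ℂ} {e e' : Chart n X} {x : X}

/-- near `e x`: `h_e = A (h_{e'} ∘ τ) Aᴴ` with `A = Jᵀ` -/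
lemma form_near (hh : IsHermitian h) (hx : At e x) (hx' : At e' x) :
    h e =ᶠ[𝓝 (e x)] fun z => (jmat (fun z => e' (e.symm z)) z)ᵀ * h e' (e' (e.symm z)) *
      ((jmat (fun z => e' (e.symm z)) z)ᵀ)ᴴ := by
  filter_upwards [hx.nhds_at hx'] with z hz
  have := hh.change e e' (e.symm z) hz.2.1 hz.2.2
  rw [e.right_inv hz.1, jacM_eq, e.right_inv hz.1] at this
  rw [this]
  congr 1

lemma hol'_jac (hx : At e x) (hx' : At e' x) :
    Hol' (fun z => (jmat (fun z => e' (e.symm z)) z)ᵀ) (e x) := fun p i =>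
  jmat_holo (transition hx hx') i p

lemma mc_pull (hh : IsHermitian h) (hx : At e x) (hx' : At e' x) (m : WithTop ℕ∞) (hm : m ≤ ∞) :
    MC m (h e') ((fun z => e' (e.symm z)) (e x)) := by
  intro i j
  have := hh.smooth e' x hx' i j
  simp only [hx.left_inv]
  exact this.of_le hm

/-- **the curvature is a tensor** -/
theorem Cv_change (hh : IsHermitian h) (hx : At e x) (hx' : At e' x) (i j : Fin n) :
    Cv (h e) (e x) i j = ∑ p, ∑ q, (jacM e e' x p i * cj (jacM e e' x q j)) •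
      ((jacM e e' x)ᵀ * Cv (h e') (e' x) p q * (jacM e e' x).map cj) := by
  have hτ := transition hx hx'
  have hG : MC 2 (h e') ((fun z => e' (e.symm z)) (e x)) :=
    mc_pull hh hx hx' 2 (by exact WithTop.coe_le_coe.2 le_top)
  rw [Cv_congr (form_near hh hx hx')]
  have hA0 : IsUnit ((jmat (fun z => e' (e.symm z)) (e x))ᵀ).det := by
    rw [Matrix.det_transpose]; exact jacM_isUnit hx hx'
  have hG0 : IsUnit (h e' (e' (e.symm (e x)))).det := by
    rw [hx.left_inv]; exact isUnit_iff_ne_zero.2 (hh.posDef e' x hx').det_pos.ne'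
  rw [Cv_law (A := fun z => (jmat (fun z => e' (e.symm z)) z)ᵀ)
    (G := fun z => h e' (e' (e.symm z))) (hol'_jac hx hx') (MC.comp_holo (τ := fun z => e' (e.symm z)) hG hτ) hA0 hG0,
    Cv_comp (G := h e') (τ := fun z => e' (e.symm z)) hG hτ]
  rw [Matrix.mul_sum, Matrix.sum_mul]
  refine Finset.sum_congr rfl fun p _ => ?_
  rw [Matrix.mul_sum, Matrix.sum_mul]
  refine Finset.sum_congr rfl fun q _ => ?_
  rw [Matrix.mul_smul, Matrix.smul_mul, hx.left_inv]
  rfl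

end manifold

section algebra
variable {J M : Matrix (Fin n) (Fin n) ℂ} {w : Cm n}

lemma quad_eq_sum_vecMul (M : Matrix (Fin n) (Fin n) ℂ) (w : Cm n) :
    quad M w = (w ᵥ* M) ⬝ᵥ (fun j => cj (w j)) := by
  unfold quad Matrix.vecMul dotProduct
  rw [Finset.sum_comm]
  refine Finset.sum_congr rfl fun j _ => ?_
  rw [Finset.sum_mul]
  exact Finset.sum_congr rfl fun i _ => by ring

lemma vecMul_form (J M : Matrix (Fin n) (Fin n) ℂ) (w : Cm n) :
    w ᵥ* (Jᵀ * M * J.map cj) = ((J *ᵥ w) ᵥ* M) ᵥ* J.map cj := by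
  rw [← Matrix.vecMul_vecMul, ← Matrix.vecMul_vecMul, Matrix.vecMul_transpose]

lemma cj_mulVec (J : Matrix (Fin n) (Fin n) ℂ) (w : Cm n) :
    (fun j => cj ((J *ᵥ w) j)) = (J.map cj) *ᵥ (fun j => cj (w j)) := by
  funext j
  simp only [Matrix.mulVec, dotProduct, cj, map_sum, map_mul, Matrix.map_apply]

lemma quad_form (J M : Matrix (Fin n) (Fin n) ℂ) (w : Cm n) :
    quad (Jᵀ * M * J.map cj) w = quad M (J *ᵥ w) := by
  rw [quad_eq_sum_vecMul, quad_eq_sum_vecMul, vecMul_form, cj_mulVec, Matrix.dotProduct_mulVec]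

lemma quart_eq (h : Cm n → Matrix (Fin n) (Fin n) ℂ) (z w : Cm n) :
    quart (curv h z) w = ∑ i, ∑ j, (w i * cj (w j)) * quad (Cv h z i j) w := by
  unfold quart quad
  refine Finset.sum_congr rfl fun i _ => Finset.sum_congr rfl fun j _ => ?_
  rw [Finset.mul_sum]
  refine Finset.sum_congr rfl fun k _ => ?_
  rw [Finset.mul_sum]
  refine Finset.sum_congr rfl fun l _ => ?_
  rw [curv_eq_Cv]; ring

lemma xiL_eq (h : Cm n → Matrix (Fin n) (Fin n) ℂ) (z w : Cm n) :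
    xiL h z w = ∑ i, ∑ j, (w i * cj (w j)) • (w ᵥ* Cv h z i j) := by
  funext l
  simp only [Finset.sum_apply, Pi.smul_apply, smul_eq_mul]
  unfold xiL Matrix.vecMul dotProduct
  refine Finset.sum_congr rfl fun i _ => Finset.sum_congr rfl fun j _ => ?_
  rw [Finset.mul_sum]
  refine Finset.sum_congr rfl fun k _ => ?_
  rw [curv_eq_Cv]; ring

lemma xiV_eq (h : Cm n → Matrix (Fin n) (Fin n) ℂ) (z w : Cm n) :
    xiV h z w = xiL h z w ᵥ* (h z)⁻¹ := rfl

lemma sum_sum_jac (J : Matrix (Fin n) (Fin n) ℂ) (w : Cm n) {V : Type*} [AddCommMonoid V]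
    [Module ℂ V] (F : Fin n → Fin n → V) :
    ∑ i, ∑ j, (w i * cj (w j)) • ∑ p, ∑ q, (J p i * cj (J q j)) • F p q =
      ∑ p, ∑ q, ((J *ᵥ w) p * cj ((J *ᵥ w) q)) • F p q := by
  have h1 : ∀ p q, ((J *ᵥ w) p * cj ((J *ᵥ w) q)) = ∑ i, ∑ j, (w i * cj (w j)) * (J p i * cj (J q j)) := by
    intro p q
    simp only [Matrix.mulVec, dotProduct, cj, map_sum, map_mul]
    rw [Finset.sum_mul_sum]
    refine Finset.sum_congr rfl fun i _ => Finset.sum_congr rfl fun j _ => ?_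
    ring
  simp only [h1, Finset.sum_smul, Finset.smul_sum, smul_smul]
  calc _ = ∑ i, ∑ p, ∑ j, ∑ q, (w i * cj (w j) * (J p i * cj (J q j))) • F p q := by
        refine Finset.sum_congr rfl fun i _ => Finset.sum_comm
    _ = ∑ p, ∑ i, ∑ j, ∑ q, (w i * cj (w j) * (J p i * cj (J q j))) • F p q := Finset.sum_comm
    _ = ∑ p, ∑ i, ∑ q, ∑ j, (w i * cj (w j) * (J p i * cj (J q j))) • F p q := by
        refine Finset.sum_congr rfl fun p _ => Finset.sum_congr rfl fun i _ => Finset.sum_comm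
    _ = _ := by
        refine Finset.sum_congr rfl fun p _ => Finset.sum_comm

end algebra

section manifold2
variable {X : Type*} [TopologicalSpace X] [ChartedSpace (Cm n) X] [IsManifold 𝓘(ℂ, Cm n) ω X]
  {h g : Chart n X → Cm n → Matrix (Fin n) (Fin n) ℂ} {e e' : Chart n X} {x : X}

theorem quad_change (hh : IsHermitian h) (hx : At e x) (hx' : At e' x) (w : Cm n) :
    quad (h e (e x)) w = quad (h e' (e' x)) (jacM e e' x *ᵥ w) := by
  rw [hh.change e e' x hx hx']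
  exact quad_form _ _ _

theorem quart_change (hh : IsHermitian h) (hx : At e x) (hx' : At e' x) (w : Cm n) :
    quart (curv (h e) (e x)) w = quart (curv (h e') (e' x)) (jacM e e' x *ᵥ w) := by
  rw [quart_eq, quart_eq]
  have h1 : ∀ i j, quad (Cv (h e) (e x) i j) w =
      ∑ p, ∑ q, (jacM e e' x p i * cj (jacM e e' x q j)) • quad (Cv (h e') (e' x) p q)
        (jacM e e' x *ᵥ w) := by
    intro i j
    rw [Cv_change hh hx hx', quad_eq_sum_vecMul]
    simp only [Matrix.vecMul_sum, Matrix.vecMul_smul, sum_dotProduct, smul_dotProduct]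
    refine Finset.sum_congr rfl fun p _ => Finset.sum_congr rfl fun q _ => ?_
    rw [← quad_eq_sum_vecMul, quad_form]
  simp only [h1]
  exact sum_sum_jac (V := ℂ) _ _ _

theorem xiL_change (hh : IsHermitian h) (hx : At e x) (hx' : At e' x) (w : Cm n) :
    xiL (h e) (e x) w = xiL (h e') (e' x) (jacM e e' x *ᵥ w) ᵥ* (jacM e e' x).map cj := by
  rw [xiL_eq, xiL_eq]
  have h1 : ∀ i j, w ᵥ* Cv (h e) (e x) i j =
      ∑ p, ∑ q, (jacM e e' x p i * cj (jacM e e' x q j)) • (((jacM e e' x *ᵥ w) ᵥ*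
        Cv (h e') (e' x) p q) ᵥ* (jacM e e' x).map cj) := by
    intro i j
    rw [Cv_change hh hx hx']
    simp only [Matrix.vecMul_sum, Matrix.vecMul_smul]
    refine Finset.sum_congr rfl fun p _ => Finset.sum_congr rfl fun q _ => ?_
    rw [vecMul_form]
  simp only [h1]
  rw [sum_sum_jac (V := Cm n)]
  simp only [Matrix.sum_vecMul, Matrix.smul_vecMul]

theorem xiV_change (hh : IsHermitian h) (hx : At e x) (hx' : At e' x) (w : Cm n) :
    xiV (h e') (e' x) (jacM e e' x *ᵥ w) = jacM e e' x *ᵥ xiV (h e) (e x) w := by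
  have hu := jacM_isUnit hx hx'
  have hc : IsUnit ((jacM e e' x).map cj).det := isUnit_conj hu
  have hT : IsUnit ((jacM e e' x)ᵀ).det := by rw [Matrix.det_transpose]; exact hu
  have e1 : ((jacM e e' x)ᵀ * h e' (e' x) * (jacM e e' x).map (starRingEnd ℂ))⁻¹ =
      ((jacM e e' x).map cj)⁻¹ * ((h e' (e' x))⁻¹ * ((jacM e e' x)ᵀ)⁻¹) := by
    rw [Matrix.mul_inv_rev, Matrix.mul_inv_rev]
  rw [xiV_eq, xiV_eq, xiL_change hh hx hx', hh.change e e' x hx hx', e1]
  set u := xiL (h e') (e' x) (jacM e e' x *ᵥ w) with hu'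
  rw [← Matrix.vecMul_transpose (jacM e e' x), Matrix.vecMul_vecMul, Matrix.vecMul_vecMul]
  refine congrArg (fun M => u ᵥ* M) ?_
  have c0 : (jacM e e' x).map cj * ((jacM e e' x).map cj)⁻¹ = 1 := Matrix.mul_nonsing_inv _ hc
  have c1 : ((jacM e e' x)ᵀ)⁻¹ * (jacM e e' x)ᵀ = 1 := Matrix.nonsing_inv_mul _ hT
  calc (h e' (e' x))⁻¹ = ((jacM e e' x).map cj * ((jacM e e' x).map cj)⁻¹) * (h e' (e' x))⁻¹ *
        (((jacM e e' x)ᵀ)⁻¹ * (jacM e e' x)ᵀ) := by rw [c0, c1]; simp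
    _ = _ := by simp only [Matrix.mul_assoc]

lemma gam_law (hh : IsHermitian h) (hx : At e x) (hx' : At e' x) (i : Fin n) :
    P1.Gam (h e) i (e x) = DM i (fun z => (jmat (fun z => e' (e.symm z)) z)ᵀ) (e x) *
        ((jacM e e' x)ᵀ)⁻¹ +
      ∑ p, jacM e e' x p i • ((jacM e e' x)ᵀ * P1.Gam (h e') p (e' x) * ((jacM e e' x)ᵀ)⁻¹) := by
  have hτ := transition hx hx'
  have hG : MC 1 (h e') ((fun z => e' (e.symm z)) (e x)) :=
    mc_pull hh hx hx' 1 (by exact WithTop.coe_le_coe.2 le_top)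
  have hu := jacM_isUnit hx hx'
  have hc : IsUnit ((jacM e e' x).map cj).det := isUnit_conj hu
  have hT : IsUnit ((jacM e e' x)ᵀ).det := by rw [Matrix.det_transpose]; exact hu
  have hG0 : IsUnit (h e' (e' x)).det := isUnit_iff_ne_zero.2 (hh.posDef e' x hx').det_pos.ne'
  unfold P1.Gam
  rw [C2.DM_congr (form_near hh hx hx'),
    DM_law (A := fun z => (jmat (fun z => e' (e.symm z)) z)ᵀ)
      (G := fun z => h e' (e' (e.symm z))) (hol'_jac hx hx')
      (MC.comp_holo (τ := fun z => e' (e.symm z)) hG hτ),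
    DM_comp (G := h e') (τ := fun z => e' (e.symm z)) hG hτ]
  have e0 : (h e (e x))⁻¹ = (((jacM e e' x)ᵀ)ᴴ)⁻¹ * ((h e' (e' x))⁻¹ * ((jacM e e' x)ᵀ)⁻¹) := by
    rw [hh.change e e' x hx hx', Matrix.mul_inv_rev, Matrix.mul_inv_rev]; rfl
  have e2 : ((jmat (fun z => e' (e.symm z)) (e x))ᵀ)ᴴ = ((jacM e e' x)ᵀ)ᴴ := rfl
  have e3 : (jmat (fun z => e' (e.symm z)) (e x))ᵀ = (jacM e e' x)ᵀ := rfl
  have hH : IsUnit (((jacM e e' x)ᵀ)ᴴ).det := by
    rw [Matrix.det_conjTranspose]; exact hT.star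
  rw [e0, e2, e3, hx.left_inv]
  have c1 : ((jacM e e' x)ᵀ)ᴴ * (((jacM e e' x)ᵀ)ᴴ)⁻¹ = 1 := Matrix.mul_nonsing_inv _ hH
  have c3 : h e' (e' x) * (h e' (e' x))⁻¹ = 1 := Matrix.mul_nonsing_inv _ hG0
  set D := DM i (fun z => (jmat (fun z => e' (e.symm z)) z)ᵀ) (e x) with hD
  set S := ∑ p, jmat (fun z => e' (e.symm z)) (e x) p i • DM p (h e') (e' x) with hS
  have key : (D * h e' (e' x) + (jacM e e' x)ᵀ * S) * ((jacM e e' x)ᵀ)ᴴ *
      ((((jacM e e' x)ᵀ)ᴴ)⁻¹ * ((h e' (e' x))⁻¹ * ((jacM e e' x)ᵀ)⁻¹)) =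
      D * (h e' (e' x) * (h e' (e' x))⁻¹) * ((jacM e e' x)ᵀ)⁻¹ +
        (jacM e e' x)ᵀ * S * (h e' (e' x))⁻¹ * ((jacM e e' x)ᵀ)⁻¹ := by
    calc _ = (D * h e' (e' x) + (jacM e e' x)ᵀ * S) * (((jacM e e' x)ᵀ)ᴴ *
          (((jacM e e' x)ᵀ)ᴴ)⁻¹) * ((h e' (e' x))⁻¹ * ((jacM e e' x)ᵀ)⁻¹) := by
            simp only [Matrix.mul_assoc]
      _ = _ := by
        rw [c1, Matrix.mul_one, Matrix.add_mul]
        simp only [Matrix.mul_assoc]
  have e4 : (fun z => e' (e.symm z)) (e x) = e' x := by simp only [hx.left_inv]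
  rw [key, c3, Matrix.mul_one]
  congr 1
  rw [hS, Matrix.mul_sum, Matrix.sum_mul, Matrix.sum_mul]
  refine Finset.sum_congr rfl fun p _ => ?_
  rw [Matrix.mul_smul, Matrix.smul_mul, Matrix.smul_mul]
  simp only [Matrix.mul_assoc]
  rfl

theorem dGam_change (hg : IsHermitian g) (hh : IsHermitian h) (hx : At e x) (hx' : At e' x)
    (w : Cm n) :
    P1.dGam (g e') (h e') (e' x) (jacM e e' x *ᵥ w) =
      jacM e e' x *ᵥ P1.dGam (g e) (h e) (e x) w := by
  have h0 : ∀ (g h : Cm n → Matrix (Fin n) (Fin n) ℂ) (z w : Cm n),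
      P1.dGam g h z w = ∑ i, w i • (w ᵥ* (P1.Gam h i z - P1.Gam g i z)) := by
    intro g h z w
    funext m
    simp only [P1.dGam, Finset.sum_apply, Pi.smul_apply, smul_eq_mul, Matrix.vecMul, dotProduct,
      Finset.mul_sum]
    refine Finset.sum_congr rfl fun i _ => Finset.sum_congr rfl fun k _ => ?_
    ring
  have hT : IsUnit ((jacM e e' x)ᵀ).det := by
    rw [Matrix.det_transpose]; exact jacM_isUnit hx hx'
  have h1 : ∀ i, P1.Gam (h e) i (e x) - P1.Gam (g e) i (e x) = ∑ p, jacM e e' x p i •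
      ((jacM e e' x)ᵀ * (P1.Gam (h e') p (e' x) - P1.Gam (g e') p (e' x)) *
        ((jacM e e' x)ᵀ)⁻¹) := by
    intro i
    rw [gam_law hh hx hx', gam_law hg hx hx', add_sub_add_left_eq_sub, ← Finset.sum_sub_distrib]
    refine Finset.sum_congr rfl fun p _ => ?_
    rw [← smul_sub, Matrix.mul_sub, Matrix.sub_mul]
  rw [h0, h0]
  set u := jacM e e' x *ᵥ w with hu
  rw [← Matrix.vecMul_transpose (jacM e e' x)]
  simp only [h1, Matrix.vecMul_sum, Matrix.vecMul_smul, Matrix.sum_vecMul, Matrix.smul_vecMul,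
    Finset.smul_sum, smul_smul]
  rw [Finset.sum_comm]
  refine Finset.sum_congr rfl fun p _ => ?_
  have h2 : ((w ᵥ* ((jacM e e' x)ᵀ * (P1.Gam (h e') p (e' x) -
      P1.Gam (g e') p (e' x)) * ((jacM e e' x)ᵀ)⁻¹)) ᵥ* (jacM e e' x)ᵀ) =
      u ᵥ* (P1.Gam (h e') p (e' x) - P1.Gam (g e') p (e' x)) := by
    rw [Matrix.vecMul_vecMul, Matrix.mul_assoc, Matrix.nonsing_inv_mul _ hT, Matrix.mul_one,
      ← Matrix.vecMul_vecMul, Matrix.vecMul_transpose]
  have h3 : u p = ∑ i, w i * jacM e e' x p i := by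
    simp only [hu, Matrix.mulVec, dotProduct]
    exact Finset.sum_congr rfl fun i _ => mul_comm _ _
  rw [h3, Finset.sum_smul]
  refine Finset.sum_congr rfl fun i _ => ?_
  rw [h2]

end manifold2

end Vale.Agent.P272.K.T4
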