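import Vale.Agent.P272.K.T4.EmbField
import Vale.Agent.P272.K.T4.Laws

/-! P272/T4, block (B2d): compactness of the images of closed, chart independent subsets of the
unit sphere bundle under the embedding of the tangent bundle. -/

open scoped Manifold ContDiff ComplexOrder Topology Matrix
open Set Metric

set_option linter.unusedSectionVars false

noncomputable section

namespace Vale.Agent.P272.K.T4

open LIN

variable {n : ℕ} {X : Type*} [TopologicalSpace X] [ChartedSpace (Cm n) X]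
  {h : Chart n X → Cm n → Matrix (Fin n) (Fin n) ℂ} {e e' : Chart n X} {x : X}

/-- continuity of the quadratic form in both variables -/
lemma quad_continuousOn (hh : IsHermitian h) (he : e ∈ atlas (Cm n) X) {K : Set (Cm n)}
    (hK : K ⊆ e.target) :
    ContinuousOn (fun p : Cm n × Cm n => (quad (h e p.1) p.2).re) (K ×ˢ univ) := by
  refine Complex.continuous_re.comp_continuousOn ?_
  unfold quad
  refine continuousOn_finsetSum _ fun i _ => continuousOn_finsetSum _ fun j _ => ?_
  refine (((hh.continuousOn_entry he i j).mono hK).comp continuous_fst.continuousOn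
    fun p hp => hp.1).mul ?_
  have h1 : ∀ i, Continuous fun p : Cm n × Cm n => p.2 i := fun i =>
    (continuous_apply i).comp continuous_snd
  exact ((h1 i).mul (Complex.continuous_conj.comp (h1 j))).continuousOn

/-- continuity of the quartic form in both variables -/
lemma quart_continuousOn (hh : IsHermitian h) (he : e ∈ atlas (Cm n) X) {K : Set (Cm n)}
    (hK : K ⊆ e.target) :
    ContinuousOn (fun p : Cm n × Cm n => (quart (curv (h e) p.1) p.2).re) (K ×ˢ univ) := by
  refine Complex.continuous_re.comp_continuousOn ?_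
  unfold quart
  refine continuousOn_finsetSum _ fun i _ => continuousOn_finsetSum _ fun j _ =>
    continuousOn_finsetSum _ fun k _ => continuousOn_finsetSum _ fun l _ => ?_
  refine (((hh.continuousOn_curv he i j k l).mono hK).comp continuous_fst.continuousOn
    fun p hp => hp.1).mul ?_
  have h1 : ∀ i, Continuous fun p : Cm n × Cm n => p.2 i := fun i =>
    (continuous_apply i).comp continuous_snd
  exact ((((h1 i).mul (Complex.continuous_conj.comp (h1 j))).mul (h1 k)).mul
    (Complex.continuous_conj.comp (h1 l))).continuousOn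

/-- continuity of the covector `R(w, w̄, w, ·)` in both variables -/
lemma crv_continuousOn (hh : IsHermitian h) (he : e ∈ atlas (Cm n) X) {K : Set (Cm n)}
    (hK : K ⊆ e.target) (l : Fin n) :
    ContinuousOn (fun p : Cm n × Cm n => crv (h e) p.1 p.2 l) (K ×ˢ univ) := by
  unfold crv
  refine continuousOn_finsetSum _ fun i _ => continuousOn_finsetSum _ fun j _ =>
    continuousOn_finsetSum _ fun k _ => ?_
  refine (((hh.continuousOn_curv he i j k l).mono hK).comp continuous_fst.continuousOn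
    fun p hp => hp.1).mul ?_
  have h1 : ∀ i, Continuous fun p : Cm n × Cm n => p.2 i := fun i =>
    (continuous_apply i).comp continuous_snd
  exact (((h1 i).mul (Complex.continuous_conj.comp (h1 j))).mul (h1 k)).continuousOn

lemma norm_sq_le_quad_one (w : Cm n) : ‖w‖ ^ 2 ≤ (quad (1 : Matrix (Fin n) (Fin n) ℂ) w).re := by
  have h1 : (quad (1 : Matrix (Fin n) (Fin n) ℂ) w).re = ∑ i, ‖w i‖ ^ 2 := by
    unfold quad
    have : ∀ i : Fin n, ∑ j, (1 : Matrix (Fin n) (Fin n) ℂ) i j * (w i * cj (w j)) =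
        ((‖w i‖ ^ 2 : ℝ) : ℂ) := by
      intro i
      rw [Finset.sum_eq_single i]
      · rw [Matrix.one_apply_eq, one_mul, cj, Complex.mul_conj, Complex.normSq_eq_norm_sq]
      · intro j _ hj
        rw [Matrix.one_apply_ne (Ne.symm hj), zero_mul]
      · intro hi; exact absurd (Finset.mem_univ i) hi
    rw [Finset.sum_congr rfl fun i _ => this i, ← Complex.ofReal_sum, Complex.ofReal_re]
  rw [h1]
  have h2 : ‖w‖ ≤ √(∑ i, ‖w i‖ ^ 2) := by
    refine (pi_norm_le_iff_of_nonneg (Real.sqrt_nonneg _)).2 fun i => ?_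
    refine Real.le_sqrt_of_sq_le ?_
    exact Finset.single_le_sum (f := fun i => ‖w i‖ ^ 2) (fun i _ => sq_nonneg _)
      (Finset.mem_univ i)
  have h3 : 0 ≤ ∑ i, ‖w i‖ ^ 2 := Finset.sum_nonneg fun i _ => sq_nonneg _
  calc ‖w‖ ^ 2 ≤ (√(∑ i, ‖w i‖ ^ 2)) ^ 2 := pow_le_pow_left₀ (norm_nonneg _) h2 2
    _ = _ := Real.sq_sqrt h3

/-- on a compact set in a chart, the unit sphere bundle is compact -/
lemma isCompact_unit (hh : IsHermitian h) (he : e ∈ atlas (Cm n) X) {K : Set (Cm n)}
    (hK : K ⊆ e.target) (hKc : IsCompact K) :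
    IsCompact {p : Cm n × Cm n | p.1 ∈ K ∧ (quad (h e p.1) p.2).re = 1} := by
  obtain ⟨C, hC, hb⟩ := exists_quad_lower hKc (fun z => h e z) (fun _ => 1)
    (fun i j => (hh.continuousOn_entry he i j).mono hK) (fun i j => continuousOn_const)
    (fun z hz => hh.posDef_target he (hK hz))
  have hclosed : IsClosed {p : Cm n × Cm n | p.1 ∈ K ∧ (quad (h e p.1) p.2).re = 1} := by
    have h1 := (quad_continuousOn hh he hK).preimage_isClosed_of_isClosed
      (hKc.isClosed.prod isClosed_univ) (isClosed_singleton (x := (1 : ℝ)))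
    convert h1 using 1
    ext p
    simp [Set.mem_prod]
  refine (hKc.prod (isCompact_closedBall (0 : Cm n) (√C))).of_isClosed_subset hclosed ?_
  rintro ⟨z, w⟩ ⟨hz, hw⟩
  refine ⟨hz, ?_⟩
  rw [mem_closedBall, dist_zero_right]
  refine Real.le_sqrt_of_sq_le ?_
  have h1 := hb z hz w
  simp only at hw
  rw [hw, mul_one] at h1
  exact (norm_sq_le_quad_one w).trans h1

variable [IsManifold 𝓘(ℂ, Cm n) ω X]

/-- the main compactness statement -/
theorem isCompact_of_local [T2Space X] (𝒞 : Cov (Cm n) X) (hh : IsHermitian h)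
    (P : Chart n X → Cm n → Cm n → Prop)
    (hP : ∀ e e' x w, At e x → At e' x → P e (e x) w → P e' (e' x) ((jacM e e' x).mulVec w))
    (hcl : ∀ e ∈ atlas (Cm n) X, ∀ K : Set (Cm n), K ⊆ e.target → IsCompact K →
      IsClosed {p : Cm n × Cm n | p.1 ∈ K ∧ P e p.1 p.2}) :
    IsCompact {y : WW 𝒞 | ∃ e x w, At e x ∧ (quad (h e (e x)) w).re = 1 ∧ P e (e x) w ∧
      y = emb 𝒞 e x w} := by
  have hsub : ∀ i, closedBall (𝒞.c i) (𝒞.r i) ⊆ (𝒞.e i).target := fun i =>
    (closedBall_subset_closedBall (by have := 𝒞.r_pos i; linarith)).trans (𝒞.sub i)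
  have hset : {y : WW 𝒞 | ∃ e x w, At e x ∧ (quad (h e (e x)) w).re = 1 ∧ P e (e x) w ∧
      y = emb 𝒞 e x w} = ⋃ i, embC 𝒞 (𝒞.e i) '' {p : Cm n × Cm n |
        p.1 ∈ closedBall (𝒞.c i) (𝒞.r i) ∧ (quad (h (𝒞.e i) p.1) p.2).re = 1 ∧
          P (𝒞.e i) p.1 p.2} := by
    ext y
    simp only [mem_ofPred_eq, mem_iUnion, mem_image]
    constructor
    · rintro ⟨e, x, w, hx, h1, h2, rfl⟩
      obtain ⟨i, hi, hb⟩ := 𝒞.cover x
      have hxi : At (𝒞.e i) x := ⟨𝒞.mem i, hi⟩
      refine ⟨i, (𝒞.e i x, (jacM e (𝒞.e i) x).mulVec w), ⟨ball_subset_closedBall hb, ?_, ?_⟩, ?_⟩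
      · rw [← quad_change hh hx hxi]; exact h1
      · exact hP e (𝒞.e i) x w hx hxi h2
      · rw [embC_apply_at 𝒞 hxi, ← emb_change 𝒞 hx hxi]
    · rintro ⟨i, p, ⟨hp, h1, h2⟩, rfl⟩
      have hz := hsub i hp
      have hri : 𝒞.e i ((𝒞.e i).symm p.1) = p.1 := (𝒞.e i).right_inv hz
      refine ⟨𝒞.e i, (𝒞.e i).symm p.1, p.2, At.of_target (𝒞.mem i) hz, ?_, ?_, rfl⟩
      · rw [hri]; exact h1
      · rw [hri]; exact h2
  rw [hset]
  refine isCompact_iUnion fun i => ?_
  have hcomp : IsCompact {p : Cm n × Cm n | p.1 ∈ closedBall (𝒞.c i) (𝒞.r i) ∧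
      (quad (h (𝒞.e i) p.1) p.2).re = 1 ∧ P (𝒞.e i) p.1 p.2} := by
    have h1 := isCompact_unit hh (𝒞.mem i) (hsub i) (isCompact_closedBall (𝒞.c i) (𝒞.r i))
    have h2 := hcl (𝒞.e i) (𝒞.mem i) _ (hsub i) (isCompact_closedBall (𝒞.c i) (𝒞.r i))
    have h3 := h1.inter_right h2
    convert h3 using 1
    ext p
    simp only [mem_ofPred_eq, mem_inter_iff]
    tauto
  refine hcomp.image_of_continuousOn ?_
  rintro ⟨z, w⟩ ⟨hz, -⟩
  exact (embC_contDiffAt 𝒞 (𝒞.mem i) (hsub i hz) w).continuousAt.continuousWithinAt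

theorem isCompact_SJ [T2Space X] (𝒞 : Cov (Cm n) X) (hh : IsHermitian h) :
    IsCompact (SJ 𝒞 h) := by
  have := isCompact_of_local 𝒞 hh (fun _ _ _ => True) (fun _ _ _ _ _ _ _ => trivial)
    (fun e he K hK hKc => by
      have h1 : {p : Cm n × Cm n | p.1 ∈ K ∧ True} = K ×ˢ univ := by
        ext p; simp [Set.mem_prod]
      rw [h1]
      exact hKc.isClosed.prod isClosed_univ)
  convert this using 1
  ext y
  simp [SJ]

/-- compactness of the set of unit vectors with vanishing holomorphic sectional curvature -/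
theorem isCompact_ZJ [T2Space X] (𝒞 : Cov (Cm n) X) (hh : IsHermitian h) :
    IsCompact (ZJ 𝒞 h) :=
  isCompact_of_local 𝒞 hh (fun e z w => (quart (curv (h e) z) w).re = 0)
    (fun _ _ _ w hx hx' h0 => by
      show (quart _ _).re = 0
      rw [← quart_change hh hx hx' w]; exact h0)
    (fun _ he _ hK hKc => by
      have h1 := (quart_continuousOn hh he hK).preimage_isClosed_of_isClosed
        (hKc.isClosed.prod isClosed_univ) (isClosed_singleton (x := (0 : ℝ)))
      convert h1 using 1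
      ext p
      simp [Set.mem_prod])

lemma isClosed_crv (hh : IsHermitian h) (he : e ∈ atlas (Cm n) X) {K : Set (Cm n)}
    (hK : K ⊆ e.target) (hKc : IsCompact K) :
    IsClosed {p : Cm n × Cm n | p.1 ∈ K ∧ ∀ l, crv (h e) p.1 p.2 l = 0} := by
  have h2 : ContinuousOn (fun p : Cm n × Cm n => crv (h e) p.1 p.2) (K ×ˢ univ) :=
    continuousOn_pi.2 fun l => crv_continuousOn hh he hK l
  have h1 := h2.preimage_isClosed_of_isClosed
    (hKc.isClosed.prod isClosed_univ) (isClosed_singleton (x := (0 : Fin n → ℂ)))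
  convert h1 using 1
  ext p
  simp [Set.mem_prod, funext_iff]

lemma crv_eq_xiL (h : Cm n → Matrix (Fin n) (Fin n) ℂ) (z w : Cm n) : crv h z w = xiL h z w := rfl

/-- the condition `R(w, w̄, w, ·) = 0` does not depend on the chart -/
lemma crv_zero_change (hh : IsHermitian h) (hx : At e x) (hx' : At e' x) (w : Cm n)
    (h0 : ∀ l, crv (h e) (e x) w l = 0) (l : Fin n) :
    crv (h e') (e' x) ((jacM e e' x).mulVec w) l = 0 := by
  have h1 := xiL_change hh hx' hx ((jacM e e' x).mulVec w)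
  rw [Matrix.mulVec_mulVec, jacM_mul hx hx', Matrix.one_mulVec] at h1
  have h2 : xiL (h e) (e x) w = 0 := funext fun l => h0 l
  rw [crv_eq_xiL, h1, h2, Matrix.zero_vecMul]
  rfl

/-- compactness of the set of unit vectors with `R(w, w̄, w, ·) = 0` (this is `ZJ'`) -/
theorem isCompact_ZJ' [T2Space X] (𝒞 : Cov (Cm n) X) (hh : IsHermitian h) :
    IsCompact {y : WW 𝒞 | ∃ e x w, At e x ∧ (quad (h e (e x)) w).re = 1 ∧
      (∀ l, crv (h e) (e x) w l = 0) ∧ y = emb 𝒞 e x w} :=
  isCompact_of_local 𝒞 hh (fun e z w => ∀ l, crv (h e) z w l = 0)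
    (fun _ _ _ w hx hx' h0 => crv_zero_change hh hx hx' w h0)
    (fun _ he _ hK hKc => isClosed_crv hh he hK hKc)

end Vale.Agent.P272.K.T4
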