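import Vale.Agent.P272.K.T4.TMap
import Mathlib.Geometry.Manifold.MFDeriv.Atlas
import Mathlib.Geometry.Manifold.MFDeriv.FDeriv

/-! P272/T4, block (b2c): from a plane in the embedded tangent bundle, tangent to the spray, to a
non-constant entire curve. -/

open scoped Manifold ContDiff ComplexOrder Topology Matrix
open Set Metric Filter

set_option linter.unusedSectionVars false

noncomputable section

namespace Vale.Agent.P272.K.T4

open LIN

variable {n : ℕ} {X : Type*} [TopologicalSpace X] [ChartedSpace (Cm n) X]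
  {e e' : Chart n X} {x : X}

/-- the base point component of the embedding in the `i`-th chart -/
def basei (𝒞 : Cov (Cm n) X) (i : Fin 𝒞.N) : WW 𝒞 →L[ℝ] Cm n :=
  (ContinuousLinearMap.fst ℝ (Cm n) (Cm n)).comp
    ((ContinuousLinearMap.snd ℝ ℝ (Cm n × Cm n)).comp (ContinuousLinearMap.proj i))

lemma basei_apply (𝒞 : Cov (Cm n) X) (i : Fin 𝒞.N) (y : WW 𝒞) : basei 𝒞 i y = (y i).2.1 := rfl

/-- near a point of the ball where `η i = 1` -/
lemma eventually_η {𝒞 : Cov (Cm n) X} {i : Fin 𝒞.N} (hx : At e x) (hi : x ∈ (𝒞.e i).source)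
    (hb : 𝒞.e i x ∈ ball (𝒞.c i) (2 * 𝒞.r i)) :
    ∀ᶠ z in 𝓝 (e x), 𝒞.η i (e.symm z) = 1 := by
  have hi' : At (𝒞.e i) x := ⟨𝒞.mem i, hi⟩
  have h2 : Tendsto e.symm (𝓝 (e x)) (𝓝 x) := by
    have := e.symm.continuousAt (x := e x) (e.map_source hx.2)
    unfold ContinuousAt at this
    rwa [e.left_inv hx.2] at this
  have h3 : ∀ᶠ y in 𝓝 x, y ∈ (𝒞.e i).source ∧ 𝒞.e i y ∈ ball (𝒞.c i) (2 * 𝒞.r i) :=
    ((𝒞.e i).open_source.mem_nhds hi |> fun h => (h : ∀ᶠ y in 𝓝 x, y ∈ (𝒞.e i).source)).and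
      (((𝒞.e i).continuousAt hi).eventually (isOpen_ball.mem_nhds hb))
  filter_upwards [h2.eventually h3] with z hz
  exact 𝒞.η_eq_one hz.1 (ball_subset_closedBall hz.2)

variable [IsManifold 𝓘(ℂ, Cm n) ω X]

lemma fderiv_embC_base {𝒞 : Cov (Cm n) X} {i : Fin 𝒞.N} (hx : At e x)
    (hi : x ∈ (𝒞.e i).source) (hb : 𝒞.e i x ∈ ball (𝒞.c i) (2 * 𝒞.r i)) {w : Cm n}
    (hd : DifferentiableAt ℝ (embC 𝒞 e) (e x, w)) (u v : Cm n) :
    (fderiv ℝ (embC 𝒞 e) (e x, w) (u, v) i).2.1 = (jacM e (𝒞.e i) x).mulVec u := by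
  have hi' : At (𝒞.e i) x := ⟨𝒞.mem i, hi⟩
  have hτ := transition_differentiableAt hx hi'
  have h1 : HasFDerivAt (fun p => basei 𝒞 i (embC 𝒞 e p))
      ((basei 𝒞 i).comp (fderiv ℝ (embC 𝒞 e) (e x, w))) (e x, w) :=
    (basei 𝒞 i).hasFDerivAt.comp (e x, w) hd.hasFDerivAt
  have h2 : HasFDerivAt (fun p : Cm n × Cm n => 𝒞.e i (e.symm p.1) - 𝒞.c i)
      ((fderiv ℝ (fun z => 𝒞.e i (e.symm z)) (e x)).comp
        (ContinuousLinearMap.fst ℝ (Cm n) (Cm n))) (e x, w) := by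
    have := HasFDerivAt.comp (g := fun z => 𝒞.e i (e.symm z)) (e x, w)
      (hτ.restrictScalars ℝ).hasFDerivAt (hasFDerivAt_fst (𝕜 := ℝ) (p := (e x, w)))
    exact this.sub_const _
  have h3 : (fun p => basei 𝒞 i (embC 𝒞 e p)) =ᶠ[𝓝 (e x, w)]
      fun p : Cm n × Cm n => 𝒞.e i (e.symm p.1) - 𝒞.c i := by
    have h4 : Tendsto (fun p : Cm n × Cm n => p.1) (𝓝 (e x, w)) (𝓝 (e x)) :=
      continuous_fst.continuousAt (x := (e x, w))
    filter_upwards [h4.eventually (eventually_η hx hi hb)] with p hp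
    simp only [basei_apply, embC, emb]
    rw [hp, one_smul]
  have h5 := h1.unique (h2.congr_of_eventuallyEq h3)
  have h6 := congrArg (fun L => L (u, v)) h5
  simp only [ContinuousLinearMap.comp_apply, basei_apply, ContinuousLinearMap.coe_fst'] at h6
  rw [h6, fderivR_of_holo hτ, jacM_eq]
  funext p
  rw [jmat_mulVec hτ]
  rfl

/-- **Final step of the dynamical argument**: a plane in the embedded tangent bundle which is
tangent to the spray is the velocity of an entire curve. -/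
theorem exists_entire_deriv {𝒞 : Cov (Cm n) X} {F : ℂ → WW 𝒞} {V₁ V₂ : WW 𝒞 → WW 𝒞}
    (hF : ∀ z, HasFDerivAt F
      (Complex.reCLM.smulRight (V₁ (F z)) + Complex.imCLM.smulRight (V₂ (F z))) z)
    {e : ℂ → Chart n X} {f : ℂ → X} {w v₁ v₂ : ℂ → Cm n} (hAt : ∀ z, At (e z) (f z))
    (hFe : ∀ z, F z = emb 𝒞 (e z) (f z) (w z))
    (hd : ∀ z, DifferentiableAt ℝ (embC 𝒞 (e z)) (e z (f z), w z))
    (hV₁ : ∀ z, V₁ (F z) = fderiv ℝ (embC 𝒞 (e z)) (e z (f z), w z) ((1 : ℂ) • w z, v₁ z))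
    (hV₂ : ∀ z, V₂ (F z) = fderiv ℝ (embC 𝒞 (e z)) (e z (f z), w z) (Complex.I • w z, v₂ z)) :
    MDifferentiable 𝓘(ℂ, ℂ) 𝓘(ℂ, Cm n) f ∧ ∀ z e', At e' (f z) →
      HasDerivAt (fun ζ => e' (f ζ)) ((jacM (e z) e' (f z)).mulVec (w z)) z := by
  -- local structure
  have key : ∀ z₀, ∃ i : Fin 𝒞.N, f z₀ ∈ (𝒞.e i).source ∧
      HasDerivAt (fun z => 𝒞.c i + (F z i).2.1) ((jacM (e z₀) (𝒞.e i) (f z₀)).mulVec (w z₀)) z₀ ∧
      ∀ᶠ z in 𝓝 z₀, f z ∈ (𝒞.e i).source ∧ 𝒞.e i (f z) = 𝒞.c i + (F z i).2.1 := by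
    intro z₀
    obtain ⟨i, hi, hb⟩ := 𝒞.cover (f z₀)
    have hr := 𝒞.r_pos i
    have hb2 : 𝒞.e i (f z₀) ∈ ball (𝒞.c i) (2 * 𝒞.r i) := ball_subset_ball (by linarith) hb
    have hη : 𝒞.η i (f z₀) = 1 := 𝒞.η_eq_one hi (ball_subset_closedBall hb2)
    refine ⟨i, hi, ?_, ?_⟩
    · have h1 : HasFDerivAt (fun z => 𝒞.c i + basei 𝒞 i (F z))
          ((basei 𝒞 i).comp (Complex.reCLM.smulRight (V₁ (F z₀)) +
            Complex.imCLM.smulRight (V₂ (F z₀)))) z₀ :=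
        ((basei 𝒞 i).hasFDerivAt.comp z₀ (hF z₀)).const_add _
      have h2 : HasFDerivAt (𝕜 := ℂ) (fun z => 𝒞.c i + basei 𝒞 i (F z))
          (ContinuousLinearMap.toSpanSingleton ℂ
            ((jacM (e z₀) (𝒞.e i) (f z₀)).mulVec (w z₀))) z₀ := by
        refine hasFDerivAt_of_restrictScalars ℝ h1 ?_
        ext1 ζ
        simp only [ContinuousLinearMap.coe_restrictScalars', ContinuousLinearMap.comp_apply,
          basei_apply, add_apply, ContinuousLinearMap.smulRight_apply,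
          Complex.reCLM_apply, Complex.imCLM_apply, Pi.add_apply, Pi.smul_apply, Prod.snd_add,
          Prod.fst_add, Prod.smul_snd, Prod.smul_fst, ContinuousLinearMap.toSpanSingleton_apply]
        rw [hV₁, hV₂, fderiv_embC_base (hAt z₀) hi hb2 (hd z₀),
          fderiv_embC_base (hAt z₀) hi hb2 (hd z₀), Matrix.mulVec_smul, Matrix.mulVec_smul,
          one_smul]
        rw [← Complex.coe_smul, ← Complex.coe_smul, smul_smul, ← add_smul, Complex.re_add_im]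
      have h3 := h2.hasDerivAt
      rwa [ContinuousLinearMap.toSpanSingleton_apply, one_smul] at h3
    · have hc : ContinuousAt F z₀ := (hF z₀).continuousAt
      have c1 : ContinuousAt (fun z => (F z i).1) z₀ :=
        (continuous_fst.continuousAt).comp ((continuous_apply i).continuousAt.comp hc)
      have c2 : ContinuousAt (fun z => (F z i).2.1) z₀ :=
        ((basei 𝒞 i).continuous.continuousAt).comp hc
      have v1 : (F z₀ i).1 = 1 := by rw [hFe z₀]; exact hη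
      have v2 : (F z₀ i).2.1 = 𝒞.e i (f z₀) - 𝒞.c i := by
        rw [hFe z₀]
        show 𝒞.η i (f z₀) • (𝒞.e i (f z₀) - 𝒞.c i) = _
        rw [hη, one_smul]
      have e1 : ∀ᶠ z in 𝓝 z₀, 1 / 2 < (F z i).1 :=
        c1.eventually (lt_mem_nhds (by show 1 / 2 < (F z₀ i).1; rw [v1]; norm_num))
      have e2 : ∀ᶠ z in 𝓝 z₀, ‖(F z i).2.1‖ < 𝒞.r i := by
        refine (continuous_norm.continuousAt.comp c2).eventually (gt_mem_nhds ?_)
        show ‖(F z₀ i).2.1‖ < 𝒞.r i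
        rw [v2, ← dist_eq_norm]
        exact hb
      filter_upwards [e1, e2] with z h1 h2
      have p1 : (F z i).1 = 𝒞.η i (f z) := by rw [hFe z]; rfl
      have p2 : (F z i).2.1 = 𝒞.η i (f z) • (𝒞.e i (f z) - 𝒞.c i) := by rw [hFe z]; rfl
      rw [p1] at h1
      rw [p2, norm_smul, Real.norm_eq_abs, abs_of_pos (by linarith)] at h2
      obtain ⟨hs, -⟩ := 𝒞.η_ne_zero (i := i) (x := f z) (by linarith)
      have h3 : ‖𝒞.e i (f z) - 𝒞.c i‖ < 2 * 𝒞.r i := by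
        by_contra hcon
        push Not at hcon
        have : 1 / 2 * (2 * 𝒞.r i) ≤ 𝒞.η i (f z) * ‖𝒞.e i (f z) - 𝒞.c i‖ := by gcongr
        linarith
      have h4 : 𝒞.η i (f z) = 1 := 𝒞.η_eq_one hs (by
        rw [mem_closedBall, dist_eq_norm]; exact h3.le)
      refine ⟨hs, ?_⟩
      rw [p2, h4, one_smul, add_sub_cancel]
  refine ⟨fun z₀ => ?_, fun z₀ e' he' => ?_⟩
  · obtain ⟨i, hi, hder, hev⟩ := key z₀
    have hval : 𝒞.c i + (F z₀ i).2.1 = 𝒞.e i (f z₀) := hev.self_of_nhds.2.symm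
    have h1 : MDifferentiableAt 𝓘(ℂ, ℂ) 𝓘(ℂ, Cm n) (fun z => 𝒞.c i + (F z i).2.1) z₀ :=
      hder.differentiableAt.mdifferentiableAt
    have h2 : MDifferentiableAt 𝓘(ℂ, Cm n) 𝓘(ℂ, Cm n) (𝒞.e i).symm (𝒞.c i + (F z₀ i).2.1) := by
      rw [hval]
      exact (chart_symm_contMDiffAt (𝒞.mem i) ((𝒞.e i).map_source hi)).mdifferentiableAt (by simp)
    refine (MDifferentiableAt.comp z₀ h2 h1).congr_of_eventuallyEq ?_
    filter_upwards [hev] with z hz
    rw [Function.comp_apply, ← hz.2, (𝒞.e i).left_inv hz.1]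
  · obtain ⟨i, hi, hder, hev⟩ := key z₀
    have hi' : At (𝒞.e i) (f z₀) := ⟨𝒞.mem i, hi⟩
    have hval : 𝒞.c i + (F z₀ i).2.1 = 𝒞.e i (f z₀) := hev.self_of_nhds.2.symm
    have hτ := transition_differentiableAt hi' he'
    have h1 : HasFDerivAt (fun y => e' ((𝒞.e i).symm y))
        (fderiv ℂ (fun y => e' ((𝒞.e i).symm y)) (𝒞.e i (f z₀))) (𝒞.c i + (F z₀ i).2.1) := by
      rw [hval]; exact hτ.hasFDerivAt
    have h2 := h1.comp_hasDerivAt z₀ hder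
    have h3 : fderiv ℂ (fun y => e' ((𝒞.e i).symm y)) (𝒞.e i (f z₀))
        ((jacM (e z₀) (𝒞.e i) (f z₀)).mulVec (w z₀)) = (jacM (e z₀) e' (f z₀)).mulVec (w z₀) := by
      rw [jacM_comp (hAt z₀) hi' he', ← Matrix.mulVec_mulVec]
      funext p
      rw [jmat_mulVec hτ]
      rfl
    rw [h3] at h2
    refine h2.congr_of_eventuallyEq ?_
    filter_upwards [hev] with z hz
    rw [Function.comp_apply, ← hz.2, (𝒞.e i).left_inv hz.1]

/-- a plane off the zero section comes from a non-constant entire curve. -/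
theorem exists_entire {𝒞 : Cov (Cm n) X} {F : ℂ → WW 𝒞} {V₁ V₂ : WW 𝒞 → WW 𝒞}
    (hF : ∀ z, HasFDerivAt F
      (Complex.reCLM.smulRight (V₁ (F z)) + Complex.imCLM.smulRight (V₂ (F z))) z)
    (hV : ∀ z, ∃ e x w v₁ v₂, At e x ∧ w ≠ 0 ∧ F z = emb 𝒞 e x w ∧
      DifferentiableAt ℝ (embC 𝒞 e) (e x, w) ∧
      V₁ (F z) = fderiv ℝ (embC 𝒞 e) (e x, w) ((1 : ℂ) • w, v₁) ∧
      V₂ (F z) = fderiv ℝ (embC 𝒞 e) (e x, w) (Complex.I • w, v₂)) :
    ∃ f : ℂ → X, MDifferentiable 𝓘(ℂ, ℂ) 𝓘(ℂ, Cm n) f ∧ ∃ a b, f a ≠ f b := by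
  choose e f w v₁ v₂ hAt hw hFe hd hV₁ hV₂ using hV
  obtain ⟨h1, h2⟩ := exists_entire_deriv hF hAt hFe hd hV₁ hV₂
  refine ⟨f, h1, ?_⟩
  by_contra hcon
  push Not at hcon
  have h3 := h2 0 (e 0) (hAt 0)
  rw [jacM_self (hAt 0), Matrix.one_mulVec] at h3
  have h4 : (fun ζ => e 0 (f ζ)) = fun _ => e 0 (f 0) := funext fun ζ => by rw [hcon ζ 0]
  rw [h4] at h3
  exact hw 0 (h3.unique (hasDerivAt_const (0 : ℂ) (e 0 (f 0))))

end Vale.Agent.P272.K.T4
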