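import Vale.Agent.P272.K.Stmt
import Mathlib.Geometry.Manifold.MFDeriv.Basic

/-!
# P272, second main statement (T4+)

A compact hyperbolic Kähler manifold which carries a Hermitian metric of nonpositive holomorphic
sectional curvature, and whose canonical bundle is nef, satisfies `c₁(K_X)^n > 0`.
-/

open scoped Manifold ContDiff ComplexOrder
open MeasureTheory

noncomputable section

namespace Vale.Agent.P272.K

section
variable {n : ℕ} {X : Type*} [TopologicalSpace X]

/-- The holomorphic sectional curvature of the Hermitian metric `h` (of its Chern connection) is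
nonpositive: `Σ R_{i j̄ k l̄} ξ_i ξ̄_j ξ_k ξ̄_l ≤ 0` for every tangent vector `ξ`. -/
def NonposHSC [ChartedSpace (Cm n) X] (h : Chart n X → Cm n → Matrix (Fin n) (Fin n) ℂ) : Prop :=
  ∀ e x, At e x → ∀ ξ : Cm n,
    (∑ i, ∑ j, ∑ k, ∑ l, curv (h e) (e x) i j k l *
      (ξ i * (starRingEnd ℂ) (ξ j) * ξ k * (starRingEnd ℂ) (ξ l))).re ≤ 0

/-- `X` is Brody hyperbolic: every entire curve, i.e. every holomorphic map `ℂ → X`, is constant. -/
def BrodyHyperbolic (n : ℕ) (X : Type*) [TopologicalSpace X] [ChartedSpace (Cm n) X] : Prop :=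
  ∀ f : ℂ → X, MDifferentiable 𝓘(ℂ, ℂ) 𝓘(ℂ, Cm n) f → ∀ s t : ℂ, f s = f t

end

/-- **Main statement (T4+).** Let `X` be a compact connected complex manifold of dimension `n ≥ 1`
which is Brody hyperbolic, with a Kähler metric `w` and a Hermitian metric `h` (of any kind) of
nonpositive holomorphic sectional curvature. If `K_X + a[w]` is nef, `a ≥ 0`, then
`(K_X + a[w])^n > 0`. For `a = 0`: if `K_X` is nef, then `c₁(K_X)^n > 0`. -/
def HypStatement : Prop :=
  ∀ (n : ℕ) (_ : 1 ≤ n) (X : Type) [TopologicalSpace X] [T2Space X] [CompactSpace X] [Nonempty X]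
    [ChartedSpace (Cm n) X] [IsManifold 𝓘(ℂ, Cm n) ω X] (_ : BrodyHyperbolic n X)
    (w h : Chart n X → Cm n → Matrix (Fin n) (Fin n) ℂ) (_ : IsKahler w) (_ : IsHermitian h)
    (_ : NonposHSC h) (a : ℝ) (_ : 0 ≤ a) (_ : NefCanonical w a) (φ : Chart n X → Cm n → ℝ)
    (_ : IsCanonicalMetric φ),
    ∃ I : ℝ, 0 < I ∧ IsIntegral (fun e z => (cHess (φ e) z + (a : ℂ) • w e z).det.re) I

end Vale.Agent.P272.K
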