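import Vale.Agent.P272.K.T4.FlowC
import Vale.Agent.P272.K.T4.Curve
import Vale.Agent.P272.K.T4.Laws
import Vale.Agent.P272.K.T4.Stmt

/-! P272/T4, end of blocks (b) and (c): test functions on the tangent bundle, unless there is an
entire curve of constant speed. -/

open scoped Manifold ContDiff ComplexOrder Topology Matrix
open Set Metric Filter

set_option linter.unusedSectionVars false

noncomputable section

namespace Vale.Agent.P272.K.T4

open LIN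

variable {n : ℕ} {X : Type*} [TopologicalSpace X] [ChartedSpace (Cm n) X]
  {h : Chart n X → Cm n → Matrix (Fin n) (Fin n) ℂ}
  [IsManifold 𝓘(ℂ, Cm n) ω X] [T2Space X]

/-- **Test functions or an entire curve of constant speed one**, for any Hermitian metric. -/
theorem test_or_flat (𝒞 : Cov (Cm n) X) (hh : IsHermitian h) (hS : IsCompact (SJ 𝒞 h))
    (hZ : IsCompact (ZJ' 𝒞 h)) :
    (∃ Ψ₁ Ψ₂ : WW 𝒞 → ℝ, ContDiff ℝ ∞ Ψ₁ ∧ ContDiff ℝ ∞ Ψ₂ ∧
      ∀ e x w, At e x → (quad (h e (e x)) w).re = 1 → (∀ l, crv (h e) (e x) w l = 0) →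
        0 < fderiv ℝ Ψ₁ (emb 𝒞 e x w) (fderiv ℝ (embC 𝒞 e) (e x, w) (spray (h e) 1 (e x, w))) +
          fderiv ℝ Ψ₂ (emb 𝒞 e x w)
            (fderiv ℝ (embC 𝒞 e) (e x, w) (spray (h e) Complex.I (e x, w)))) ∨
    ∃ f : ℂ → X, MDifferentiable 𝓘(ℂ, ℂ) 𝓘(ℂ, Cm n) f ∧ ∀ z e, At e (f z) →
      (quad (h e (e (f z))) (deriv (fun ζ => e (f ζ)) z)).re = 1 := by
  rcases test_or_plane 𝒞 hh hS hZ with h1 | ⟨V₁, V₂, F, hV, hFZ, hF⟩
  · exact Or.inl h1
  · right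
    choose e f w hAt hq _ hFe using hFZ
    obtain ⟨h1, h2⟩ := exists_entire_deriv hF hAt hFe
      (fun z => (embC_contDiffAt 𝒞 (hAt z).1 (hAt z).mem_target (w z)).differentiableAt (by simp))
      (fun z => by rw [hFe z]; exact (hV (e z) (f z) (w z) (hAt z) (hq z)).1)
      (fun z => by rw [hFe z]; exact (hV (e z) (f z) (w z) (hAt z) (hq z)).2)
    refine ⟨f, h1, fun z e' he' => ?_⟩
    rw [(h2 z e' he').deriv, ← hq z]
    exact congrArg Complex.re (quad_change hh (hAt z) he' (w z)).symm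

/-- **Test functions** on a Brody hyperbolic manifold, for any Hermitian metric. -/
theorem exists_test_of (𝒞 : Cov (Cm n) X) (hh : IsHermitian h) (hS : IsCompact (SJ 𝒞 h))
    (hZ : IsCompact (ZJ' 𝒞 h)) (hyp : BrodyHyperbolic n X) :
    ∃ Ψ₁ Ψ₂ : WW 𝒞 → ℝ, ContDiff ℝ ∞ Ψ₁ ∧ ContDiff ℝ ∞ Ψ₂ ∧
      ∀ e x w, At e x → (quad (h e (e x)) w).re = 1 → (∀ l, crv (h e) (e x) w l = 0) →
        0 < fderiv ℝ Ψ₁ (emb 𝒞 e x w) (fderiv ℝ (embC 𝒞 e) (e x, w) (spray (h e) 1 (e x, w))) +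
          fderiv ℝ Ψ₂ (emb 𝒞 e x w)
            (fderiv ℝ (embC 𝒞 e) (e x, w) (spray (h e) Complex.I (e x, w))) := by
  rcases test_or_flat 𝒞 hh hS hZ with h1 | ⟨f, h1, h2⟩
  · exact h1
  · exfalso
    have hc := hyp f h1
    have h3 := h2 0 (chartAt (Cm n) (f 0)) ⟨chart_mem_atlas _ _, mem_chart_source _ _⟩
    have h4 : (fun ζ => chartAt (Cm n) (f 0) (f ζ)) = fun _ => chartAt (Cm n) (f 0) (f 0) :=
      funext fun ζ => by rw [hc ζ 0]
    rw [h4, deriv_const] at h3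
    simp [quad] at h3

end Vale.Agent.P272.K.T4
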