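import Vale.Agent.P272.K.T4.Hom1
import Vale.Agent.P272.K.T4.Test
import Vale.Agent.P272.K.T4.Comp

/-! P272/T4, block (B2e): homogenisation of test functions; proof of `CoerStatement`. -/

open scoped Manifold ContDiff ComplexOrder Topology Matrix
open Set Metric Filter

set_option linter.all false

noncomputable section

namespace Vale.Agent.P272.K.T4

open LIN

variable {n : ℕ}

lemma exists_sum_pos {α : Type*} [TopologicalSpace α] [T2Space α] {K : Set α} (hK : IsCompact K)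
    {f g : α → ℝ} (hf : ContinuousOn f K) (hg : ContinuousOn g K) (hg0 : ∀ p ∈ K, 0 ≤ g p)
    (h : ∀ p ∈ K, g p = 0 → 0 < f p) :
    ∃ c ε : ℝ, 0 ≤ c ∧ 0 < ε ∧ ∀ p ∈ K, ε ≤ f p + c * g p := by
  have h1 : ∃ c : ℝ, 0 ≤ c ∧ ∀ p ∈ K, 0 < f p + c * g p := by
    have hK' : IsCompact (K ∩ f ⁻¹' Iic 0) :=
      hK.of_isClosed_subset (hf.preimage_isClosed_of_isClosed hK.isClosed isClosed_Iic)
        inter_subset_left
    by_cases hne : (K ∩ f ⁻¹' Iic 0).Nonempty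
    · obtain ⟨p0, hp0, hmin⟩ := hK'.exists_isMinOn hne (hg.mono inter_subset_left)
      obtain ⟨B, hB⟩ := hK.exists_bound_of_continuousOn hf
      have hm : 0 < g p0 := by
        refine lt_of_le_of_ne (hg0 p0 hp0.1) fun h0 => ?_
        have := h p0 hp0.1 h0.symm
        exact absurd hp0.2 (not_le.2 this)
      refine ⟨(|B| + 1) / g p0, by positivity, fun p hp => ?_⟩
      by_cases hfp : f p ≤ 0
      · have h2 : g p0 ≤ g p := isMinOn_iff.1 hmin p ⟨hp, hfp⟩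
        have h3 : |B| + 1 ≤ (|B| + 1) / g p0 * g p := by
          rw [div_mul_eq_mul_div, le_div_iff₀ hm]
          nlinarith [abs_nonneg B]
        have h4 := hB p hp
        rw [Real.norm_eq_abs] at h4
        have h5 := neg_abs_le (f p)
        linarith [le_abs_self B]
      · have h2 : 0 ≤ (|B| + 1) / g p0 * g p := by
          have := hg0 p hp
          positivity
        linarith [not_le.1 hfp]
    · refine ⟨0, le_rfl, fun p hp => ?_⟩
      rw [zero_mul, add_zero]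
      by_contra h2
      exact hne ⟨p, hp, not_lt.1 h2⟩
  obtain ⟨c, hc, hpos⟩ := h1
  by_cases hne : K.Nonempty
  · obtain ⟨p0, hp0, hmin⟩ := hK.exists_isMinOn hne (hf.add (hg.const_mul c))
    exact ⟨c, f p0 + c * g p0, hc, hpos p0 hp0, fun p hp => isMinOn_iff.1 hmin p hp⟩
  · exact ⟨c, 1, hc, one_pos, fun p hp => absurd ⟨p, hp⟩ hne⟩

variable {X : Type*} [TopologicalSpace X] [ChartedSpace (Cm n) X]
  {h : Chart n X → Cm n → Matrix (Fin n) (Fin n) ℂ} {e e' : Chart n X} {x : X}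
  {Φ : Chart n X → Cm n → Cm n → ℝ} [IsManifold 𝓘(ℂ, Cm n) ω X]

/-- the part of the unit sphere bundle over the `i`-th ball -/
def UB (𝒞 : Cov (Cm n) X) (h : Chart n X → Cm n → Matrix (Fin n) (Fin n) ℂ) (i : Fin 𝒞.N) :
    Set (Cm n × Cm n) :=
  {p | p.1 ∈ closedBall (𝒞.c i) (𝒞.r i) ∧ (quad (h (𝒞.e i) p.1) p.2).re = 1}

lemma UB_sub (𝒞 : Cov (Cm n) X) (i : Fin 𝒞.N) :
    closedBall (𝒞.c i) (𝒞.r i) ⊆ (𝒞.e i).target :=
  (closedBall_subset_closedBall (by have := 𝒞.r_pos i; linarith)).trans (𝒞.sub i)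

lemma UB_compact (𝒞 : Cov (Cm n) X) (hh : IsHermitian h) (i : Fin 𝒞.N) : IsCompact (UB 𝒞 h i) :=
  isCompact_unit hh (𝒞.mem i) (UB_sub 𝒞 i) (isCompact_closedBall _ _)

/-- every unit vector is in one of the balls -/
lemma exists_UB (𝒞 : Cov (Cm n) X) (hh : IsHermitian h) (hx : At e x) {u : Cm n}
    (hu : nq h e (e x) u = 1) : ∃ i, At (𝒞.e i) x ∧
      ((𝒞.e i x, (jacM e (𝒞.e i) x).mulVec u) : Cm n × Cm n) ∈ UB 𝒞 h i := by
  obtain ⟨i, hi, hb⟩ := 𝒞.cover x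
  have hxi : At (𝒞.e i) x := ⟨𝒞.mem i, hi⟩
  refine ⟨i, hxi, ball_subset_closedBall hb, ?_⟩
  have := (nq_smTFun hh).change e (𝒞.e i) x u hx hxi
  rw [hu] at this
  exact this.symm

lemma SmTFun.continuousOn_UB (hΦ : SmTFun Φ) (𝒞 : Cov (Cm n) X)
    (h : Chart n X → Cm n → Matrix (Fin n) (Fin n) ℂ) (i : Fin 𝒞.N) :
    ContinuousOn (fun p : Cm n × Cm n => Φ (𝒞.e i) p.1 p.2) (UB 𝒞 h i) := by
  rintro ⟨z, w⟩ ⟨hz, -⟩
  exact (hΦ.contDiffAt (𝒞.mem i) (UB_sub 𝒞 i hz) w).continuousAt.continuousWithinAt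

/-- vertical derivatives in two charts -/
lemma Wd_change (hΦ : SmTFun Φ) (hx : At e x) (hx' : At e' x) (w v : Cm n) :
    Wd Φ e (e x) w v = Wd Φ e' (e' x) ((jacM e e' x).mulVec w) ((jacM e e' x).mulVec v) := by
  have hT : TM e e' (e x, w) = (e' x, (jacM e e' x).mulVec w) := by
    simp only [TM]; rw [hx.left_inv]
  unfold Wd
  rw [(hΦ.change.eventually hx hx' w).fderiv_eq]
  have h1 : DifferentiableAt ℝ (fun p : Cm n × Cm n => Φ e' p.1 p.2) (TM e e' (e x, w)) := by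
    rw [hT]
    exact (hΦ.contDiffAt hx'.1 hx'.mem_target _).differentiableAt (by simp)
  have h2 : DifferentiableAt ℝ (TM e e') (e x, w) :=
    (TM_contDiffAt hx hx' w).differentiableAt (by simp)
  have h3 : fderiv ℝ (fun p => Φ e' (TM e e' p).1 (TM e e' p).2) (e x, w) =
      (fderiv ℝ (fun p : Cm n × Cm n => Φ e' p.1 p.2) (TM e e' (e x, w))).comp
        (fderiv ℝ (TM e e') (e x, w)) :=
    fderiv_comp (g := fun p : Cm n × Cm n => Φ e' p.1 p.2) (e x, w) h1 h2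
  rw [h3, ContinuousLinearMap.comp_apply, fderiv_TM hx hx', hT]
  simp

lemma exists_bound_unit (𝒞 : Cov (Cm n) X) (hh : IsHermitian h) (hΦ : SmTFun Φ) :
    ∃ B, 0 ≤ B ∧ ∀ e x u, At e x → nq h e (e x) u = 1 → |Φ e (e x) u| ≤ B := by
  have h1 : ∀ i, ∃ B : ℝ, ∀ p ∈ UB 𝒞 h i, |Φ (𝒞.e i) p.1 p.2| ≤ B := fun i => by
    obtain ⟨B, hB⟩ := (UB_compact 𝒞 hh i).exists_bound_of_continuousOn (hΦ.continuousOn_UB 𝒞 h i)
    exact ⟨B, fun p hp => by simpa [Real.norm_eq_abs] using hB p hp⟩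
  choose B hB using h1
  obtain ⟨B', hB0, hB'⟩ := Cov.exists_le_all B
  refine ⟨B', hB0, fun e x u hx hu => ?_⟩
  obtain ⟨i, hxi, hp⟩ := exists_UB 𝒞 hh hx hu
  rw [hΦ.change e (𝒞.e i) x u hx hxi]
  exact (hB i _ hp).trans (hB' i)

lemma exists_Wd_bound (𝒞 : Cov (Cm n) X) (hh : IsHermitian h) (hΦ : SmTFun Φ) :
    ∃ B, 0 ≤ B ∧ ∀ e x u v, At e x → nq h e (e x) u = 1 →
      |Wd Φ e (e x) u v| ≤ B * √(nq h e (e x) v) := by
  have h1 : ∀ i, ∃ B : ℝ, ∀ p ∈ UB 𝒞 h i, ∀ v, |Wd Φ (𝒞.e i) p.1 p.2 v| ≤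
      B * √(nq h (𝒞.e i) p.1 v) := fun i => by
    have hc : ContinuousOn (fun p : Cm n × Cm n =>
        fderiv ℝ (fun p : Cm n × Cm n => Φ (𝒞.e i) p.1 p.2) p) (UB 𝒞 h i) := by
      rintro ⟨z, w⟩ ⟨hz, -⟩
      exact ((hΦ.contDiffAt (𝒞.mem i) (UB_sub 𝒞 i hz) w).fderiv_right
        (m := 0) (by simp)).continuousAt.continuousWithinAt
    obtain ⟨B, hB⟩ := (UB_compact 𝒞 hh i).exists_bound_of_continuousOn hc
    obtain ⟨C, hC, hlow⟩ := exists_lower (isCompact_closedBall (𝒞.c i) (𝒞.r i))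
      (g := h (𝒞.e i))
      (fun a b => (hh.continuousOn_entry (𝒞.mem i) a b).mono (UB_sub 𝒞 i))
      (fun z hz => hh.posDef_target (𝒞.mem i) (UB_sub 𝒞 i hz))
    refine ⟨|B| * √C, fun p hp v => ?_⟩
    have h2 : ‖v‖ ≤ √C * √(nq h (𝒞.e i) p.1 v) := by
      rw [← Real.sqrt_mul hC.le]
      exact Real.le_sqrt_of_sq_le (hlow p.1 hp.1 v)
    have h3 : ‖((0 : Cm n), v)‖ = ‖v‖ := by
      rw [Prod.norm_def]; simp
    calc |Wd Φ (𝒞.e i) p.1 p.2 v|
        ≤ ‖fderiv ℝ (fun p : Cm n × Cm n => Φ (𝒞.e i) p.1 p.2) p‖ * ‖((0 : Cm n), v)‖ := by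
          have := (fderiv ℝ (fun p : Cm n × Cm n => Φ (𝒞.e i) p.1 p.2) p).le_opNorm
            ((0 : Cm n), v)
          rwa [Real.norm_eq_abs] at this
      _ ≤ |B| * (√C * √(nq h (𝒞.e i) p.1 v)) := by
          rw [h3]
          gcongr
          exact (hB p hp).trans (le_abs_self _)
      _ = |B| * √C * √(nq h (𝒞.e i) p.1 v) := by ring
  choose B hB using h1
  obtain ⟨B', hB0, hB'⟩ := Cov.exists_le_all B
  refine ⟨B', hB0, fun e x u v hx hu => ?_⟩
  obtain ⟨i, hxi, hp⟩ := exists_UB 𝒞 hh hx hu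
  rw [Wd_change hΦ hx hxi, (nq_smTFun hh).change e (𝒞.e i) x v hx hxi]
  exact (hB i _ hp _).trans (mul_le_mul_of_nonneg_right (hB' i) (Real.sqrt_nonneg _))

/-- `|R(w, w̄) w| = 0` at a unit vector implies that the covector vanishes -/
lemma crv_zero_of_Dq (hh : IsHermitian h) (hx : At e x) {u : Cm n} (h0 : Dq h e (e x) u = 0)
    (l : Fin n) : crv (h e) (e x) u l = 0 := by
  have hq := nq_nonneg hh hx u
  have hden : (1 + (quad (h e (e x)) u).re) ≠ 0 := by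
    unfold nq at hq; positivity
  have h1 : (quad (h e (e x)) (xiV (h e) (e x) u)).re = 0 := by
    unfold Dq at h0
    rcases div_eq_zero_iff.1 h0 with h | h
    · exact h
    · exact absurd h hden
  have h2 : xiV (h e) (e x) u = 0 := by
    by_contra h3
    exact absurd h1 (quad_pos (hh.posDef e x hx) h3).ne'
  have hu : IsUnit (h e (e x)).det := (hh.posDef e x hx).det_pos.ne'.isUnit
  have h3 : xiL (h e) (e x) u = Matrix.vecMul (xiV (h e) (e x) u) (h e (e x)) := by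
    have : xiV (h e) (e x) u = Matrix.vecMul (xiL (h e) (e x) u) (h e (e x))⁻¹ := rfl
    rw [this, Matrix.vecMul_vecMul, Matrix.nonsing_inv_mul _ hu, Matrix.vecMul_one]
  show xiL (h e) (e x) u l = 0
  rw [h3, h2, Matrix.zero_vecMul]
  rfl

/-- homogeneity of `|R(w, w̄) w|²` -/
lemma quad_xiV_smul_hom (M : Cm n → Matrix (Fin n) (Fin n) ℂ) (z w : Cm n) (r : ℝ) :
    (quad (M z) (xiV M z (r • w))).re = r ^ 6 * (quad (M z) (xiV M z w)).re := by
  have h1 : xiV M z (r • w) = (r ^ 3) • xiV M z w := by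
    funext m
    rw [Pi.smul_apply]
    unfold xiV xiL
    rw [Finset.smul_sum]
    refine Finset.sum_congr rfl fun l _ => ?_
    rw [Complex.real_smul, Finset.sum_mul, Finset.sum_mul, Finset.mul_sum]
    refine Finset.sum_congr rfl fun i _ => ?_
    rw [Finset.sum_mul, Finset.sum_mul, Finset.mul_sum]
    refine Finset.sum_congr rfl fun j _ => ?_
    rw [Finset.sum_mul, Finset.sum_mul, Finset.mul_sum]
    refine Finset.sum_congr rfl fun k _ => ?_
    simp only [Pi.smul_apply, Complex.real_smul, cj, map_mul, Complex.conj_ofReal]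
    push_cast
    ring
  rw [h1, quad_real_smul]
  ring

/-- from positivity on the flat unit vectors to coercivity -/
theorem coer_of_test (𝒞 : Cov (Cm n) X) (hh : IsHermitian h)
    {Φ₁ Φ₂ : Chart n X → Cm n → Cm n → ℝ} (h1 : SmTFun Φ₁) (h2 : SmTFun Φ₂)
    (hpos : ∀ e x u, At e x → nq h e (e x) u = 1 → (∀ l, crv (h e) (e x) u l = 0) →
      0 < Yd h 1 Φ₁ e (e x) u + Yd h Complex.I Φ₂ e (e x) u) :
    ∃ (c C : ℝ) (F₁ F₂ : Chart n X → Cm n → Cm n → ℝ), 0 ≤ c ∧ 0 ≤ C ∧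
      SmTFun F₁ ∧ SmTFun F₂ ∧
      (∀ e x w v, At e x → |Wd F₁ e (e x) w v| ≤ C * nq h e (e x) w * √(nq h e (e x) v)) ∧
      (∀ e x w v, At e x → |Wd F₂ e (e x) w v| ≤ C * nq h e (e x) w * √(nq h e (e x) v)) ∧
      ∀ e x w, At e x → nq h e (e x) w ^ 2 ≤
        C + c * Dq h e (e x) w + Yd h 1 F₁ e (e x) w + Yd h Complex.I F₂ e (e x) w := by
  -- the sum of the derivatives
  have hY1 := Yd_smTFun hh h1 1
  have hY2 := Yd_smTFun hh h2 Complex.I
  have hD := Dq_smTFun hh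
  have hS : SmTFun (fun e z w => Yd h 1 Φ₁ e z w + Yd h Complex.I Φ₂ e z w) := hY1.add hY2
  -- uniform positivity
  have hcε : ∀ i, ∃ c ε : ℝ, 0 ≤ c ∧ 0 < ε ∧ ∀ p ∈ UB 𝒞 h i,
      ε ≤ (Yd h 1 Φ₁ (𝒞.e i) p.1 p.2 + Yd h Complex.I Φ₂ (𝒞.e i) p.1 p.2) +
        c * Dq h (𝒞.e i) p.1 p.2 := fun i => by
    refine exists_sum_pos (UB_compact 𝒞 hh i) (hS.continuousOn_UB 𝒞 h i)
      (hD.continuousOn_UB 𝒞 h i) ?_ ?_
    · rintro ⟨z, w⟩ ⟨hz, -⟩
      have hz' := UB_sub 𝒞 i hz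
      have := Dq_nonneg hh (At.of_target (𝒞.mem i) hz') w
      rwa [(𝒞.e i).right_inv hz'] at this
    · rintro ⟨z, w⟩ ⟨hz, hw⟩ h0
      have hz' := UB_sub 𝒞 i hz
      have hri := (𝒞.e i).right_inv hz'
      have hx := At.of_target (𝒞.mem i) hz'
      have a1 := hpos (𝒞.e i) ((𝒞.e i).symm z) w hx (by rw [hri]; exact hw) (fun l => by
        refine crv_zero_of_Dq hh hx ?_ l
        rw [hri]; exact h0)
      rwa [hri] at a1
  choose c ε hc hε hcε' using hcε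
  obtain ⟨c', hc'0, hc'⟩ := Cov.exists_le_all c
  obtain ⟨ε', hε'0, hε'⟩ := Cov.exists_pos_le ε hε
  have hunit : ∀ e x u, At e x → nq h e (e x) u = 1 →
      ε' ≤ (Yd h 1 Φ₁ e (e x) u + Yd h Complex.I Φ₂ e (e x) u) + c' * Dq h e (e x) u := by
    intro e x u hx hu
    obtain ⟨i, hxi, hp⟩ := exists_UB 𝒞 hh hx hu
    rw [hY1.change e (𝒞.e i) x u hx hxi, hY2.change e (𝒞.e i) x u hx hxi,
      hD.change e (𝒞.e i) x u hx hxi]
    have a1 := hcε' i _ hp
    have a2 := Dq_nonneg hh hxi ((jacM e (𝒞.e i) x).mulVec u)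
    have a3 := mul_le_mul_of_nonneg_right (hc' i) a2
    have a4 := hε' i
    simp only at a1
    linarith
  -- bounds on the unit sphere bundle
  obtain ⟨B1, hB1, hb1⟩ := exists_bound_unit 𝒞 hh h1
  obtain ⟨B2, hB2, hb2⟩ := exists_bound_unit 𝒞 hh h2
  obtain ⟨B3, hB3, hb3⟩ := exists_Wd_bound 𝒞 hh h1
  obtain ⟨B4, hB4, hb4⟩ := exists_Wd_bound 𝒞 hh h2
  obtain ⟨K, hK, hkap⟩ := exists_deriv_kap
  set B := B1 + B2 + B3 + B4 with hBdef
  have hB : 0 ≤ B := by positivity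
  have hm1 := hom_smTFun hh h1
  have hm2 := hom_smTFun hh h2
  have w1 : ∀ e x w v, At e x → |Wd (hom h Φ₁) e (e x) w v| ≤
      (2 * K * B + 2 * B) * nq h e (e x) w * √(nq h e (e x) v) := fun e x w v hx =>
    Wd_hom_le hh h1 hB hK hkap hx (fun u hu => ⟨(hb1 e x u hx hu).trans (by linarith), fun v =>
      (hb3 e x u v hx hu).trans (mul_le_mul_of_nonneg_right (by linarith) (Real.sqrt_nonneg _))⟩)
      w v
  have w2 : ∀ e x w v, At e x → |Wd (hom h Φ₂) e (e x) w v| ≤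
      (2 * K * B + 2 * B) * nq h e (e x) w * √(nq h e (e x) v) := fun e x w v hx =>
    Wd_hom_le hh h2 hB hK hkap hx (fun u hu => ⟨(hb2 e x u hx hu).trans (by linarith), fun v =>
      (hb4 e x u v hx hu).trans (mul_le_mul_of_nonneg_right (by linarith) (Real.sqrt_nonneg _))⟩)
      w v
  set C1 := (2 * K * B + 2 * B) with hC1
  have hC1' : 0 ≤ C1 := by positivity
  have hWc : ∀ (F : Chart n X → Cm n → Cm n → ℝ), SmTFun F → ∀ e x w v, At e x →
      Wd (fun e z w => ε'⁻¹ * F e z w) e (e x) w v = ε'⁻¹ * Wd F e (e x) w v := by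
    intro F hF e x w v hx
    unfold Wd
    rw [fderiv_const_mul ((hF.smooth e x w hx).differentiableAt (by simp))]
    rfl
  have hYc : ∀ (F : Chart n X → Cm n → Cm n → ℝ), SmTFun F → ∀ b e x w, At e x →
      Yd h b (fun e z w => ε'⁻¹ * F e z w) e (e x) w = ε'⁻¹ * Yd h b F e (e x) w := by
    intro F hF b e x w hx
    unfold Yd
    rw [fderiv_const_mul ((hF.smooth e x w hx).differentiableAt (by simp))]
    rfl
  have hinv : 0 < ε'⁻¹ := inv_pos.2 hε'0
  refine ⟨c' * ε'⁻¹, 4 + ε'⁻¹ * C1, fun e z w => ε'⁻¹ * hom h Φ₁ e z w,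
    fun e z w => ε'⁻¹ * hom h Φ₂ e z w, by positivity, by positivity, hm1.const_mul _,
    hm2.const_mul _, ?_, ?_, ?_⟩
  · intro e x w v hx
    rw [hWc _ hm1 e x w v hx, abs_mul, abs_of_pos hinv]
    have a1 := mul_le_mul_of_nonneg_left (w1 e x w v hx) hinv.le
    have a2 : 0 ≤ nq h e (e x) w * √(nq h e (e x) v) :=
      mul_nonneg (nq_nonneg hh hx w) (Real.sqrt_nonneg _)
    nlinarith
  · intro e x w v hx
    rw [hWc _ hm2 e x w v hx, abs_mul, abs_of_pos hinv]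
    have a1 := mul_le_mul_of_nonneg_left (w2 e x w v hx) hinv.le
    have a2 : 0 ≤ nq h e (e x) w * √(nq h e (e x) v) :=
      mul_nonneg (nq_nonneg hh hx w) (Real.sqrt_nonneg _)
    nlinarith
  · intro e x w hx
    rw [hYc _ hm1 1 e x w hx, hYc _ hm2 Complex.I e x w hx]
    have hDn := Dq_nonneg hh hx w
    have hqn := nq_nonneg hh hx w
    have hC2 : 0 ≤ ε'⁻¹ * C1 := by positivity
    by_cases hq1 : nq h e (e x) w < 1
    · have y1 : Yd h 1 (hom h Φ₁) e (e x) w = 0 := by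
        unfold Yd
        rw [(hom_zero_near hh hx hq1).fderiv_eq]
        simp
      have y2 : Yd h Complex.I (hom h Φ₂) e (e x) w = 0 := by
        unfold Yd
        rw [(hom_zero_near hh hx hq1).fderiv_eq]
        simp
      rw [y1, y2]
      have a1 : 0 ≤ c' * ε'⁻¹ * Dq h e (e x) w := by positivity
      nlinarith
    · have hq1' : 1 ≤ nq h e (e x) w := not_lt.1 hq1
      have hq : 0 < nq h e (e x) w := by linarith
      rw [Yd_hom hh h1 hx hq, Yd_hom hh h2 hx hq]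
      set q := nq h e (e x) w with hqdef
      set s := √q with hsdef
      have hs : 0 < s := Real.sqrt_pos.2 hq
      have hss : s ^ 2 = q := Real.sq_sqrt hq.le
      set u := nrm h e (e x) w with hudef
      have hu1 : nq h e (e x) u = 1 := nq_nrm hq
      have b1 := hunit e x u hx hu1
      set S := Yd h 1 Φ₁ e (e x) u + Yd h Complex.I Φ₂ e (e x) u with hSdef
      have hwu : w = s • u := by
        rw [hudef]
        unfold nrm
        rw [smul_smul, ← hqdef, ← hsdef, mul_inv_cancel₀ hs.ne', one_smul]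
      -- comparison of `Dq` at `w` and at `u`
      have hDu := Dq_nonneg hh hx u
      have b2 : q ^ 2 * Dq h e (e x) u ≤ Dq h e (e x) w := by
        have c1 : Dq h e (e x) u = (quad (h e (e x)) (xiV (h e) (e x) u)).re / 2 := by
          unfold Dq
          have : (quad (h e (e x)) u).re = 1 := hu1
          rw [this]; norm_num
        have c2 : Dq h e (e x) w =
            q ^ 3 * (quad (h e (e x)) (xiV (h e) (e x) u)).re / (1 + q) := by
          unfold Dq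
          have c3 : (quad (h e (e x)) (xiV (h e) (e x) w)).re =
              q ^ 3 * (quad (h e (e x)) (xiV (h e) (e x) u)).re := by
            conv_lhs => rw [hwu]
            rw [quad_xiV_smul_hom, ← hss]
            ring
          rw [c3]
          rfl
        have c4 : 0 ≤ (quad (h e (e x)) (xiV (h e) (e x) u)).re :=
          quad_nonneg (hh.posDef e x hx).posSemidef _
        rw [c1, c2, le_div_iff₀ (by linarith)]
        have c5 : q ^ 2 * (1 + q) ≤ 2 * q ^ 3 := by nlinarith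
        nlinarith
      -- the factor
      have hk0 := kap_nonneg q
      have hk1 := kap_le q
      have hks : kap q * s ≤ q ^ 2 := by
        calc kap q * s ≤ s ^ 3 * s := mul_le_mul_of_nonneg_right hk1 hs.le
          _ = q ^ 2 := by rw [← hss]; ring
      have hks0 : 0 ≤ kap q * s := by positivity
      have b3 : q ^ 2 - 4 ≤ kap q * s := by
        by_cases hq2 : 2 ≤ q
        · rw [kap_of_ge hq2]
          have : s ^ 3 * s = q ^ 2 := by rw [← hss]; ring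
          linarith
        · have : q ^ 2 ≤ 4 := by nlinarith
          linarith
      have b4 : ε'⁻¹ * (kap q * s * Yd h 1 Φ₁ e (e x) u) +
          ε'⁻¹ * (kap q * s * Yd h Complex.I Φ₂ e (e x) u) = kap q * s * (ε'⁻¹ * S) := by
        rw [hSdef]; ring
      have b5 : 1 - c' * ε'⁻¹ * Dq h e (e x) u ≤ ε'⁻¹ * S := by
        have := mul_le_mul_of_nonneg_left b1 hinv.le
        rw [inv_mul_cancel₀ hε'0.ne'] at this
        nlinarith
      have b6 : kap q * s * (1 - c' * ε'⁻¹ * Dq h e (e x) u) ≤ kap q * s * (ε'⁻¹ * S) :=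
        mul_le_mul_of_nonneg_left b5 hks0
      have b7 : c' * ε'⁻¹ * (kap q * s * Dq h e (e x) u) ≤ c' * ε'⁻¹ * Dq h e (e x) w := by
        refine mul_le_mul_of_nonneg_left ?_ (by positivity)
        exact (mul_le_mul_of_nonneg_right hks hDu).trans b2
      have b8 : kap q * s * (1 - c' * ε'⁻¹ * Dq h e (e x) u) =
          kap q * s - c' * ε'⁻¹ * (kap q * s * Dq h e (e x) u) := by ring
      linarith

/-- a smooth function on the ambient space gives a smooth function on the tangent bundle -/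
lemma embC_smTFun [T2Space X] (𝒞 : Cov (Cm n) X) {Ψ : WW 𝒞 → ℝ} (hΨ : ContDiff ℝ ∞ Ψ) :
    SmTFun (fun (e : Chart n X) z w => Ψ (embC 𝒞 e (z, w))) where
  change e e' x w hx hx' := by
    show Ψ (embC 𝒞 e (e x, w)) = Ψ (embC 𝒞 e' (e' x, _))
    rw [embC_apply_at 𝒞 hx, embC_apply_at 𝒞 hx', emb_change 𝒞 hx hx']
  smooth e x w hx := hΨ.contDiffAt.comp (e x, w) (embC_contDiffAt 𝒞 hx.1 hx.mem_target w)

end Vale.Agent.P272.K.T4

namespace Vale.Agent.P272.K.T4

open LIN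

/-- Block B -/
theorem coer (n : ℕ) (X : Type) [TopologicalSpace X] [T2Space X] [CompactSpace X]
    [ChartedSpace (Cm n) X] [IsManifold 𝓘(ℂ, Cm n) ω X] : CoerStatement n X := by
  intro hyp h hh
  obtain ⟨𝒞⟩ := Cov.nonempty (Cm n) X
  obtain ⟨Ψ₁, Ψ₂, s1, s2, hpos⟩ := exists_test_of (hyp := hyp) (𝒞 := 𝒞) (hh := hh)
    (hS := isCompact_SJ 𝒞 hh) (hZ := isCompact_ZJ' 𝒞 hh)
  refine coer_of_test 𝒞 hh (embC_smTFun 𝒞 s1) (embC_smTFun 𝒞 s2) fun e x u hx hu hR => ?_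
  have h1 := hpos e x u hx hu hR
  have hY : ∀ (b : ℂ) (Ψ : WW 𝒞 → ℝ), ContDiff ℝ ∞ Ψ →
      Yd h b (fun (e : Chart n X) z w => Ψ (embC 𝒞 e (z, w))) e (e x) u =
      fderiv ℝ Ψ (emb 𝒞 e x u) (fderiv ℝ (embC 𝒞 e) (e x, u) (spray (h e) b (e x, u))) := by
    intro b Ψ hΨ
    have a1 : DifferentiableAt ℝ (embC 𝒞 e) (e x, u) :=
      (embC_contDiffAt 𝒞 hx.1 hx.mem_target u).differentiableAt (by simp)
    have a2 : DifferentiableAt ℝ Ψ (embC 𝒞 e (e x, u)) := (hΨ.differentiable (by simp)) _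
    have a3 := fderiv_comp (e x, u) a2 a1
    have a4 : Yd h b (fun (e : Chart n X) z w => Ψ (embC 𝒞 e (z, w))) e (e x) u =
        fderiv ℝ (Ψ ∘ embC 𝒞 e) (e x, u) (spray (h e) b (e x, u)) := rfl
    rw [a4, a3, ContinuousLinearMap.comp_apply, embC_apply_at 𝒞 hx]
  rw [hY 1 Ψ₁ s1, hY Complex.I Ψ₂ s2]
  exact h1

end Vale.Agent.P272.K.T4
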