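import Vale.Agent.P272.K.T4.L5T3

/-!
# T4, block L5: the pointwise algebra, averaged
-/

open scoped Manifold ContDiff ComplexOrder Topology Matrix
open Complex Set Filter MeasureTheory

noncomputable section

namespace Vale.Agent.P272.K.T4.L5

variable {n : ℕ}

theorem nat_le_infty' (k : ℕ) : ((k : ℕ) : WithTop ℕ∞) ≤ ∞ := by
  exact_mod_cast (le_top : ((k : ℕ) : ℕ∞) ≤ ⊤)

/-- symmetry of the curvature -/
theorem curv_conj {U : Set (Cm n)} (hU : IsOpen U) {h : Cm n → Matrix (Fin n) (Fin n) ℂ}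
    (hh : SmPos U h) {z : Cm n} (hz : z ∈ U) (i j k l : Fin n) :
    (starRingEnd ℂ) (curv h z i j k l) = curv h z j i l k := by
  have hMC : ∀ y ∈ U, C2.MC 2 h y := fun y hy i j => (hh.smooth y hy i j).of_le
    (nat_le_infty' 2)
  have hMD : ∀ y ∈ U, C2.MD h y := fun y hy => (hMC y hy).md (by norm_num)
  have hev : ∀ᶠ y in 𝓝 z, y ∈ U := hU.mem_nhds hz
  have hHerm : ∀ y ∈ U, ∀ᶠ x in 𝓝 y, (h x).IsHermitian := fun y hy => by
    filter_upwards [hU.mem_nhds hy] with x hx using (hh.pos x hx).isHermitian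
  have hDb : ∀ y ∈ U, ∀ m, C2.DMb m h y = (C2.DM m h y)ᴴ := fun y hy m =>
    C2.DMb_of_isHermitian (hMD y hy) (hHerm y hy)
  have h1 : (C2.DM i (C2.DMb j h) z)ᴴ = C2.DM j (C2.DMb i h) z := by
    have hMDb : C2.MD (C2.DMb j h) z := C2.MC.md (m := 1) ((hMC z hz).DMb (by norm_num)) (by norm_num)
    rw [← C2.DMb_conjTranspose hMDb, C2.DM_DMb_comm (hMC z hz)]
    refine C2.DMb_congr ?_
    filter_upwards [hev] with y hy
    rw [hDb y hy, Matrix.conjTranspose_conjTranspose]
  rw [P1.Met.curv_eq, P1.Met.curv_eq]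
  have h2 : (-C2.D2 i j h z + C2.DM i h z * (h z)⁻¹ * C2.DMb j h z)ᴴ =
      -C2.D2 j i h z + C2.DM j h z * (h z)⁻¹ * C2.DMb i h z := by
    rw [Matrix.conjTranspose_add, Matrix.conjTranspose_neg, Matrix.conjTranspose_mul,
      Matrix.conjTranspose_mul, (hh.pos z hz).inv.isHermitian.eq, hDb z hz j, hDb z hz i,
      Matrix.conjTranspose_conjTranspose, Matrix.mul_assoc]
    congr 1
    exact congrArg Neg.neg h1
  rw [← h2, Matrix.conjTranspose_apply]
  simp

theorem quad_one (w : Cm n) : (quad (1 : Matrix (Fin n) (Fin n) ℂ) w).re = ∑ p, ‖w p‖ ^ 2 := by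
  unfold quad
  rw [Complex.re_sum]
  refine Finset.sum_congr rfl fun i _ => ?_
  rw [Finset.sum_eq_single i]
  · rw [Matrix.one_apply_eq, one_mul, cj, Complex.mul_conj, Complex.ofReal_re,
      Complex.normSq_eq_norm_sq]
  · intro j _ hj
    rw [Matrix.one_apply_ne (Ne.symm hj), zero_mul]
  · simp

theorem inv_lower {H : Matrix (Fin n) (Fin n) ℂ} (hH : H.PosDef) {A : ℝ}
    (hA : ∀ i j, ‖H i j‖ ≤ A) (ξ : Cm n) :
    ∑ p, ‖ξ p‖ ^ 2 ≤ n * A * (∑ p, ∑ q, ξ p * H⁻¹ q p * (starRingEnd ℂ) (ξ q)).re := by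
  have h1 := quad_le_tr hH.inv Matrix.PosSemidef.one (fun i => (starRingEnd ℂ) (ξ i))
  rw [quad_one, Matrix.nonsing_inv_nonsing_inv _ hH.det_pos.ne'.isUnit, mul_one] at h1
  simp only [RCLike.norm_conj] at h1
  have h2 : quad H⁻¹ (fun i => (starRingEnd ℂ) (ξ i)) =
      ∑ p, ∑ q, ξ p * H⁻¹ q p * (starRingEnd ℂ) (ξ q) := by
    unfold quad
    rw [Finset.sum_comm]
    refine Finset.sum_congr rfl fun i _ => Finset.sum_congr rfl fun j _ => ?_
    simp only [cj, Complex.conj_conj]
    ring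
  have h3 : H.trace.re ≤ n * A := by
    rw [Matrix.trace, Complex.re_sum]
    calc ∑ i, (Matrix.diag H i).re ≤ ∑ _i : Fin n, A :=
          Finset.sum_le_sum fun i _ => (Complex.re_le_norm _).trans (hA i i)
      _ = n * A := by simp
  have h4 := quad_nonneg hH.inv.posSemidef (fun i => (starRingEnd ℂ) (ξ i))
  rw [h2] at h1 h4
  exact h1.trans (mul_le_mul_of_nonneg_right h3 h4)

theorem quad_xi_le {H N : Matrix (Fin n) (Fin n) ℂ} {A : ℝ} (hA : 0 ≤ A)
    (hH : ∀ i j, ‖H i j‖ ≤ A) (hN : ∀ i j, ‖N i j‖ ≤ A) (v : Cm n) :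
    (quad H (fun m => ∑ l, v l * N l m)).re ≤ n ^ 3 * A ^ 3 * ∑ q, ‖v q‖ ^ 2 := by
  set S : ℝ := ∑ l, ‖v l‖ with hS
  have hS0 : 0 ≤ S := Finset.sum_nonneg fun _ _ => norm_nonneg _
  have h1 : ∀ m, ‖∑ l, v l * N l m‖ ≤ A * S := fun m => by
    refine (norm_sum_le _ _).trans ?_
    rw [hS, Finset.mul_sum]
    refine Finset.sum_le_sum fun l _ => ?_
    rw [norm_mul, mul_comm]
    exact mul_le_mul_of_nonneg_right (hN l m) (norm_nonneg _)
  have h2 : ‖quad H (fun m => ∑ l, v l * N l m)‖ ≤ ∑ _i : Fin n, ∑ _j : Fin n, A * (A * S) ^ 2 := by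
    unfold quad
    refine (norm_sum_le _ _).trans (Finset.sum_le_sum fun i _ => ?_)
    refine (norm_sum_le _ _).trans (Finset.sum_le_sum fun j _ => ?_)
    rw [norm_mul, norm_mul, cj, RCLike.norm_conj, sq]
    exact mul_le_mul (hH i j) (mul_le_mul (h1 i) (h1 j) (norm_nonneg _) (by positivity))
      (by positivity) hA
  have h3 : S ^ 2 ≤ n * ∑ q, ‖v q‖ ^ 2 := by
    have := sq_sum_le_card_mul_sum_sq (s := (Finset.univ : Finset (Fin n))) (f := fun p => ‖v p‖)
    simpa using this
  calc _ ≤ ‖quad H (fun m => ∑ l, v l * N l m)‖ := Complex.re_le_norm _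
    _ ≤ _ := h2
    _ = n ^ 2 * A ^ 3 * S ^ 2 := by
        simp only [Finset.sum_const, Finset.card_univ, Fintype.card_fin, nsmul_eq_mul]; ring
    _ ≤ n ^ 2 * A ^ 3 * (n * ∑ q, ‖v q‖ ^ 2) := by gcongr
    _ = _ := by ring

/-- the constant of the pointwise inequality -/
def cK (n : ℕ) (A : ℝ) : ℝ :=
  (A ^ 2 * n ^ 2 / (2 * (1 / (n * A)) ^ 2) + 1 / 2) * (11 * n ^ 4 * A + 2 * n ^ 3 * A + 1)

theorem Xl_le (hn : 0 < n) {U : Set (Cm n)} (hU : IsOpen U)
    {h : Cm n → Matrix (Fin n) (Fin n) ℂ} (hh : SmPos U h)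
    (hneg : ∀ z ∈ U, ∀ ξ : Cm n, (quart (curv h z) ξ).re ≤ 0) {ψ : Cm n → ℝ} {A : ℝ}
    (hA : 1 ≤ A) {z : Cm n} (hz : z ∈ U) (hC : Consts h ψ A z) (w : Cm n) :
    Xl h z w ≤ n ^ 3 * A ^ 3 * (4 * n * A * (∑ p, beta (curv h z) w p * xiV h z w p).re +
      cK n A * (‖w‖ ^ 2 * Rl h z w)) := by
  have hn' : (0 : ℝ) < n := by exact_mod_cast hn
  have hA0 : (0 : ℝ) < A := by linarith
  have hH := hh.pos z hz
  have hNe : ∀ i j, ‖(h z)⁻¹ i j‖ ≤ A := fun i j =>
    (C2.norm_entry_le_trace hH.inv.posSemidef i j).trans hC.itr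
  have h1 := rv_sq_le (R := curv h z) (M := A) (c := 1 / (n * A)) (M' := A) hA0.le (by positivity)
    (curv_conj hU hh hz) hC.cv (fun w => hneg z hz w) (N := (h z)⁻¹)
    (fun ξ => by
      have := inv_lower hH hC.he ξ
      rw [one_div, inv_mul_le_iff₀ (by positivity)]
      exact this) hNe w
  have h2 : pr (h z)⁻¹ (curv h z) w = ∑ p, beta (curv h z) w p * xiV h z w p := by
    unfold pr xiV
    refine Finset.sum_congr rfl fun p _ => ?_
    rw [Finset.mul_sum]
    refine Finset.sum_congr rfl fun q _ => ?_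
    have : xiL h z w q = rv (curv h z) w q := rfl
    rw [this]; ring
  have h3 : (qf (curv h z) w w w w).re = -Rl h z w := by
    unfold Rl; rw [neg_neg]; rfl
  have h4 : Xl h z w ≤ n ^ 3 * A ^ 3 * ∑ q, ‖rv (curv h z) w q‖ ^ 2 :=
    quad_xi_le hA0.le hC.he hNe (xiL h z w)
  rw [h2, h3, neg_neg] at h1
  have h5 : (4 : ℝ) / (1 / (n * A)) = 4 * n * A := by field_simp
  rw [h5] at h1
  exact h4.trans (mul_le_mul_of_nonneg_left h1 (by positivity))

theorem aBound (n : ℕ) : ABound n := by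
  intro hn χ hχ U hU h hh hneg ψ hψ
  have hn' : (0 : ℝ) < n := by exact_mod_cast hn
  obtain ⟨A, hA, hC⟩ := exists_consts hU hh hψ
  have hA0 : (0 : ℝ) < A := by linarith
  have hK0 : 0 ≤ cK n A := by unfold cK; positivity
  refine ⟨n ^ 3 * A ^ 3 * (4 * n * A), cK n A * A / (4 * n * A), by positivity, by positivity,
    fun g hg z hz => ?_⟩
  have hzU := hψ.supp hz
  have hG := hg.pos z hzU
  have hH := hh.pos z hzU
  have hdet : 0 < (g z).det.re := by
    have := hG.det_pos
    rw [Complex.lt_def] at this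
    simpa using this.1
  set B : Cm n → ℂ := fun w => ∑ p, beta (curv h z) w p * xiV h z w p with hB
  have hRc : Continuous fun w : Cm n => Rl h z w := by
    unfold Rl quart
    refine (Complex.continuous_re.comp ?_).neg
    refine continuous_finsetSum _ fun i _ => continuous_finsetSum _ fun j _ =>
      continuous_finsetSum _ fun k _ => continuous_finsetSum _ fun l _ => continuous_const.mul ?_
    exact (((continuous_apply i).mul (Complex.continuous_conj.comp (continuous_apply j))).mul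
      (continuous_apply k)).mul (Complex.continuous_conj.comp (continuous_apply l))
  have hxiL : ∀ l, Continuous fun w : Cm n => xiL h z w l := fun l => by
    unfold xiL
    refine continuous_finsetSum _ fun i _ => continuous_finsetSum _ fun j _ =>
      continuous_finsetSum _ fun k _ => continuous_const.mul ?_
    exact ((continuous_apply i).mul (Complex.continuous_conj.comp (continuous_apply j))).mul
      (continuous_apply k)
  have hxiV : ∀ m, Continuous fun w : Cm n => xiV h z w m := fun m => by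
    unfold xiV
    exact continuous_finsetSum _ fun l _ => (hxiL l).mul continuous_const
  have hbz : ∀ q, Continuous fun w : Cm n => beta (curv h z) w q := fun q => by
    unfold beta bz bz'
    refine Continuous.div_const (Continuous.sub ?_ ?_) 2
    · refine continuous_finsetSum _ fun i _ => continuous_finsetSum _ fun j _ =>
        continuous_finsetSum _ fun k _ => continuous_const.mul ?_
      exact ((continuous_apply i).mul (Complex.continuous_conj.comp (continuous_apply j))).mul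
        (Complex.continuous_conj.comp (continuous_apply k))
    · refine continuous_finsetSum _ fun i _ => continuous_finsetSum _ fun j _ =>
        continuous_finsetSum _ fun k _ => continuous_const.mul ?_
      exact ((continuous_apply i).mul (Complex.continuous_conj.comp (continuous_apply j))).mul
        (Complex.continuous_conj.comp (continuous_apply k))
  have hBc : Continuous B := continuous_finsetSum _ fun p _ => (hbz p).mul (hxiV p)
  have hXc : Continuous fun w : Cm n => Xl h z w :=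
    (cont_quad (h z)).comp (continuous_pi hxiV)
  have iX := fib_intR hχ hG hXc
  have iR := fib_intR hχ hG hRc
  have iB : Integrable fun w : Cm n => (B w).re * χ (quad (g z) w).re :=
    fib_intR hχ hG (Complex.continuous_re.comp hBc)
  have iBc : Integrable fun w : Cm n => B w * ((χ (quad (g z) w).re : ℝ) : ℂ) := by
    have := fib_int hχ hG hBc
    refine this.congr (Eventually.of_forall fun w => ?_)
    simp only [Complex.real_smul]; ring
  have hAI : (AI χ g h z).re = ∫ w : Cm n, (B w).re * χ (quad (g z) w).re := by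
    unfold AI
    have : (∫ w : Cm n, (∑ p, beta (curv h z) w p * xiV h z w p) *
        ((χ (quad (g z) w).re : ℝ) : ℂ)).re =
        ∫ w : Cm n, (B w * ((χ (quad (g z) w).re : ℝ) : ℂ)).re := (integral_re iBc).symm
    rw [this]
    refine integral_congr_ae (Eventually.of_forall fun w => ?_)
    simp only [Complex.re_mul_ofReal]
  have hT0 := (trace_re_eq hG hH.posSemidef).2
  have hle : ∀ w : Cm n, Xl h z w * χ (quad (g z) w).re ≤
      n ^ 3 * A ^ 3 * (4 * n * A) * ((B w).re * χ (quad (g z) w).re) +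
        n ^ 3 * A ^ 3 * (cK n A * A * Tl g h z) * (Rl h z w * χ (quad (g z) w).re) := by
    intro w
    have hχ0 := hχ.nonneg (quad (g z) w).re
    rcases le_or_gt 1 (quad (g z) w).re with h1 | h1
    · rw [hχ.zero _ h1]; simp
    have hx2 : ‖w‖ ^ 2 ≤ A * Tl g h z :=
      sq_norm_le_of hG hH.posSemidef hA0.le ((hC z hz).low w) h1.le
    have hR0 : 0 ≤ Rl h z w := by
      have := hneg z hzU w
      unfold Rl; linarith
    have hX := Xl_le hn hU hh hneg hA hzU (hC z hz) w
    have h3 : n ^ 3 * A ^ 3 * (4 * n * A * (B w).re + cK n A * (‖w‖ ^ 2 * Rl h z w)) ≤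
        n ^ 3 * A ^ 3 * (4 * n * A * (B w).re + cK n A * ((A * Tl g h z) * Rl h z w)) := by
      gcongr
    calc _ ≤ n ^ 3 * A ^ 3 * (4 * n * A * (B w).re + cK n A * ((A * Tl g h z) * Rl h z w)) *
          χ (quad (g z) w).re := mul_le_mul_of_nonneg_right (hX.trans h3) hχ0
      _ = _ := by ring
  have hint : ∫ w : Cm n, Xl h z w * χ (quad (g z) w).re ≤
      n ^ 3 * A ^ 3 * (4 * n * A) * (∫ w : Cm n, (B w).re * χ (quad (g z) w).re) +
        n ^ 3 * A ^ 3 * (cK n A * A * Tl g h z) *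
          (∫ w : Cm n, Rl h z w * χ (quad (g z) w).re) := by
    rw [← integral_const_mul, ← integral_const_mul,
      ← integral_add (iB.const_mul _) (iR.const_mul _)]
    exact integral_mono iX ((iB.const_mul _).add (iR.const_mul _)) hle
  have hEX : El χ g (Xl h) z = (∫ w : Cm n, Xl h z w * χ (quad (g z) w).re) * (g z).det.re :=
    integral_mul_const _ _
  have hER : El χ g (Rl h) z = (∫ w : Cm n, Rl h z w * χ (quad (g z) w).re) * (g z).det.re :=
    integral_mul_const _ _
  rw [hEX, hER, hAI]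
  calc _ ≤ (n ^ 3 * A ^ 3 * (4 * n * A) * (∫ w : Cm n, (B w).re * χ (quad (g z) w).re) +
        n ^ 3 * A ^ 3 * (cK n A * A * Tl g h z) *
          (∫ w : Cm n, Rl h z w * χ (quad (g z) w).re)) * (g z).det.re :=
        mul_le_mul_of_nonneg_right hint hdet.le
    _ = _ := by field_simp

end Vale.Agent.P272.K.T4.L5
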