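import Vale.Agent.P272.K.T4.L5Pt
import Vale.Agent.P272.K.C2.ChernLu

/-!
# T4, block L5: the term with the curvature of the Kähler metric, uniform bound
-/

open scoped Manifold ContDiff ComplexOrder Topology
open Complex Set Filter MeasureTheory

noncomputable section

namespace Vale.Agent.P272.K.T4.L5

variable {n : ℕ} {U : Set (Cm n)} {g h : Cm n → Matrix (Fin n) (Fin n) ℂ} {z : Cm n}

section sym

theorem closed_b (hg : LocMet U g) (hz : z ∈ U) (i j k : Fin n) :
    dzb k (fun y => g y i j) z = dzb j (fun y => g y i k) z := by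
  have hd : ∀ i j, DifferentiableAt ℝ (fun y => g y i j) z := fun i j =>
    (hg.smooth z hz i j).differentiableAt (by simp)
  have e : ∀ i j, (fun y => g y i j) =ᶠ[𝓝 z] fun y => cj (g y j i) := by
    intro i j
    filter_upwards [hg.isOpen.mem_nhds hz] with y hy
    exact ((hg.pos y hy).1.apply i j).symm
  rw [dzb_congr (e i j), dzb_congr (e i k), dzb_cj (hd j i), dzb_cj (hd k i),
    hg.closed z hz j i k]

theorem curv_s1 (hg : LocMet U g) (hz : z ∈ U) (i j k l : Fin n) :
    curv g z i j k l = curv g z k j i l := by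
  have h2 : ∀ i j, ContDiffAt ℝ 2 (fun y => g y i j) z := fun i j =>
    (hg.smooth z hz i j).of_le (by norm_cast)
  unfold curv
  congr 1
  · congr 1
    have e1 : dz i (dzb j fun y => g y k l) z = dzb j (dz i fun y => g y k l) z :=
      INT.dz_dzb_comm (h2 k l)
    have e2 : dz k (dzb j fun y => g y i l) z = dzb j (dz k fun y => g y i l) z :=
      INT.dz_dzb_comm (h2 i l)
    rw [e1, e2]
    refine dzb_congr ?_
    filter_upwards [hg.isOpen.mem_nhds hz] with y hy
    exact hg.closed y hy k l i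
  · refine Finset.sum_congr rfl fun q _ => Finset.sum_congr rfl fun p _ => ?_
    rw [hg.closed z hz k q i]

theorem curv_s2 (hg : LocMet U g) (hz : z ∈ U) (i j k l : Fin n) :
    curv g z i j k l = curv g z i l k j := by
  unfold curv
  congr 1
  · congr 1
    refine dz_congr ?_
    filter_upwards [hg.isOpen.mem_nhds hz] with y hy
    exact closed_b hg hy k l j
  · refine Finset.sum_congr rfl fun q _ => Finset.sum_congr rfl fun p _ => ?_
    rw [closed_b hg hz p l j]

theorem ric_id (hg : LocMet U g) (hz : z ∈ U) (k l : Fin n) :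
    ∑ i, ∑ j, (g z)⁻¹ j i * curv g z i j k l =
      (-cHess (fun y => Real.log (g y).det.re) z + g z) k l - g z k l := by
  have h2 : C2.MC 2 g z := C2.MC.mono (hg.smooth z hz) (by norm_cast)
  have h := C2.ricci_identity h2
    (by filter_upwards [hg.isOpen.mem_nhds hz] with y hy using hg.pos y hy)
    (by filter_upwards [hg.isOpen.mem_nhds hz] with y hy using hg.closed y hy)
  have h' := congrFun (congrFun h k) l
  rw [Matrix.add_apply, add_sub_cancel_right, ← h']
  simp only [Matrix.sum_apply, Matrix.smul_apply, smul_eq_mul]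
  rw [Finset.sum_comm]
  refine Finset.sum_congr rfl fun j _ => Finset.sum_congr rfl fun i _ => ?_
  rw [P1.Met.curv_eq]
  rfl

end sym

theorem bBound (n : ℕ) : BBound n := by
  intro hn χ hχ U hU h hh ψ hψ
  obtain ⟨A, hA1, hCon⟩ := exists_consts hU hh hψ
  have hA0 : 0 ≤ A := by linarith
  set m2 : ℝ := ∫ w : Cm n, prim (prim χ) (quad (1 : Matrix (Fin n) (Fin n) ℂ) w).re with hm2
  have hm20 : 0 ≤ m2 := integral_nonneg fun w => (wt_prim (wt_prim hχ)).nonneg _
  refine ⟨A * (4 * n ^ 4 * A * A) * A * m2, by positivity, fun g hg hric z hzψ => ?_⟩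
  have hz : z ∈ U := hψ.supp hzψ
  have hC := hCon z hzψ
  have hG := hg.pos z hz
  have hH := hh.pos z hz
  set τ : ℝ := Tl g h z with hτd
  have hτ : 0 < τ := trace_pos hn hG hH
  have hdet : 0 < (g z).det.re := by
    have := hG.det_pos
    rw [Complex.lt_def] at this
    simpa using this.1
  set M : Matrix (Fin n) (Fin n) ℂ := -cHess (fun y => Real.log (g y).det.re) z + g z with hM
  have hMp : M.PosSemidef := hric z hz
  have hL : ∀ w : Cm n, ‖w‖ ^ 2 ≤ (A * τ) * (quad (g z) w).re := fun w => by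
    calc ‖w‖ ^ 2 ≤ A * (quad (h z) w).re := hC.low w
      _ ≤ A * (τ * (quad (g z) w).re) := by
          gcongr; exact quad_le_tr hG hH.posSemidef w
      _ = _ := by ring
  have hb := rg_bound (R := curv h z) (Rg := curv g z) hχ hG (curv_s1 hg hz) (curv_s2 hg hz)
    (M := M) (ric_id hg hz) hMp hC.cv hA0 hL (by positivity)
  have hBI : BI χ g h z = ∫ w : Cm n, (∑ p, beta (curv h z) w p *
      ∑ l, rv (curv g z) w l * (g z)⁻¹ l p) * ((χ (quad (g z) w).re : ℝ) : ℂ) := rfl
  rw [← hBI] at hb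
  have hmass : (∫ w : Cm n, prim (prim χ) (quad (g z) w).re) * (g z).det.re = m2 := by
    have := mass_eq (fun s => prim (prim χ) s) hG
    rw [smul_eq_mul, mul_comm] at this
    exact this
  have hPs : ((g z)⁻¹ * M * (g z)⁻¹).PosSemidef := by
    have := hMp.mul_mul_conjTranspose_same (g z)⁻¹
    rwa [hG.inv.isHermitian.eq] at this
  have htr : ((g z)⁻¹ * M * (g z)⁻¹).trace.re ≤ A * Ml g h z :=
    C2.trace_le_trace_mul hPs hH hC.itr
  have hu : ‖uu ψ g h z‖ ≤ A / τ := by
    rw [uu, Complex.norm_real, norm_div, Real.norm_of_nonneg hτ.le]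
    exact div_le_div_of_nonneg_right hC.ps hτ.le
  have hI0 : 0 ≤ ∫ w : Cm n, prim (prim χ) (quad (g z) w).re :=
    integral_nonneg fun w => (wt_prim (wt_prim hχ)).nonneg _
  rw [norm_mul]
  calc ‖uu ψ g h z‖ * ‖BI χ g h z‖ * (g z).det.re
      ≤ (A / τ) * (4 * n ^ 4 * A * (A * τ) * ((g z)⁻¹ * M * (g z)⁻¹).trace.re *
        ∫ w : Cm n, prim (prim χ) (quad (g z) w).re) * (g z).det.re := by
        refine mul_le_mul_of_nonneg_right ?_ hdet.le
        exact mul_le_mul hu hb (norm_nonneg _) (by positivity)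
    _ = A * (4 * n ^ 4 * A * A) * ((g z)⁻¹ * M * (g z)⁻¹).trace.re *
        ((∫ w : Cm n, prim (prim χ) (quad (g z) w).re) * (g z).det.re) := by
        field_simp
    _ = A * (4 * n ^ 4 * A * A) * ((g z)⁻¹ * M * (g z)⁻¹).trace.re * m2 := by rw [hmass]
    _ ≤ A * (4 * n ^ 4 * A * A) * (A * Ml g h z) * m2 := by gcongr
    _ = _ := by ring

end Vale.Agent.P272.K.T4.L5
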