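import Vale.Agent.P272.K.T4.L5If2
import Vale.Agent.P272.K.T4.Mom

/-!
# T4, block L5: comparison of moments
-/

open scoped Manifold ContDiff ComplexOrder Topology ComplexConjugate Matrix
open Complex Set Filter MeasureTheory

noncomputable section

namespace Vale.Agent.P272.K.T4.L5

variable {n : ℕ}

/-- Frobenius norm squared -/
def fr (X : Matrix (Fin n) (Fin n) ℂ) : ℝ := ∑ i, ∑ j, ‖X i j‖ ^ 2

theorem fr_nonneg (X : Matrix (Fin n) (Fin n) ℂ) : 0 ≤ fr X :=
  Finset.sum_nonneg fun i _ => Finset.sum_nonneg fun j _ => sq_nonneg _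

theorem trace_self (X : Matrix (Fin n) (Fin n) ℂ) : (X * Xᴴ).trace = ((fr X : ℝ) : ℂ) := by
  unfold fr
  rw [Matrix.trace]
  push_cast
  refine Finset.sum_congr rfl fun i _ => ?_
  rw [Matrix.diag_apply, Matrix.mul_apply]
  refine Finset.sum_congr rfl fun j _ => ?_
  rw [Matrix.conjTranspose_apply, RCLike.star_def, Complex.mul_conj, Complex.normSq_eq_norm_sq]
  push_cast; ring

theorem trace_mul_sq (X Y : Matrix (Fin n) (Fin n) ℂ) :
    ‖(X * Y).trace‖ ^ 2 ≤ fr X * fr Y := by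
  have h1 : ‖(X * Y).trace‖ ≤ ∑ p : Fin n × Fin n, ‖X p.1 p.2‖ * ‖Y p.2 p.1‖ := by
    rw [Fintype.sum_prod_type, Matrix.trace]
    refine (norm_sum_le _ _).trans (Finset.sum_le_sum fun i _ => ?_)
    rw [Matrix.diag_apply, Matrix.mul_apply]
    refine (norm_sum_le _ _).trans (le_of_eq ?_)
    exact Finset.sum_congr rfl fun j _ => norm_mul _ _
  have h2 := Finset.sum_mul_sq_le_sq_mul_sq (Finset.univ : Finset (Fin n × Fin n))
    (fun p => ‖X p.1 p.2‖) (fun p => ‖Y p.2 p.1‖)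
  have h3 : ∑ p : Fin n × Fin n, ‖X p.1 p.2‖ ^ 2 = fr X := by
    rw [Fintype.sum_prod_type]; rfl
  have h4 : ∑ p : Fin n × Fin n, ‖Y p.2 p.1‖ ^ 2 = fr Y := by
    rw [Fintype.sum_prod_type, Finset.sum_comm]; rfl
  rw [h3, h4] at h2
  calc ‖(X * Y).trace‖ ^ 2 ≤ (∑ p : Fin n × Fin n, ‖X p.1 p.2‖ * ‖Y p.2 p.1‖) ^ 2 := by gcongr
    _ ≤ _ := h2

section alg
variable (s : Fin n → Matrix (Fin n) (Fin n) ℂ) (H P B L : Matrix (Fin n) (Fin n) ℂ)

theorem quart_of_s (w : Cm n) : P1.quart (fun i j => s i * H * (s j)ᴴ) w w w w =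
    quad H (fun m => ∑ i, ∑ k, w i * w k * s i k m) := by
  have h2 : (∑ i, ∑ j, (w i * conj (w j)) • (s i * H * (s j)ᴴ)) =
      (∑ i, w i • s i) * H * (∑ i, w i • s i)ᴴ := by
    simp only [Matrix.conjTranspose_sum, Matrix.conjTranspose_smul, Matrix.sum_mul,
      Matrix.mul_sum, Matrix.smul_mul, Matrix.mul_smul, smul_smul, Finset.smul_sum]
    rw [Finset.sum_comm]
    refine Finset.sum_congr rfl fun i _ => Finset.sum_congr rfl fun j _ => ?_
    rw [mul_comm (w j)]; rfl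
  rw [P1.quart_eq_herm, h2]
  set S := ∑ i, w i • s i with hS
  have h3 : (fun m => ∑ i, ∑ k, w i * w k * s i k m) = fun m => ∑ k, w k * S k m := by
    funext m
    rw [Finset.sum_comm]
    refine Finset.sum_congr rfl fun k _ => ?_
    rw [hS, Matrix.sum_apply, Finset.mul_sum]
    refine Finset.sum_congr rfl fun i _ => ?_
    rw [Matrix.smul_apply, smul_eq_mul]
    ring
  have h4 : quad H (fun m => ∑ k, w k * S k m) = P1.herm H (fun m => ∑ k, w k * S k m) := rfl
  rw [h3, h4, P1.herm_expand, P1.herm]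
  refine Finset.sum_congr rfl fun a _ => Finset.sum_congr rfl fun b _ => ?_
  rw [mul_comm]
  congr 1
  rw [Matrix.mul_apply, Finset.sum_comm]
  refine Finset.sum_congr rfl fun p _ => ?_
  rw [Matrix.mul_apply, Finset.sum_mul]
  refine Finset.sum_congr rfl fun q _ => ?_
  rw [Matrix.conjTranspose_apply]
  show S a q * H q p * conj (S b p) = _
  ring

theorem second_eq (hs : ∀ i k m, s i k m = s k i m) :
    ∑ i, ∑ j, (P * (s i * H * (s j)ᴴ) * P) j i =
      ∑ i, ∑ j, P j i * (P * (s i * H * (s j)ᴴ)).trace := by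
  have hB : ∀ i j k l, (s i * H * (s j)ᴴ) k l = (s k * H * (s j)ᴴ) i l := by
    intro i j k l
    rw [Matrix.mul_assoc, Matrix.mul_assoc, Matrix.mul_apply, Matrix.mul_apply]
    exact Finset.sum_congr rfl fun m _ => by rw [hs]
  have e1 : ∀ i j, (P * (s i * H * (s j)ᴴ) * P) j i =
      ∑ l, ∑ k, P j k * (s k * H * (s j)ᴴ) i l * P l i := by
    intro i j
    rw [Matrix.mul_apply]
    refine Finset.sum_congr rfl fun l _ => ?_
    rw [Matrix.mul_apply, Finset.sum_mul]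
    exact Finset.sum_congr rfl fun k _ => by rw [hB]
  have e2 : ∀ i j, P j i * (P * (s i * H * (s j)ᴴ)).trace =
      ∑ k, ∑ l, P j i * (s i * H * (s j)ᴴ) k l * P l k := by
    intro i j
    rw [Matrix.trace_mul_comm, Matrix.trace, Finset.mul_sum]
    refine Finset.sum_congr rfl fun k _ => ?_
    rw [Matrix.diag_apply, Matrix.mul_apply, Finset.mul_sum]
    exact Finset.sum_congr rfl fun l _ => by ring
  simp only [e1, e2]
  calc ∑ i, ∑ j, ∑ l, ∑ k, P j k * (s k * H * (s j)ᴴ) i l * P l i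
      = ∑ i, ∑ j, ∑ k, ∑ l, P j k * (s k * H * (s j)ᴴ) i l * P l i :=
        Finset.sum_congr rfl fun i _ => Finset.sum_congr rfl fun j _ => Finset.sum_comm
    _ = ∑ i, ∑ k, ∑ j, ∑ l, P j k * (s k * H * (s j)ᴴ) i l * P l i :=
        Finset.sum_congr rfl fun i _ => Finset.sum_comm
    _ = ∑ k, ∑ i, ∑ j, ∑ l, P j k * (s k * H * (s j)ᴴ) i l * P l i := Finset.sum_comm
    _ = ∑ k, ∑ j, ∑ i, ∑ l, P j k * (s k * H * (s j)ᴴ) i l * P l i :=
        Finset.sum_congr rfl fun k _ => Finset.sum_comm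

theorem first_eq (hP : P = Bᴴ * B) (hH : H = Lᴴ * L) :
    ∑ i, ∑ j, P j i * (P * (s i * H * (s j)ᴴ)).trace =
      ((∑ a, fr (B * (∑ k, B a k • s k) * Lᴴ) : ℝ) : ℂ) := by
  push_cast
  have e1 : ∀ a, ((fr (B * (∑ k, B a k • s k) * Lᴴ) : ℝ) : ℂ) =
      ∑ i, ∑ j, (B a i * conj (B a j)) * (P * (s i * H * (s j)ᴴ)).trace := by
    intro a
    rw [← trace_self]
    set S := ∑ k, B a k • s k with hS
    have e2 : B * S * Lᴴ * (B * S * Lᴴ)ᴴ = B * (S * H * Sᴴ * Bᴴ) := by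
      rw [Matrix.conjTranspose_mul, Matrix.conjTranspose_mul, Matrix.conjTranspose_conjTranspose,
        hH]
      simp only [Matrix.mul_assoc]
    have e3 : (B * (S * H * Sᴴ * Bᴴ)).trace = (P * (S * H * Sᴴ)).trace := by
      rw [Matrix.trace_mul_comm, Matrix.mul_assoc, ← hP, Matrix.trace_mul_comm]
    rw [e2, e3]
    have e4 : S * H * Sᴴ = ∑ i, ∑ j, (B a i * conj (B a j)) • (s i * H * (s j)ᴴ) := by
      rw [hS]
      simp only [Matrix.conjTranspose_sum, Matrix.conjTranspose_smul, Matrix.sum_mul,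
        Matrix.mul_sum, Matrix.smul_mul, Matrix.mul_smul, smul_smul, Finset.smul_sum]
      rw [Finset.sum_comm]
      refine Finset.sum_congr rfl fun i _ => Finset.sum_congr rfl fun j _ => ?_
      rw [mul_comm (star _)]; rfl
    rw [e4]
    simp only [Matrix.mul_sum, Matrix.trace_sum, Matrix.mul_smul, Matrix.trace_smul, smul_eq_mul]
  simp only [e1]
  have e5 : ∑ a, ∑ i, ∑ j, (B a i * conj (B a j)) * (P * (s i * H * (s j)ᴴ)).trace =
      ∑ i, ∑ j, ∑ a, (B a i * conj (B a j)) * (P * (s i * H * (s j)ᴴ)).trace := by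
    rw [Finset.sum_comm]
    exact Finset.sum_congr rfl fun i _ => Finset.sum_comm
  rw [e5]
  refine Finset.sum_congr rfl fun i _ => Finset.sum_congr rfl fun j _ => ?_
  rw [← Finset.sum_mul]
  congr 1
  rw [hP, Matrix.mul_apply]
  refine Finset.sum_congr rfl fun a _ => ?_
  rw [Matrix.conjTranspose_apply, RCLike.star_def]
  ring

theorem dsum_eq (hP : P = Bᴴ * B) (c : Fin n → ℂ) :
    ∑ i, ∑ j, c i * conj (c j) * P j i = ((∑ a, ‖∑ k, B a k * c k‖ ^ 2 : ℝ) : ℂ) := by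
  push_cast
  have e1 : ∀ a, ((‖∑ k, B a k * c k‖ : ℝ) : ℂ) ^ 2 =
      ∑ i, ∑ j, (B a i * conj (B a j)) * (c i * conj (c j)) := by
    intro a
    have : ((‖∑ k, B a k * c k‖ : ℝ) : ℂ) ^ 2 = (∑ k, B a k * c k) * conj (∑ k, B a k * c k) := by
      rw [Complex.mul_conj, Complex.normSq_eq_norm_sq]; push_cast; rfl
    rw [this, map_sum, Finset.sum_mul_sum]
    refine Finset.sum_congr rfl fun i _ => Finset.sum_congr rfl fun j _ => ?_
    rw [map_mul]; ring
  simp only [e1]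
  rw [Finset.sum_comm (γ := Fin n) (s := (Finset.univ : Finset (Fin n)))
    (f := fun a i => ∑ j, (B a i * conj (B a j)) * (c i * conj (c j)))]
  refine Finset.sum_congr rfl fun i _ => ?_
  rw [Finset.sum_comm]
  refine Finset.sum_congr rfl fun j _ => ?_
  rw [← Finset.sum_mul, hP, Matrix.mul_apply, mul_comm]
  congr 1
  refine Finset.sum_congr rfl fun a _ => ?_
  rw [Matrix.conjTranspose_apply, RCLike.star_def]
  ring

end alg

section int
variable {χ : ℝ → ℝ} {G : Matrix (Fin n) (Fin n) ℂ}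

/-- second moment of a linear form -/
theorem dmom (hχ : Wt χ) (hG : G.PosDef) {B : Matrix (Fin n) (Fin n) ℂ} (hB : G⁻¹ = Bᴴ * B)
    (c : Fin n → ℂ) : ∫ w : Cm n, ‖∑ k, w k * c k‖ ^ 2 * χ (quad G w).re =
      (∑ a, ‖∑ k, B a k * c k‖ ^ 2) * ∫ w : Cm n, up χ (quad G w).re := by
  have h1 : ∫ w : Cm n, ((‖∑ k, w k * c k‖ ^ 2 * χ (quad G w).re : ℝ) : ℂ) =
      ∑ i, ∑ j, c i * conj (c j) *
        ∫ w : Cm n, w i * cj (w j) * ((χ (quad G w).re : ℝ) : ℂ) := by
    have hint : ∀ i j, Integrable fun w : Cm n =>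
        c i * conj (c j) * (w i * cj (w j) * ((χ (quad G w).re : ℝ) : ℂ)) := fun i j =>
      (fib_intC hχ hG ((continuous_apply i).mul
        (Complex.continuous_conj.comp (continuous_apply j)))).const_mul _
    have e1 : (fun w : Cm n => ((‖∑ k, w k * c k‖ ^ 2 * χ (quad G w).re : ℝ) : ℂ)) = fun w =>
        ∑ i, ∑ j, c i * conj (c j) * (w i * cj (w j) * ((χ (quad G w).re : ℝ) : ℂ)) := by
      funext w
      have : ((‖∑ k, w k * c k‖ : ℝ) : ℂ) ^ 2 = (∑ k, w k * c k) * conj (∑ k, w k * c k) := by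
        rw [Complex.mul_conj, Complex.normSq_eq_norm_sq]; push_cast; rfl
      push_cast
      rw [this, map_sum, Finset.sum_mul_sum, Finset.sum_mul]
      refine Finset.sum_congr rfl fun i _ => ?_
      rw [Finset.sum_mul]
      refine Finset.sum_congr rfl fun j _ => ?_
      rw [map_mul, cj]; ring
    rw [e1, integral_finsetSum _ fun i _ => integrable_finsetSum _ fun j _ => hint i j]
    refine Finset.sum_congr rfl fun i _ => ?_
    rw [integral_finsetSum _ fun j _ => hint i j]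
    exact Finset.sum_congr rfl fun j _ => integral_const_mul _ _
  have h2 : ∑ i, ∑ j, c i * conj (c j) *
        ∫ w : Cm n, w i * cj (w j) * ((χ (quad G w).re : ℝ) : ℂ) =
      (∑ i, ∑ j, c i * conj (c j) * G⁻¹ j i) * ∫ w : Cm n, ((up χ (quad G w).re : ℝ) : ℂ) := by
    rw [Finset.sum_mul]
    refine Finset.sum_congr rfl fun i _ => ?_
    rw [Finset.sum_mul]
    refine Finset.sum_congr rfl fun j _ => ?_
    rw [mom2 hχ hG]; ring
  rw [h2, dsum_eq _ _ hB, integral_complex_ofReal, integral_complex_ofReal,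
    ← Complex.ofReal_mul] at h1
  exact_mod_cast h1

theorem continuous_sv (s : Fin n → Matrix (Fin n) (Fin n) ℂ) (H : Matrix (Fin n) (Fin n) ℂ) :
    Continuous fun w : Cm n => (quad H (fun m => ∑ i, ∑ k, w i * w k * s i k m)).re := by
  refine (cont_quad H).comp (continuous_pi fun m => ?_)
  exact continuous_finsetSum _ fun i _ => continuous_finsetSum _ fun k _ =>
    ((continuous_apply i).mul (continuous_apply k)).mul continuous_const

/-- fourth moment -/
theorem pmom (hχ : Wt χ) (hG : G.PosDef) {H B L : Matrix (Fin n) (Fin n) ℂ}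
    (hB : G⁻¹ = Bᴴ * B) (hL : H = Lᴴ * L) {s : Fin n → Matrix (Fin n) (Fin n) ℂ}
    (hs : ∀ i k m, s i k m = s k i m) :
    (∫ w : Cm n, (quad H (fun m => ∑ i, ∑ k, w i * w k * s i k m)).re * χ (quad G w).re) *
      G.det.re = c0 n χ * (2 * ∑ a, fr (B * (∑ k, B a k • s k) * Lᴴ)) := by
  have h := mom4' hχ hG (fun i j => s i * H * (s j)ᴴ)
  rw [second_eq s H G⁻¹ hs, first_eq s H G⁻¹ B L hB hL, ← Complex.ofReal_add,
    ← Complex.ofReal_mul] at h
  have hre := congrArg Complex.re h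
  rw [Complex.ofReal_re] at hre
  have hint : Integrable fun w : Cm n => P1.quart (fun i j => s i * H * (s j)ᴴ) w w w w *
      ((χ (quad G w).re : ℝ) : ℂ) * ((G.det.re : ℝ) : ℂ) := mom4_int hχ hG _
  have e1 : (∫ w : Cm n, P1.quart (fun i j => s i * H * (s j)ᴴ) w w w w *
      ((χ (quad G w).re : ℝ) : ℂ) * ((G.det.re : ℝ) : ℂ)).re =
      ∫ w : Cm n, (P1.quart (fun i j => s i * H * (s j)ᴴ) w w w w *
      ((χ (quad G w).re : ℝ) : ℂ) * ((G.det.re : ℝ) : ℂ)).re :=
    (integral_re hint).symm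
  rw [e1] at hre
  rw [← integral_mul_const, ← two_mul] at *
  rw [← hre]
  refine integral_congr_ae (Eventually.of_forall fun w => ?_)
  simp only []
  rw [quart_of_s, Complex.re_mul_ofReal, Complex.re_mul_ofReal]

end int

theorem momTrace (n : ℕ) : MomTrace n := by
  intro χ hχ
  set c1 : ℝ := ∫ w : Cm n, up χ (quad (1 : Matrix (Fin n) (Fin n) ℂ) w).re with hc1
  have hc10 : 0 ≤ c1 := integral_nonneg fun w => hχ.up.nonneg _
  have hc0 := c0_pos n hχ
  refine ⟨c1 / (2 * c0 n χ), by positivity, fun G H hG hH s hs => ?_⟩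
  obtain ⟨B, hB⟩ := C2.exists_factor hG.inv.posSemidef
  obtain ⟨L, hL⟩ := C2.exists_factor hH.posSemidef
  have hdet : 0 < G.det.re := by
    have := hG.det_pos
    rw [Complex.lt_def] at this
    simpa using this.1
  have hmass : (∫ w : Cm n, up χ (quad G w).re) * G.det.re = c1 := by
    have := mass_eq (fun s => up χ s) hG
    rw [smul_eq_mul, mul_comm] at this
    exact this
  have hD := dmom hχ hG hB (fun k => (G⁻¹ * (s k * H)).trace)
  have hP := pmom hχ hG hB hL hs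
  set I1 : ℝ := ∫ w : Cm n, up χ (quad G w).re with hI1
  set IP : ℝ := ∫ w : Cm n, (quad H (fun m => ∑ i, ∑ k, w i * w k * s i k m)).re *
    χ (quad G w).re with hIP
  have hτ : (G⁻¹ * H).trace.re = fr (L * Bᴴ) := by
    have e1 : (G⁻¹ * H).trace = ((fr (L * Bᴴ) : ℝ) : ℂ) := by
      rw [← trace_self, Matrix.conjTranspose_mul, Matrix.conjTranspose_conjTranspose, hB, hL]
      rw [Matrix.mul_assoc L, ← Matrix.mul_assoc Bᴴ B Lᴴ, Matrix.trace_mul_comm L,
        Matrix.mul_assoc (Bᴴ * B) Lᴴ L]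
    rw [e1, Complex.ofReal_re]
  have hCS : ∀ a, ‖∑ k, B a k * (G⁻¹ * (s k * H)).trace‖ ^ 2 ≤
      fr (B * (∑ k, B a k • s k) * Lᴴ) * (G⁻¹ * H).trace.re := by
    intro a
    have e1 : ∑ k, B a k * (G⁻¹ * (s k * H)).trace =
        (B * (∑ k, B a k • s k) * Lᴴ * (L * Bᴴ)).trace := by
      have e2 : (B * (∑ k, B a k • s k) * Lᴴ * (L * Bᴴ)).trace =
          (G⁻¹ * ((∑ k, B a k • s k) * H)).trace := by
        rw [← Matrix.mul_assoc (B * (∑ k, B a k • s k) * Lᴴ) L Bᴴ, Matrix.trace_mul_comm, hB, hL]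
        simp only [Matrix.mul_assoc]
      rw [e2]
      simp only [Matrix.sum_mul, Matrix.mul_sum, Matrix.trace_sum, Matrix.smul_mul,
        Matrix.mul_smul, Matrix.trace_smul, smul_eq_mul]
    rw [e1, hτ]
    exact trace_mul_sq _ _
  have hsum : ∑ a, ‖∑ k, B a k * (G⁻¹ * (s k * H)).trace‖ ^ 2 ≤
      (∑ a, fr (B * (∑ k, B a k • s k) * Lᴴ)) * (G⁻¹ * H).trace.re := by
    rw [Finset.sum_mul]
    exact Finset.sum_le_sum fun a _ => hCS a
  have hI10 : 0 ≤ I1 := integral_nonneg fun w => hχ.up.nonneg _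
  rw [hD]
  set F : ℝ := ∑ a, fr (B * (∑ k, B a k • s k) * Lᴴ) with hF
  have hFeq : F = IP * G.det.re / (2 * c0 n χ) := by
    rw [hP]; field_simp
  calc (∑ a, ‖∑ k, B a k * (G⁻¹ * (s k * H)).trace‖ ^ 2) * I1
      ≤ (F * (G⁻¹ * H).trace.re) * I1 := mul_le_mul_of_nonneg_right hsum hI10
    _ = (I1 * G.det.re) / (2 * c0 n χ) * (G⁻¹ * H).trace.re * IP := by
        rw [hFeq]; field_simp
    _ = c1 / (2 * c0 n χ) * (G⁻¹ * H).trace.re * IP := by rw [hmass]

end Vale.Agent.P272.K.T4.L5
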