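import Vale.Agent.P272.K.T4.L5Local2
import Vale.Agent.P272.K.T4.L5Mom
import Vale.Agent.P272.K.T4.L5B
import Vale.Agent.P272.K.T4.L5A

/-! # T4, block L5: the local estimate holds -/

namespace Vale.Agent.P272.K.T4

/-- The local estimate. -/
theorem localL5 (n : ℕ) : LocalL5 n :=
  L5.localL5_of (L5.ident n) (L5.bBound n) (L5.aBound n) (L5.tBound (L5.momTrace n))

end Vale.Agent.P272.K.T4
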