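import Vale.Agent.P272.K.T4.CoerNF
import Vale.Agent.P272.K.T4.BlockA
import Vale.Agent.P272.K.T4.L5Final
import Vale.Agent.P272.K.T4.L5Done
import Vale.Agent.P272.K.Asm.Final
import Vale.Agent.P272.K.Asm.Twisted
import Vale.Agent.P272.K.INT.Gronwall

/-! T4++: the statement without flat lines, and its two special cases. -/

open scoped Manifold ContDiff ComplexOrder Topology Matrix
open Set Metric Filter

set_option linter.all false

noncomputable section

namespace Vale.Agent.P272.K.T4

open LIN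

section
variable {n : ℕ} {X : Type*} [TopologicalSpace X] [ChartedSpace (Cm n) X]
  {h : Chart n X → Cm n → Matrix (Fin n) (Fin n) ℂ}

lemma vel_ne_zero {f : ℂ → X} (hf : IsFlatLine h f) {z : ℂ} {e : Chart n X}
    (he : At e (f z)) : vel f e z ≠ 0 := by
  intro h0
  have h1 := hf.unit z e he
  rw [h0] at h1
  simp at h1

lemma sum_quart (R : Fin n → Fin n → Fin n → Fin n → ℂ) (w : Cm n) :
    (∑ i, ∑ j, ∑ k, ∑ l, R i j k l * (w i * (starRingEnd ℂ) (w j) * w k * (starRingEnd ℂ) (w l))) =
      ∑ l, (∑ i, ∑ j, ∑ k, R i j k l * (w i * (starRingEnd ℂ) (w j) * w k)) *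
        (starRingEnd ℂ) (w l) := by
  simp only [Finset.sum_mul]
  calc _ = ∑ i, ∑ j, ∑ l, ∑ k, R i j k l *
        (w i * (starRingEnd ℂ) (w j) * w k * (starRingEnd ℂ) (w l)) :=
        Finset.sum_congr rfl fun i _ => Finset.sum_congr rfl fun j _ => Finset.sum_comm
    _ = ∑ i, ∑ l, ∑ j, ∑ k, R i j k l *
        (w i * (starRingEnd ℂ) (w j) * w k * (starRingEnd ℂ) (w l)) :=
        Finset.sum_congr rfl fun i _ => Finset.sum_comm
    _ = ∑ l, ∑ i, ∑ j, ∑ k, R i j k l *
        (w i * (starRingEnd ℂ) (w j) * w k * (starRingEnd ℂ) (w l)) := Finset.sum_comm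
    _ = _ := by
        refine Finset.sum_congr rfl fun l _ => Finset.sum_congr rfl fun i _ =>
          Finset.sum_congr rfl fun j _ => Finset.sum_congr rfl fun k _ => ?_
        ring

/-- a metric of negative holomorphic sectional curvature has no flat line -/
lemma noFlat_of_negHSC (hneg : NegHSC h) (f : ℂ → X) : ¬ IsFlatLine h f := by
  intro hf
  have he : At (chartAt (Cm n) (f 0)) (f 0) := ⟨chart_mem_atlas _ _, mem_chart_source _ _⟩
  have h1 := hneg _ _ he _ (vel_ne_zero hf he)
  rw [sum_quart, Finset.sum_eq_zero fun l _ => by rw [hf.flat 0 _ he l, zero_mul]] at h1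
  simp at h1

/-- a Brody hyperbolic manifold has no flat line -/
lemma noFlat_of_brody (hyp : BrodyHyperbolic n X) (f : ℂ → X) : ¬ IsFlatLine h f := by
  intro hf
  have he : At (chartAt (Cm n) (f 0)) (f 0) := ⟨chart_mem_atlas _ _, mem_chart_source _ _⟩
  have h4 : (fun ζ => chartAt (Cm n) (f 0) (f ζ)) = fun _ => chartAt (Cm n) (f 0) (f 0) :=
    funext fun ζ => by rw [hyp f hf.holo ζ 0]
  refine vel_ne_zero hf he ?_
  unfold vel
  rw [h4, deriv_const]

lemma nonposHSC_of_negHSC (hneg : NegHSC h) : NonposHSC h := by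
  intro e x hx ξ
  by_cases hξ : ξ = 0
  · subst hξ; simp
  · exact (hneg e x hx ξ hξ).le

end

/-- **T4++** -/
theorem noFlatStatement : NoFlatStatement := by
  intro n hn X _ _ _ _ _ _ w h hw hh hneg hno a ha hnef φ hφ
  exact conclusion (fun w hw a φ hφ C H => INT.pos_of_ineq hw a hφ C H) hw hh
    (trace_bound_of_coer (dens n X) (l1 n X) (l2 n X) (mom n X) (l5_of_local (localL5 n) X) hh
      (coer_noFlat hh hno) hneg)
    (twistedKE_of_nef (aubinYau n X) hw ha hnef) hφ

end Vale.Agent.P272.K.T4
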