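import Vale.Agent.P272.K.T4.FibB

/-! # Invariance of the Liouville measure under the spray, in one chart -/

open scoped Manifold ContDiff ComplexOrder Topology
open Complex Set Filter MeasureTheory

set_option linter.all false

noncomputable section

namespace Vale.Agent.P272.K.T4

variable {n : ℕ}

lemma quad_one_ge (ξ : Cm n) : ‖ξ‖ ^ 2 ≤ (quad (1 : Matrix (Fin n) (Fin n) ℂ) ξ).re := by
  have h1 : quad (1 : Matrix (Fin n) (Fin n) ℂ) ξ = ((∑ i, ‖ξ i‖ ^ 2 : ℝ) : ℂ) := by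
    unfold quad
    push_cast
    refine Finset.sum_congr rfl fun i _ => ?_
    rw [Finset.sum_eq_single i]
    · rw [Matrix.one_apply_eq, one_mul, Complex.mul_conj, Complex.normSq_eq_norm_sq]; push_cast; rfl
    · intro j _ hj; rw [Matrix.one_apply_ne' hj, zero_mul]
    · simp
  rw [h1, Complex.ofReal_re]
  rcases isEmpty_or_nonempty (Fin n) with h | h
  · have : ξ = 0 := Subsingleton.elim _ _
    rw [this]; simp
  · obtain ⟨i, -, hi⟩ := Finset.exists_mem_eq_sup' (Finset.univ_nonempty (α := Fin n)) (fun i => ‖ξ i‖₊)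
    have h2 : ‖ξ‖ = ‖ξ i‖ := by
      rw [Pi.norm_def]
      have : (Finset.univ.sup fun b => ‖ξ b‖₊) = ‖ξ i‖₊ := by
        rw [← hi, Finset.sup'_eq_sup]
      rw [this]; rfl
    rw [h2]
    exact Finset.single_le_sum (f := fun i => ‖ξ i‖ ^ 2) (fun j _ => by positivity) (Finset.mem_univ i)

lemma exists_lower {K : Set (Cm n)} (hK : IsCompact K) {g : Cm n → Matrix (Fin n) (Fin n) ℂ}
    (hg : ∀ i j, ContinuousOn (fun z => g z i j) K) (hpos : ∀ z ∈ K, (g z).PosDef) :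
    ∃ C : ℝ, 0 < C ∧ ∀ z ∈ K, ∀ ξ : Cm n, ‖ξ‖ ^ 2 ≤ C * (quad (g z) ξ).re := by
  obtain ⟨C, hC, h⟩ := exists_quad_lower hK g (fun _ => 1) hg
    (fun i j => continuousOn_const) hpos
  exact ⟨C, hC, fun z hz ξ => (quad_one_ge ξ).trans (h z hz ξ)⟩

section smooth
variable {χ : ℝ → ℝ} {g : Cm n → Matrix (Fin n) (Fin n) ℂ} {p : Cm n × Cm n}

lemma cd_coord {m : WithTop ℕ∞} (i : Fin n) (p : Cm n × Cm n) :
    ContDiffAt ℝ m (fun q : Cm n × Cm n => q.2 i) p := by
  have h : ContDiff ℝ m (fun q : Cm n × Cm n => q.2 i) :=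
    (contDiff_apply ℝ ℂ i).comp contDiff_snd
  exact h.contDiffAt

lemma cd_cj_coord {m : WithTop ℕ∞} (i : Fin n) (p : Cm n × Cm n) :
    ContDiffAt ℝ m (fun q : Cm n × Cm n => cj (q.2 i)) p :=
  Complex.conjCLE.contDiff.contDiffAt.comp p (cd_coord i p)

lemma cd_fst {m : WithTop ℕ∞} {f : Cm n → ℂ} (h : ContDiffAt ℝ m f p.1) :
    ContDiffAt ℝ m (fun q : Cm n × Cm n => f q.1) p :=
  ContDiffAt.comp (f := fun q : Cm n × Cm n => q.1) (g := f) p h contDiffAt_fst

lemma cd_quad {m : WithTop ℕ∞} (hg : ∀ i j, ContDiffAt ℝ m (fun y => g y i j) p.1) :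
    ContDiffAt ℝ m (fun q : Cm n × Cm n => quad (g q.1) q.2) p := by
  unfold quad
  exact ContDiffAt.sum fun i _ => ContDiffAt.sum fun j _ =>
    (cd_fst (hg i j)).mul ((cd_coord i p).mul (cd_cj_coord j p))

lemma cd_re_quad {m : WithTop ℕ∞} (hg : ∀ i j, ContDiffAt ℝ m (fun y => g y i j) p.1) :
    ContDiffAt ℝ m (fun q : Cm n × Cm n => (quad (g q.1) q.2).re) p :=
  Complex.reCLM.contDiff.contDiffAt.comp p (cd_quad hg)

lemma cd_wt (hχ : ContDiff ℝ ∞ χ) (hg : ∀ i j, ContDiffAt ℝ ∞ (fun y => g y i j) p.1) :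
    ContDiffAt ℝ ∞ (wt χ g) p := by
  have h1 : ContDiffAt ℝ ∞ (fun q : Cm n × Cm n => χ ((quad (g q.1) q.2).re)) p :=
    hχ.contDiffAt.comp p (cd_re_quad hg)
  have h2 : ContDiffAt ℝ ∞ (fun q : Cm n × Cm n => (g q.1).det) p :=
    cd_fst (f := fun y => (g y).det) (INT.contDiffAt_det hg)
  exact (Complex.ofRealCLM.contDiff.contDiffAt.comp p h1).mul (h2.pow 2)

lemma cd_chr (hg : ∀ i j, ContDiffAt ℝ ∞ (fun y => g y i j) p.1) (h0 : (g p.1).det ≠ 0)
    (m : Fin n) : ContDiffAt ℝ ∞ (fun q : Cm n × Cm n => chr g q.1 q.2 m) p := by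
  simp only [chr_dM]
  refine ContDiffAt.sum fun k _ => (cd_coord k p).mul (ContDiffAt.sum fun i _ =>
    (cd_coord i p).mul ?_)
  have h1 : ∀ a b, ContDiffAt ℝ ∞ (fun y => dM k g y a b) p.1 := fun a b =>
    INT.smooth_dz (hg a b)
  have h2 : ContDiffAt ℝ ∞ (fun y => (dM k g y * (g y)⁻¹) i m) p.1 := by
    have : (fun y => (dM k g y * (g y)⁻¹) i m) = fun y => ∑ q, dM k g y i q * (g y)⁻¹ q m := by
      funext y; rw [Matrix.mul_apply]
    rw [this]
    exact ContDiffAt.sum fun q _ => (h1 i q).mul (contDiffAt_inv hg h0 q m)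
  exact cd_fst (f := fun y => (dM k g y * (g y)⁻¹) i m) h2

/-- the weight has compact support in the fibres, uniformly over compact sets -/
lemma wt_bound (hχ : Wt χ) {K : Set (Cm n)} (hK : IsCompact K)
    (hg : ∀ i j, ContinuousOn (fun z => g z i j) K) (hpos : ∀ z ∈ K, (g z).PosDef) :
    ∃ R : ℝ, 0 ≤ R ∧ ∀ p : Cm n × Cm n, p.1 ∈ K → R < ‖p.2‖ → χ ((quad (g p.1) p.2).re) = 0 := by
  obtain ⟨C, hC, h⟩ := exists_lower hK hg hpos
  refine ⟨Real.sqrt C, Real.sqrt_nonneg _, fun p hp hR => hχ.zero _ ?_⟩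
  have h1 := h p.1 hp p.2
  have h2 : C < ‖p.2‖ ^ 2 := Real.lt_sq_of_sqrt_lt hR
  have : C * 1 < C * (quad (g p.1) p.2).re := by rw [mul_one]; exact h2.trans_le h1
  exact (lt_of_mul_lt_mul_left this hC.le).le

end smooth

/-- data for the local statement -/
structure LocMet (U : Set (Cm n)) (g : Cm n → Matrix (Fin n) (Fin n) ℂ) : Prop where
  isOpen : IsOpen U
  smooth : ∀ z ∈ U, ∀ i j, ContDiffAt ℝ ∞ (fun y => g y i j) z
  pos : ∀ z ∈ U, (g z).PosDef
  closed : ∀ z ∈ U, ∀ i j l, dz l (fun y => g y i j) z = dz i (fun y => g y l j) z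

variable {U : Set (Cm n)} {g : Cm n → Matrix (Fin n) (Fin n) ℂ} {χ : ℝ → ℝ}
  {F : Cm n × Cm n → ℂ} {K : Set (Cm n)}

lemma LocMet.det_ne (hg : LocMet U g) {z : Cm n} (hz : z ∈ U) : (g z).det ≠ 0 :=
  (hg.pos z hz).det_pos.ne'

lemma LocMet.cont (hg : LocMet U g) (i j : Fin n) : ContinuousOn (fun z => g z i j) U :=
  fun z hz => (hg.smooth z hz i j).continuousAt.continuousWithinAt

/-- product of `F`, the weight and a smooth function is `C¹` with compact support -/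
lemma c1_of (hg : LocMet U g) (hχ : Wt χ) (hK : IsCompact K) (hKU : K ⊆ U)
    (hF0 : ∀ p : Cm n × Cm n, p.1 ∉ K → F p = 0)
    (hF1 : ∀ z ∈ U, ∀ w : Cm n, ContDiffAt ℝ 1 F (z, w))
    {s : Cm n × Cm n → ℂ} (hs : ∀ p : Cm n × Cm n, p.1 ∈ U → ContDiffAt ℝ ∞ s p) :
    ContDiff ℝ 1 (fun p => F p * wt χ g p * s p) ∧
      HasCompactSupport (fun p => F p * wt χ g p * s p) := by
  constructor
  · rw [contDiff_iff_contDiffAt]
    rintro ⟨z, w⟩
    by_cases hz : z ∈ K
    · exact ((hF1 z (hKU hz) w).mul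
        ((cd_wt (p := (z, w)) hχ.smooth (hg.smooth z (hKU hz))).of_le (by norm_cast))).mul
        ((hs (z, w) (hKU hz)).of_le (by norm_cast))
    · refine contDiffAt_const.congr_of_eventuallyEq (f := fun _ => (0 : ℂ)) ?_
      have h1 : ∀ᶠ q : Cm n × Cm n in 𝓝 (z, w), q.1 ∈ Kᶜ :=
        continuousAt_fst.eventually_mem (hK.isClosed.isOpen_compl.mem_nhds hz)
      filter_upwards [h1] with q hq
      rw [hF0 q hq]; simp
  · obtain ⟨R, hR, hb⟩ := wt_bound hχ hK (fun i j => (hg.cont i j).mono hKU)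
      (fun z hz => hg.pos z (hKU hz))
    refine HasCompactSupport.intro (hK.prod (isCompact_closedBall (0 : Cm n) R)) ?_
    rintro p hp
    by_cases h : p.1 ∈ K
    · have : R < ‖p.2‖ := by
        by_contra h2
        exact hp ⟨h, by simpa using not_lt.1 h2⟩
      simp [wt, hb p h this]
    · rw [hF0 p h]; simp

/-- the spray term vanishes off `K` -/
lemma spr_zero (hF0 : ∀ p : Cm n × Cm n, p.1 ∉ K → F p = 0) (hK : IsCompact K)
    {p : Cm n × Cm n} (hp : p.1 ∉ K) : spr g F p = 0 := by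
  unfold spr
  have h1 : ∀ k, dz k (fun y => F (y, p.2)) p.1 = 0 := by
    intro k
    have : (fun y => F (y, p.2)) =ᶠ[𝓝 p.1] fun _ => 0 := by
      filter_upwards [hK.isClosed.isOpen_compl.mem_nhds hp] with y hy
      exact hF0 (y, p.2) hy
    rw [dz_congr this, dz_const]
  have h2 : ∀ k, dz k (fun y => F (p.1, y)) p.2 = 0 := by
    intro k
    have : (fun y => F (p.1, y)) = fun _ => 0 := funext fun y => hF0 (p.1, y) hp
    rw [this, dz_const]
  simp [h1, h2]

/-- **L1 in a chart** -/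
theorem local_L1 (hg : LocMet U g) (hχ : Wt χ) (hK : IsCompact K) (hKU : K ⊆ U)
    (hF0 : ∀ p : Cm n × Cm n, p.1 ∉ K → F p = 0)
    (hF1 : ∀ z ∈ U, ∀ w : Cm n, ContDiffAt ℝ 1 F (z, w)) :
    Integrable (fun p => spr g F p * wt χ g p) ∧ ∫ p, spr g F p * wt χ g p = 0 := by
  have hA : ∀ k : Fin n, ContDiff ℝ 1 (fun p : Cm n × Cm n => F p * wt χ g p * p.2 k) ∧
      HasCompactSupport (fun p : Cm n × Cm n => F p * wt χ g p * p.2 k) := fun k =>
    c1_of hg hχ hK hKU hF0 hF1 (s := fun p => p.2 k) (fun p _ => cd_coord k p)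
  have hB : ∀ m : Fin n, ContDiff ℝ 1 (fun p : Cm n × Cm n => F p * wt χ g p * chr g p.1 p.2 m) ∧
      HasCompactSupport (fun p : Cm n × Cm n => F p * wt χ g p * chr g p.1 p.2 m) := fun m =>
    c1_of hg hχ hK hKU hF0 hF1 (s := fun p => chr g p.1 p.2 m)
      (fun p hp => cd_chr (hg.smooth _ hp) (hg.det_ne hp) m)
  have key : (fun p => spr g F p * wt χ g p) = fun p : Cm n × Cm n =>
      ∑ k, dz k (fun y => F (y, p.2) * wt χ g (y, p.2) * p.2 k) p.1 -
      ∑ m, dz m (fun y => F (p.1, y) * wt χ g (p.1, y) * chr g p.1 y m) p.2 := by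
    funext p
    obtain ⟨z, w⟩ := p
    by_cases hz : z ∈ K
    · exact spr_mul_wt (hχ.smooth.differentiable (by simp))
        (fun i j => (hg.smooth z (hKU hz) i j).differentiableAt (by simp))
        (by filter_upwards [hg.isOpen.mem_nhds (hKU hz)] with y hy using (hg.pos y hy).1)
        (isUnit_iff_ne_zero.2 (hg.det_ne (hKU hz))) (hg.closed z (hKU hz))
        ((hF1 z (hKU hz) w).differentiableAt (by norm_num))
    · have h1 : ∀ᶠ y in 𝓝 z, y ∈ Kᶜ := hK.isClosed.isOpen_compl.mem_nhds hz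
      have e1 : ∀ k, dz k (fun y => F (y, w) * wt χ g (y, w) * w k) z = 0 := by
        intro k
        rw [dz_congr (g := fun _ => 0) (by filter_upwards [h1] with y hy; rw [hF0 (y, w) hy]; simp),
          dz_const]
      have e2 : ∀ m, dz m (fun y => F (z, y) * wt χ g (z, y) * chr g z y m) w = 0 := by
        intro k
        rw [dz_congr (g := fun _ => 0)
          (Eventually.of_forall fun y => by simp only []; rw [hF0 (z, y) hz]; simp), dz_const]
      simp only [spr_zero (p := (z, w)) hF0 hK hz, e1, e2]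
      simp
  rw [key]
  have i1 : ∀ k : Fin n, Integrable (fun p : Cm n × Cm n =>
      dz k (fun y => F (y, p.2) * wt χ g (y, p.2) * p.2 k) p.1) ∧
      ∫ p : Cm n × Cm n, dz k (fun y => F (y, p.2) * wt χ g (y, p.2) * p.2 k) p.1 = 0 := fun k =>
    integral_dz_fst (F := fun p => F p * wt χ g p * p.2 k) (hA k).1 (hA k).2
  have i2 : ∀ m : Fin n, Integrable (fun p : Cm n × Cm n =>
      dz m (fun y => F (p.1, y) * wt χ g (p.1, y) * chr g p.1 y m) p.2) ∧
      ∫ p : Cm n × Cm n, dz m (fun y => F (p.1, y) * wt χ g (p.1, y) * chr g p.1 y m) p.2 = 0 :=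
    fun m => integral_dz_snd (F := fun p => F p * wt χ g p * chr g p.1 p.2 m) (hB m).1 (hB m).2
  have j1 := integrable_finsetSum (μ := (volume : Measure (Cm n × Cm n))) Finset.univ
    fun (k : Fin n) _ => (i1 k).1
  have j2 := integrable_finsetSum (μ := (volume : Measure (Cm n × Cm n))) Finset.univ
    fun (k : Fin n) _ => (i2 k).1
  refine ⟨j1.sub j2, ?_⟩
  rw [integral_sub j1 j2, integral_finsetSum _ fun k _ => (i1 k).1,
    integral_finsetSum _ fun k _ => (i2 k).1]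
  simp only [(i1 _).2, (i2 _).2]
  simp

end Vale.Agent.P272.K.T4
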