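import Vale.Agent.P272.K.T4.Bracket
import Mathlib.Geometry.Manifold.PartitionOfUnity
import Mathlib.Analysis.SpecialFunctions.SmoothTransition

/-! P272/T4, block (b2b): smoothness of the embedding of the tangent bundle, extension of the
spray to the ambient space. -/

open scoped Manifold ContDiff ComplexOrder Topology Matrix
open Set Metric

set_option linter.unusedSectionVars false

noncomputable section

namespace Vale.Agent.P272.K.T4

open LIN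

variable {n : ℕ} {X : Type*} [TopologicalSpace X] [ChartedSpace (Cm n) X]
  {h : Chart n X → Cm n → Matrix (Fin n) (Fin n) ℂ} {e e' : Chart n X} {x : X}
  [IsManifold 𝓘(ℂ, Cm n) ω X]

instance instRSm' : RSm (Cm n) X where
  trans := fun _ he _ he' _ hx hx' =>
    ((transition ⟨he, hx⟩ ⟨he', hx'⟩).restrict_scalars ℝ).of_le (by exact le_top)

/-- the embedding does not depend on the chart used for the components -/
lemma emb_change (𝒞 : Cov (Cm n) X) (hx : At e x) (hx' : At e' x) (w : Cm n) :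
    emb 𝒞 e x w = emb 𝒞 e' x ((jacM e e' x).mulVec w) := by
  funext i
  simp only [emb]
  by_cases hi : x ∈ (𝒞.e i).source
  · have h1 : At (𝒞.e i) x := ⟨𝒞.mem i, hi⟩
    rw [jacM_comp hx hx' h1, ← Matrix.mulVec_mulVec]
  · have h0 : 𝒞.η i x = 0 := ext0_of_notMem hi
    rw [h0]; simp

variable [T2Space X]

lemma tendsto_symm {z : Cm n} (hz : z ∈ e.target) : Filter.Tendsto e.symm (𝓝 z) (𝓝 (e.symm z)) :=
  e.symm.continuousAt hz

lemma η_eventually_zero (𝒞 : Cov (Cm n) X) {i : Fin 𝒞.N} {x : X} (hx : x ∉ (𝒞.e i).source) :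
    ∀ᶠ y in 𝓝 x, 𝒞.η i y = 0 :=
  ext0_eventually_zero (K := closedBall (𝒞.c i) (3 * 𝒞.r i)) (isCompact_closedBall _ _)
    (𝒞.sub i) (fun y hy => by
      apply (𝒞.bump i).zero_of_le_dist
      simp only [mem_closedBall, not_le] at hy
      exact hy.le) hx

/-- smoothness of the embedding -/
lemma embC_contDiffAt (𝒞 : Cov (Cm n) X) (he : e ∈ atlas (Cm n) X) {z : Cm n} (hz : z ∈ e.target)
    (w : Cm n) : ContDiffAt ℝ ∞ (embC 𝒞 e) (z, w) := by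
  have hx : At e (e.symm z) := At.of_target he hz
  have hf : ContDiffAt ℝ ∞ (fun p : Cm n × Cm n => p.1) (z, w) := contDiffAt_fst
  have hw : ContDiffAt ℝ ∞ (fun p : Cm n × Cm n => p.2) (z, w) := contDiffAt_snd
  rw [contDiffAt_pi]
  intro i
  show ContDiffAt ℝ ∞ (fun p : Cm n × Cm n => (𝒞.η i (e.symm p.1),
    𝒞.η i (e.symm p.1) • (𝒞.e i (e.symm p.1) - 𝒞.c i),
    𝒞.η i (e.symm p.1) • (jacM e (𝒞.e i) (e.symm p.1)).mulVec p.2)) (z, w)
  by_cases hi : e.symm z ∈ (𝒞.e i).source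
  · have hxi : At (𝒞.e i) (e.symm z) := ⟨𝒞.mem i, hi⟩
    have hη : ContDiffAt ℝ ∞ (fun y => 𝒞.η i (e.symm y)) z := by
      have := 𝒞.η_ck i e he (e.symm z) hx.2
      rwa [e.right_inv hz] at this
    have hη' : ContDiffAt ℝ ∞ (fun p : Cm n × Cm n => 𝒞.η i (e.symm p.1)) (z, w) :=
      ContDiffAt.comp (g := fun y => 𝒞.η i (e.symm y)) (z, w) hη hf
    have hT := TM_contDiffAt hx hxi w
    rw [e.right_inv hz] at hT
    have h1 : ContDiffAt ℝ ∞ (fun p : Cm n × Cm n => 𝒞.e i (e.symm p.1)) (z, w) := hT.fst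
    have h2 : ContDiffAt ℝ ∞ (fun p : Cm n × Cm n => (jacM e (𝒞.e i) (e.symm p.1)).mulVec p.2)
      (z, w) := hT.snd
    exact hη'.prodMk ((hη'.smul (h1.sub contDiffAt_const)).prodMk (hη'.smul h2))
  · have h0 : ∀ᶠ y in 𝓝 (e.symm z), 𝒞.η i y = 0 := η_eventually_zero 𝒞 hi
    have h1 : ∀ᶠ p : Cm n × Cm n in 𝓝 (z, w), 𝒞.η i (e.symm p.1) = 0 := by
      have h2 : Filter.Tendsto (fun p : Cm n × Cm n => e.symm p.1) (𝓝 (z, w)) (𝓝 (e.symm z)) :=
        (tendsto_symm hz).comp (continuous_fst.tendsto (z, w))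
      exact h2.eventually h0
    refine (contDiffAt_const (c := ((0 : ℝ), (0 : Cm n), (0 : Cm n)))).congr_of_eventuallyEq ?_
    filter_upwards [h1] with p hp
    rw [hp, zero_smul, zero_smul]

lemma embC_apply_at (𝒞 : Cov (Cm n) X) (hx : At e x) (w : Cm n) :
    embC 𝒞 e (e x, w) = emb 𝒞 e x w := by
  simp only [embC]; rw [hx.left_inv]

/-- near a point the embeddings in two charts differ by the transition map -/
lemma embC_eventually (𝒞 : Cov (Cm n) X) (hx : At e x) (hx' : At e' x) (w : Cm n) :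
    embC 𝒞 e =ᶠ[𝓝 (e x, w)] fun p => embC 𝒞 e' (TM e e' p) := by
  have h1 : ∀ᶠ p : Cm n × Cm n in 𝓝 (e x, w), p.1 ∈ e.target ∧ At e (e.symm p.1) ∧
      At e' (e.symm p.1) :=
    (continuous_fst.tendsto (e x, w)).eventually (hx.nhds_at hx')
  filter_upwards [h1] with p hp
  simp only [embC, TM]
  rw [hp.2.2.left_inv]
  exact emb_change 𝒞 hp.2.1 hp.2.2 p.2

/-- the push-forward of the spray does not depend on the chart -/
lemma fderiv_embC_spray (𝒞 : Cov (Cm n) X) (hh : IsHermitian h) (hx : At e x) (hx' : At e' x)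
    (b : ℂ) (w : Cm n) :
    fderiv ℝ (embC 𝒞 e) (e x, w) (spray (h e) b (e x, w)) =
      fderiv ℝ (embC 𝒞 e') (e' x, (jacM e e' x).mulVec w)
        (spray (h e') b (e' x, (jacM e e' x).mulVec w)) := by
  have hT : TM e e' (e x, w) = (e' x, (jacM e e' x).mulVec w) := by
    simp only [TM]; rw [hx.left_inv]
  rw [(embC_eventually 𝒞 hx hx' w).fderiv_eq]
  have h1 : DifferentiableAt ℝ (embC 𝒞 e') (TM e e' (e x, w)) := by
    rw [hT]
    exact (embC_contDiffAt 𝒞 hx'.1 hx'.mem_target _).differentiableAt (by simp)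
  have h2 : DifferentiableAt ℝ (TM e e') (e x, w) :=
    (TM_contDiffAt hx hx' w).differentiableAt (by simp)
  have h3 : fderiv ℝ (fun p => embC 𝒞 e' (TM e e' p)) (e x, w) =
      (fderiv ℝ (embC 𝒞 e') (TM e e' (e x, w))).comp (fderiv ℝ (TM e e') (e x, w)) :=
    fderiv_comp (e x, w) h1 h2
  rw [h3, ContinuousLinearMap.comp_apply, TM_spray hh hx hx', hT]

/-! ### The cutoff functions in the ambient space -/

/-- bump function for the position in the `i`-th chart -/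
def posBmp (𝒞 : Cov (Cm n) X) (i : Fin 𝒞.N) : ContDiffBump (0 : Cm n) where
  rIn := 𝒞.r i
  rOut := 3 / 2 * 𝒞.r i
  rIn_pos := 𝒞.r_pos i
  rIn_lt_rOut := by have := 𝒞.r_pos i; linarith

/-- cutoff functions on the ambient space -/
def chi (𝒞 : Cov (Cm n) X) (i : Fin 𝒞.N) (y : WW 𝒞) : ℝ :=
  Real.smoothTransition (8 * (y i).1 - 7) * posBmp 𝒞 i (y i).2.1

lemma chi_nonneg (𝒞 : Cov (Cm n) X) (i : Fin 𝒞.N) (y : WW 𝒞) : 0 ≤ chi 𝒞 i y :=
  mul_nonneg (Real.smoothTransition.nonneg _) (posBmp 𝒞 i).nonneg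

lemma chi_contDiff (𝒞 : Cov (Cm n) X) (i : Fin 𝒞.N) : ContDiff ℝ ∞ (chi 𝒞 i) := by
  have h0 : ContDiff ℝ ∞ (fun y : WW 𝒞 => y i) := contDiff_apply ℝ _ i
  have h1 : ContDiff ℝ ∞ (fun y : WW 𝒞 => (y i).1) := h0.fst
  have h2 : ContDiff ℝ ∞ (fun y : WW 𝒞 => (y i).2.1) := h0.snd.fst
  exact (Real.smoothTransition.contDiff.comp ((contDiff_const.mul h1).sub contDiff_const)).mul
    ((posBmp 𝒞 i).contDiff.comp h2)

lemma emb_of_ball (𝒞 : Cov (Cm n) X) {i : Fin 𝒞.N} {w : Cm n} (hi : x ∈ (𝒞.e i).source)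
    (hb : 𝒞.e i x ∈ closedBall (𝒞.c i) (2 * 𝒞.r i)) :
    emb 𝒞 e x w i = (1, 𝒞.e i x - 𝒞.c i, (jacM e (𝒞.e i) x).mulVec w) := by
  simp only [emb, 𝒞.η_eq_one hi hb, one_smul]

/-- a point of the image whose `i`-th coordinates are good is in the `i`-th ball -/
lemma emb_good (𝒞 : Cov (Cm n) X) {i : Fin 𝒞.N} {w : Cm n}
    (h1 : 7 / 8 < (emb 𝒞 e x w i).1) (h2 : ‖(emb 𝒞 e x w i).2.1‖ < 3 / 2 * 𝒞.r i) :
    x ∈ (𝒞.e i).source ∧ 𝒞.e i x ∈ ball (𝒞.c i) (2 * 𝒞.r i) := by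
  have e1 : (emb 𝒞 e x w i).1 = 𝒞.η i x := rfl
  have e2 : (emb 𝒞 e x w i).2.1 = 𝒞.η i x • (𝒞.e i x - 𝒞.c i) := rfl
  rw [e1] at h1
  rw [e2, norm_smul, Real.norm_eq_abs, abs_of_nonneg (𝒞.η_nonneg i x)] at h2
  obtain ⟨hs, hb⟩ := 𝒞.η_ne_zero (i := i) (x := x) (by linarith)
  refine ⟨hs, ?_⟩
  rw [mem_ball, dist_eq_norm]
  have hr := 𝒞.r_pos i
  by_contra hcon
  push Not at hcon
  nlinarith [norm_nonneg (𝒞.e i x - 𝒞.c i)]

lemma chi_emb_ne_zero (𝒞 : Cov (Cm n) X) {i : Fin 𝒞.N} {w : Cm n}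
    (hc : chi 𝒞 i (emb 𝒞 e x w) ≠ 0) :
    x ∈ (𝒞.e i).source ∧ 𝒞.e i x ∈ ball (𝒞.c i) (2 * 𝒞.r i) := by
  have h1 := left_ne_zero_of_mul hc
  have h2 := right_ne_zero_of_mul hc
  refine emb_good 𝒞 (e := e) (w := w) ?_ ?_
  · by_contra hcon
    push Not at hcon
    exact h1 (Real.smoothTransition.zero_of_nonpos (by linarith))
  · by_contra hcon
    push Not at hcon
    exact h2 ((posBmp 𝒞 i).zero_of_le_dist (by rw [dist_zero_right]; exact hcon))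

lemma chi_emb_eq_one (𝒞 : Cov (Cm n) X) {i : Fin 𝒞.N} {w : Cm n} (hi : x ∈ (𝒞.e i).source)
    (hb : 𝒞.e i x ∈ ball (𝒞.c i) (𝒞.r i)) : chi 𝒞 i (emb 𝒞 e x w) = 1 := by
  have hr := 𝒞.r_pos i
  rw [chi, emb_of_ball 𝒞 hi (ball_subset_closedBall.trans
    (closedBall_subset_closedBall (by linarith)) hb)]
  have h1 : Real.smoothTransition (8 * 1 - 7) = 1 :=
    Real.smoothTransition.one_of_one_le (by norm_num)
  have h2 : posBmp 𝒞 i (𝒞.e i x - 𝒞.c i) = 1 := by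
    apply (posBmp 𝒞 i).one_of_mem_closedBall
    rw [mem_closedBall, dist_zero_right, ← dist_eq_norm]
    exact (mem_ball.1 hb).le
  show Real.smoothTransition (8 * 1 - 7) * posBmp 𝒞 i (𝒞.e i x - 𝒞.c i) = 1
  rw [h1, h2, mul_one]

/-- the sum of the cutoff functions -/
def sig (𝒞 : Cov (Cm n) X) (y : WW 𝒞) : ℝ := ∑ i, chi 𝒞 i y

lemma sig_contDiff (𝒞 : Cov (Cm n) X) : ContDiff ℝ ∞ (sig 𝒞) :=
  ContDiff.sum fun i _ => chi_contDiff 𝒞 i

lemma one_le_sig (𝒞 : Cov (Cm n) X) (w : Cm n) : 1 ≤ sig 𝒞 (emb 𝒞 e x w) := by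
  obtain ⟨i, hi, hb⟩ := 𝒞.cover x
  rw [← chi_emb_eq_one 𝒞 (e := e) (w := w) hi hb]
  exact Finset.single_le_sum (f := fun i => chi 𝒞 i (emb 𝒞 e x w)) (fun i _ => chi_nonneg 𝒞 i _)
    (Finset.mem_univ i)

/-- the `i`-th point of the tangent bundle read off from the ambient coordinates -/
def qq (𝒞 : Cov (Cm n) X) (i : Fin 𝒞.N) (y : WW 𝒞) : Cm n × Cm n := (𝒞.c i + (y i).2.1, (y i).2.2)

lemma qq_contDiff (𝒞 : Cov (Cm n) X) (i : Fin 𝒞.N) : ContDiff ℝ ∞ (qq 𝒞 i) := by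
  have h0 : ContDiff ℝ ∞ (fun y : WW 𝒞 => y i) := contDiff_apply ℝ _ i
  exact (contDiff_const.add h0.snd.fst).prodMk h0.snd.snd

/-- the push-forward of the spray in the `i`-th chart -/
def GG (𝒞 : Cov (Cm n) X) (h : Chart n X → Cm n → Matrix (Fin n) (Fin n) ℂ) (b : ℂ) (i : Fin 𝒞.N)
    (y : WW 𝒞) : WW 𝒞 :=
  fderiv ℝ (embC 𝒞 (𝒞.e i)) (qq 𝒞 i y) (spray (h (𝒞.e i)) b (qq 𝒞 i y))

lemma spray_target (hh : IsHermitian h) (he : e ∈ atlas (Cm n) X) {z : Cm n} (hz : z ∈ e.target)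
    (b : ℂ) (w : Cm n) : ContDiffAt ℝ ∞ (spray (h e) b) (z, w) :=
  spray_contDiffAt (fun i j => hh.smooth_target he hz i j) (hh.det_ne_zero_target he hz) b w

lemma GG_contDiffAt (𝒞 : Cov (Cm n) X) (hh : IsHermitian h) (b : ℂ) (i : Fin 𝒞.N) {y : WW 𝒞}
    (hy : 𝒞.c i + (y i).2.1 ∈ (𝒞.e i).target) : ContDiffAt ℝ ∞ (GG 𝒞 h b i) y := by
  have h1 : ContDiffAt ℝ ∞ (fderiv ℝ (embC 𝒞 (𝒞.e i))) (qq 𝒞 i y) :=
    (embC_contDiffAt 𝒞 (𝒞.mem i) hy (y i).2.2).fderiv_right (m := ∞) (le_of_eq rfl)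
  have h2 : ContDiffAt ℝ ∞ (spray (h (𝒞.e i)) b) (qq 𝒞 i y) :=
    spray_target hh (𝒞.mem i) hy b _
  have hq : ContDiffAt ℝ ∞ (qq 𝒞 i) y := (qq_contDiff 𝒞 i).contDiffAt
  exact (h1.comp y hq).clm_apply (h2.comp y hq)

/-- the extension of the spray to the ambient space, without the last cutoff -/
def UU (𝒞 : Cov (Cm n) X) (h : Chart n X → Cm n → Matrix (Fin n) (Fin n) ℂ) (b : ℂ)
    (y : WW 𝒞) : WW 𝒞 := ∑ i, chi 𝒞 i y • GG 𝒞 h b i y

lemma UU_contDiff (𝒞 : Cov (Cm n) X) (hh : IsHermitian h) (b : ℂ) : ContDiff ℝ ∞ (UU 𝒞 h b) := by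
  refine ContDiff.sum fun i _ => ?_
  rw [contDiff_iff_contDiffAt]
  intro y
  by_cases hy : 𝒞.c i + (y i).2.1 ∈ (𝒞.e i).target
  · exact (chi_contDiff 𝒞 i).contDiffAt.smul (GG_contDiffAt 𝒞 hh b i hy)
  · have hr := 𝒞.r_pos i
    have h1 : 3 * 𝒞.r i < ‖(y i).2.1‖ := by
      by_contra hcon
      push Not at hcon
      exact hy (𝒞.sub i (by rw [mem_closedBall, dist_eq_norm, add_sub_cancel_left]; exact hcon))
    have h2 : ∀ᶠ y' : WW 𝒞 in 𝓝 y, 3 / 2 * 𝒞.r i < ‖(y' i).2.1‖ := by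
      have hc : Continuous fun y' : WW 𝒞 => ‖(y' i).2.1‖ :=
        ((continuous_apply i).snd.fst).norm
      exact (hc.tendsto y).eventually (Ioi_mem_nhds (by linarith))
    refine (contDiffAt_const (c := (0 : WW 𝒞))).congr_of_eventuallyEq ?_
    filter_upwards [h2] with y' hy'
    have : chi 𝒞 i y' = 0 := by
      rw [chi, (posBmp 𝒞 i).zero_of_le_dist (by rw [dist_zero_right]; exact hy'.le), mul_zero]
    rw [this, zero_smul]

/-- the value of the extension on the image of the tangent bundle -/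
lemma UU_emb (𝒞 : Cov (Cm n) X) (hh : IsHermitian h) (b : ℂ) (hx : At e x) (w : Cm n) :
    UU 𝒞 h b (emb 𝒞 e x w) =
      sig 𝒞 (emb 𝒞 e x w) • fderiv ℝ (embC 𝒞 e) (e x, w) (spray (h e) b (e x, w)) := by
  rw [sig, Finset.sum_smul]
  refine Finset.sum_congr rfl fun i _ => ?_
  by_cases hc : chi 𝒞 i (emb 𝒞 e x w) = 0
  · rw [hc, zero_smul, zero_smul]
  · obtain ⟨hi, hb⟩ := chi_emb_ne_zero 𝒞 hc
    have hxi : At (𝒞.e i) x := ⟨𝒞.mem i, hi⟩
    have hq : qq 𝒞 i (emb 𝒞 e x w) = (𝒞.e i x, (jacM e (𝒞.e i) x).mulVec w) := by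
      simp only [qq]
      rw [emb_of_ball 𝒞 hi (ball_subset_closedBall hb)]
      simp
    rw [GG, hq, ← fderiv_embC_spray 𝒞 hh hx hxi]

end Vale.Agent.P272.K.T4
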