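import Vale.Agent.P272.K.T4.Defs
import Vale.Agent.P272.K.T4.EmbField

/-! P272/T4: the derivative of a smooth function on the tangent bundle along the spray is a
smooth function on the tangent bundle. -/

open scoped Manifold ContDiff ComplexOrder Topology Matrix
open Set Metric

set_option linter.unusedSectionVars false

noncomputable section

namespace Vale.Agent.P272.K.T4

variable {n : ℕ} {X : Type*} [TopologicalSpace X] [ChartedSpace (Cm n) X]
  {g h : Chart n X → Cm n → Matrix (Fin n) (Fin n) ℂ} {e e' : Chart n X} {x : X}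

lemma SmTFun.contDiffAt {F : Chart n X → Cm n → Cm n → ℝ} (hF : SmTFun F)
    (he : e ∈ atlas (Cm n) X) {z : Cm n} (hz : z ∈ e.target) (w : Cm n) :
    ContDiffAt ℝ ∞ (fun p : Cm n × Cm n => F e p.1 p.2) (z, w) := by
  have := hF.smooth e (e.symm z) w (At.of_target he hz)
  rwa [e.right_inv hz] at this

variable [IsManifold 𝓘(ℂ, Cm n) ω X]

lemma IsTFun.eventually {V : Type*} {F : Chart n X → Cm n → Cm n → V} (hF : IsTFun F)
    (hx : At e x) (hx' : At e' x) (w : Cm n) :
    (fun p : Cm n × Cm n => F e p.1 p.2) =ᶠ[𝓝 (e x, w)]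
      fun p => F e' (TM e e' p).1 (TM e e' p).2 := by
  have h1 : ∀ᶠ p : Cm n × Cm n in 𝓝 (e x, w), p.1 ∈ e.target ∧ At e (e.symm p.1) ∧
      At e' (e.symm p.1) :=
    (continuous_fst.tendsto (e x, w)).eventually (hx.nhds_at hx')
  filter_upwards [h1] with p hp
  have := hF e e' (e.symm p.1) p.2 hp.2.1 hp.2.2
  rw [e.right_inv hp.1] at this
  exact this

/-- the derivative of a smooth function on the tangent bundle along the spray -/
theorem Yd_change (hg : IsHermitian g) {F : Chart n X → Cm n → Cm n → ℝ} (hF : SmTFun F) (b : ℂ) :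
    IsTFun (Yd g b F) := by
  intro e e' x w hx hx'
  have hT : TM e e' (e x, w) = (e' x, (jacM e e' x).mulVec w) := by
    simp only [TM]; rw [hx.left_inv]
  simp only [Yd]
  rw [(hF.change.eventually hx hx' w).fderiv_eq]
  have h1 : DifferentiableAt ℝ (fun p : Cm n × Cm n => F e' p.1 p.2) (TM e e' (e x, w)) := by
    rw [hT]
    exact (hF.contDiffAt hx'.1 hx'.mem_target _).differentiableAt (by simp)
  have h2 : DifferentiableAt ℝ (TM e e') (e x, w) :=
    (TM_contDiffAt hx hx' w).differentiableAt (by simp)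
  have h3 : fderiv ℝ (fun p => F e' (TM e e' p).1 (TM e e' p).2) (e x, w) =
      (fderiv ℝ (fun p : Cm n × Cm n => F e' p.1 p.2) (TM e e' (e x, w))).comp
        (fderiv ℝ (TM e e') (e x, w)) :=
    fderiv_comp (g := fun p : Cm n × Cm n => F e' p.1 p.2) (e x, w) h1 h2
  rw [h3, ContinuousLinearMap.comp_apply, TM_spray hg hx hx', hT]

theorem Yd_contDiffAt (hg : IsHermitian g) {F : Chart n X → Cm n → Cm n → ℝ} (hF : SmTFun F)
    (b : ℂ) (hx : At e x) (w : Cm n) :
    ContDiffAt ℝ ∞ (fun p : Cm n × Cm n => Yd g b F e p.1 p.2) (e x, w) := by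
  have h1 : ContDiffAt ℝ ∞ (fderiv ℝ fun p : Cm n × Cm n => F e p.1 p.2) (e x, w) :=
    (hF.smooth e x w hx).fderiv_right (m := ∞) (le_of_eq rfl)
  exact h1.clm_apply (spray_contDiffAt (fun i j => hg.smooth_target hx.1 hx.mem_target i j)
    (hg.det_ne_zero_target hx.1 hx.mem_target) b w)

theorem Yd_smTFun (hg : IsHermitian g) {F : Chart n X → Cm n → Cm n → ℝ} (hF : SmTFun F)
    (b : ℂ) : SmTFun (Yd g b F) :=
  ⟨Yd_change hg hF b, fun _ _ w hx => Yd_contDiffAt hg hF b hx w⟩

lemma SmTFun.cTFun {F : Chart n X → Cm n → Cm n → ℝ} (hF : SmTFun F) : CTFun F :=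
  ⟨hF.change, fun e x w hx => (hF.smooth e x w hx).continuousAt⟩

theorem Yd_cTFun (hg : IsHermitian g) {F : Chart n X → Cm n → Cm n → ℝ} (hF : SmTFun F)
    (b : ℂ) : CTFun (Yd g b F) := (Yd_smTFun hg hF b).cTFun

end Vale.Agent.P272.K.T4
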