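import Vale.Agent.P272.K.T4.Laws
import Vale.Agent.P272.K.T4.FibC
import Vale.Agent.P272.K.T4.YdC

/-! P272/T4: the functions `nq`, `Pq`, `Rq`, `Dq` are smooth functions on the tangent bundle. -/

open scoped Manifold ContDiff ComplexOrder Topology Matrix
open Complex Set Filter

set_option linter.all false

noncomputable section

namespace Vale.Agent.P272.K.T4

variable {n : ℕ} {X : Type*} [TopologicalSpace X] [ChartedSpace (Cm n) X]
  {g h : Chart n X → Cm n → Matrix (Fin n) (Fin n) ℂ} {e e' : Chart n X} {x : X}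
  {F G : Chart n X → Cm n → Cm n → ℝ}

/-! ### closure rules -/

lemma SmTFun.const (c : ℝ) : SmTFun (fun (_ : Chart n X) (_ _ : Cm n) => c) :=
  ⟨fun _ _ _ _ _ _ => rfl, fun _ _ _ _ => contDiffAt_const⟩

lemma SmTFun.add (hF : SmTFun F) (hG : SmTFun G) : SmTFun fun e z w => F e z w + G e z w :=
  ⟨fun e e' x w hx hx' => by rw [hF.change e e' x w hx hx', hG.change e e' x w hx hx'],
    fun e x w hx => (hF.smooth e x w hx).add (hG.smooth e x w hx)⟩

lemma SmTFun.mul (hF : SmTFun F) (hG : SmTFun G) : SmTFun fun e z w => F e z w * G e z w :=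
  ⟨fun e e' x w hx hx' => by rw [hF.change e e' x w hx hx', hG.change e e' x w hx hx'],
    fun e x w hx => (hF.smooth e x w hx).mul (hG.smooth e x w hx)⟩

lemma SmTFun.sub (hF : SmTFun F) (hG : SmTFun G) : SmTFun fun e z w => F e z w - G e z w :=
  ⟨fun e e' x w hx hx' => by rw [hF.change e e' x w hx hx', hG.change e e' x w hx hx'],
    fun e x w hx => (hF.smooth e x w hx).sub (hG.smooth e x w hx)⟩

lemma SmTFun.const_mul (c : ℝ) (hF : SmTFun F) : SmTFun fun e z w => c * F e z w :=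
  (SmTFun.const c).mul hF

lemma SmTFun.pow (hF : SmTFun F) (k : ℕ) : SmTFun fun e z w => F e z w ^ k :=
  ⟨fun e e' x w hx hx' => by rw [hF.change e e' x w hx hx'],
    fun e x w hx => (hF.smooth e x w hx).pow k⟩

lemma SmTFun.div (hF : SmTFun F) (hG : SmTFun G) (h0 : ∀ e x w, At e x → G e (e x) w ≠ 0) :
    SmTFun fun e z w => F e z w / G e z w :=
  ⟨fun e e' x w hx hx' => by rw [hF.change e e' x w hx hx', hG.change e e' x w hx hx'],
    fun e x w hx => (hF.smooth e x w hx).div (hG.smooth e x w hx) (h0 e x w hx)⟩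

lemma CTFun.add (hF : CTFun F) (hG : CTFun G) : CTFun fun e z w => F e z w + G e z w :=
  ⟨fun e e' x w hx hx' => by rw [hF.change e e' x w hx hx', hG.change e e' x w hx hx'],
    fun e x w hx => (hF.cont e x w hx).add (hG.cont e x w hx)⟩

lemma CTFun.mul (hF : CTFun F) (hG : CTFun G) : CTFun fun e z w => F e z w * G e z w :=
  ⟨fun e e' x w hx hx' => by rw [hF.change e e' x w hx hx', hG.change e e' x w hx hx'],
    fun e x w hx => (hF.cont e x w hx).mul (hG.cont e x w hx)⟩

lemma CTFun.const (c : ℝ) : CTFun (fun (_ : Chart n X) (_ _ : Cm n) => c) :=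
  ⟨fun _ _ _ _ _ _ => rfl, fun _ _ _ _ => continuousAt_const⟩

lemma CTFun.const_mul (c : ℝ) (hF : CTFun F) : CTFun fun e z w => c * F e z w :=
  (CTFun.const c).mul hF

/-! ### smoothness in one chart -/

section smooth
variable {H K : Cm n → Matrix (Fin n) (Fin n) ℂ} {z w : Cm n}

lemma cd_curv (hH : ∀ i j, ContDiffAt ℝ ∞ (fun y => H y i j) z) (h0 : (H z).det ≠ 0)
    (i j k l : Fin n) : ContDiffAt ℝ ∞ (fun p : Cm n × Cm n => curv H p.1 i j k l) (z, w) :=
  cd_fst (p := (z, w)) (contDiffAt_curv hH h0 i j k l)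

lemma cd_quart (hH : ∀ i j, ContDiffAt ℝ ∞ (fun y => H y i j) z) (h0 : (H z).det ≠ 0) :
    ContDiffAt ℝ ∞ (fun p : Cm n × Cm n => quart (curv H p.1) p.2) (z, w) := by
  unfold quart
  refine ContDiffAt.sum fun i _ => ContDiffAt.sum fun j _ => ContDiffAt.sum fun k _ =>
    ContDiffAt.sum fun l _ => (cd_curv hH h0 i j k l).mul ?_
  exact (((cd_coord i _).mul (cd_cj_coord j _)).mul (cd_coord k _)).mul (cd_cj_coord l _)

lemma cd_xiL (hH : ∀ i j, ContDiffAt ℝ ∞ (fun y => H y i j) z) (h0 : (H z).det ≠ 0) (l : Fin n) :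
    ContDiffAt ℝ ∞ (fun p : Cm n × Cm n => xiL H p.1 p.2 l) (z, w) := by
  unfold xiL
  refine ContDiffAt.sum fun i _ => ContDiffAt.sum fun j _ => ContDiffAt.sum fun k _ =>
    (cd_curv hH h0 i j k l).mul ?_
  exact ((cd_coord i _).mul (cd_cj_coord j _)).mul (cd_coord k _)

lemma cd_xiV (hH : ∀ i j, ContDiffAt ℝ ∞ (fun y => H y i j) z) (h0 : (H z).det ≠ 0) (m : Fin n) :
    ContDiffAt ℝ ∞ (fun p : Cm n × Cm n => xiV H p.1 p.2 m) (z, w) := by
  unfold xiV
  exact ContDiffAt.sum fun l _ => (cd_xiL hH h0 l).mul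
    (cd_fst (p := (z, w)) (contDiffAt_inv hH h0 l m))

/-- `h(V, V)` for a vector depending smoothly on `(z, w)` -/
lemma cd_quad_vec {V : Cm n × Cm n → Cm n} (hH : ∀ i j, ContDiffAt ℝ ∞ (fun y => H y i j) z)
    (hV : ∀ m, ContDiffAt ℝ ∞ (fun p => V p m) (z, w)) :
    ContDiffAt ℝ ∞ (fun p : Cm n × Cm n => (quad (H p.1) (V p)).re) (z, w) := by
  unfold quad
  refine Complex.reCLM.contDiff.contDiffAt.comp (z, w) ?_
  refine ContDiffAt.sum fun i _ => ContDiffAt.sum fun j _ =>
    (cd_fst (p := (z, w)) (hH i j)).mul ((hV i).mul ?_)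
  exact Complex.conjCLE.contDiff.contDiffAt.comp (z, w) (hV j)

/-- `dGam` is the difference of the Christoffel vectors -/
lemma dGam_eq (g h : Cm n → Matrix (Fin n) (Fin n) ℂ) (z w : Cm n) :
    P1.dGam g h z w = chr h z w - chr g z w := by
  funext m
  unfold P1.dGam chr P1.Gam
  simp only [Pi.sub_apply, Matrix.sub_apply, Matrix.mul_apply, C2.DM_apply, mul_sub,
    Finset.sum_sub_distrib]

end smooth

variable [IsManifold 𝓘(ℂ, Cm n) ω X]

theorem nq_smTFun (hh : IsHermitian h) : SmTFun (nq h) where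
  change e e' x w hx hx' := by unfold nq; rw [quad_change hh hx hx']
  smooth e x w hx := cd_re_quad (p := (e x, w)) (hh.smooth e x hx)

lemma nq_nonneg (hh : IsHermitian h) (hx : At e x) (w : Cm n) : 0 ≤ nq h e (e x) w :=
  quad_nonneg (hh.posDef e x hx).posSemidef w

theorem Rq_smTFun (hh : IsHermitian h) : SmTFun (Rq h) where
  change e e' x w hx hx' := by unfold Rq; rw [quart_change hh hx hx']
  smooth e x w hx := (Complex.reCLM.contDiff.contDiffAt.comp (e x, w)
    (cd_quart (hh.smooth e x hx) (hh.det_ne_zero hx))).neg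

theorem Pq_smTFun (hg : IsHermitian g) (hh : IsHermitian h) : SmTFun (Pq g h) where
  change e e' x w hx hx' := by
    unfold Pq
    rw [quad_change hh hx hx', dGam_change hg hh hx hx']
  smooth e x w hx := by
    refine cd_quad_vec (V := fun p => P1.dGam (g e) (h e) p.1 p.2) (hh.smooth e x hx) fun m => ?_
    have h1 := cd_chr (p := (e x, w)) (hh.smooth e x hx) (hh.det_ne_zero hx) m
    have h2 := cd_chr (p := (e x, w)) (hg.smooth e x hx) (hg.det_ne_zero hx) m
    simp only [dGam_eq, Pi.sub_apply]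
    exact h1.sub h2

lemma Pq_nonneg (g) (hh : IsHermitian h) (hx : At e x) (w : Cm n) : 0 ≤ Pq g h e (e x) w :=
  quad_nonneg (hh.posDef e x hx).posSemidef _

/-- `|R^h(w,w̄)w|_h²` -/
theorem xiq_smTFun (hh : IsHermitian h) : SmTFun fun e z w => (quad (h e z) (xiV (h e) z w)).re where
  change e e' x w hx hx' := by
    show (quad (h e (e x)) (xiV (h e) (e x) w)).re = (quad (h e' (e' x)) (xiV (h e') (e' x)
      (jacM e e' x *ᵥ w))).re
    rw [quad_change hh hx hx', xiV_change hh hx hx']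
  smooth e x w hx := cd_quad_vec (V := fun p => xiV (h e) p.1 p.2) (hh.smooth e x hx)
    fun m => cd_xiV (hh.smooth e x hx) (hh.det_ne_zero hx) m

theorem Dq_smTFun (hh : IsHermitian h) : SmTFun (Dq h) :=
  (xiq_smTFun hh).div ((SmTFun.const 1).add (nq_smTFun hh)) fun e x w hx => by
    have := nq_nonneg hh hx w
    positivity

lemma Dq_nonneg (hh : IsHermitian h) (hx : At e x) (w : Cm n) : 0 ≤ Dq h e (e x) w :=
  div_nonneg (quad_nonneg (hh.posDef e x hx).posSemidef _) (by
    have := nq_nonneg hh hx w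
    unfold nq at this
    linarith)

omit [IsManifold 𝓘(ℂ, Cm n) ω X] in
lemma Rq_nonneg (hneg : NonposHSC h) (hx : At e x) (w : Cm n) : 0 ≤ Rq h e (e x) w := by
  have := hneg e x hx w
  unfold Rq quart
  exact neg_nonneg.2 this

end Vale.Agent.P272.K.T4
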