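import Vale.Agent.P272.K.T4.Fun
import Vale.Agent.P272.K.T4.EmbField
import Mathlib.Analysis.SpecialFunctions.SmoothTransition
import Mathlib.Analysis.SpecialFunctions.Sqrt

/-! P272/T4, block (B2e): homogenisation of test functions, calculus. -/

open scoped Manifold ContDiff ComplexOrder Topology Matrix
open Set Metric Filter

set_option linter.all false

noncomputable section

namespace Vale.Agent.P272.K.T4

variable {n : ℕ}

/-! ### the cutoff -/

/-- a smooth function which is `s^{3/2}` for `s ≥ 2` and vanishes for `s ≤ 1` -/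
def kap (s : ℝ) : ℝ := Real.smoothTransition (s - 1) * (√s) ^ 3

lemma kap_zero {s : ℝ} (h : s ≤ 1) : kap s = 0 := by
  rw [kap, Real.smoothTransition.zero_of_nonpos (by linarith), zero_mul]

lemma kap_of_ge {s : ℝ} (h : 2 ≤ s) : kap s = (√s) ^ 3 := by
  rw [kap, Real.smoothTransition.one_of_one_le (by linarith), one_mul]

lemma kap_nonneg (s : ℝ) : 0 ≤ kap s :=
  mul_nonneg (Real.smoothTransition.nonneg _) (by positivity)

lemma kap_le (s : ℝ) : kap s ≤ (√s) ^ 3 := by
  have h1 := Real.smoothTransition.le_one (s - 1)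
  have h2 : 0 ≤ (√s) ^ 3 := by positivity
  unfold kap
  nlinarith

lemma kap_contDiffAt (s : ℝ) : ContDiffAt ℝ ∞ kap s := by
  by_cases hs : s < 1
  · have : kap =ᶠ[𝓝 s] fun _ => 0 := by
      filter_upwards [eventually_lt_nhds hs] with t ht using kap_zero ht.le
    exact contDiffAt_const.congr_of_eventuallyEq this
  · have hs0 : s ≠ 0 := by
      intro h; rw [h] at hs; norm_num at hs
    have h1 : ContDiffAt ℝ ∞ (fun s : ℝ => Real.smoothTransition (s - 1)) s :=
      (Real.smoothTransition.contDiff (n := (⊤ : ℕ∞))).contDiffAt.comp s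
        (contDiffAt_id.sub contDiffAt_const)
    exact h1.mul ((Real.contDiffAt_sqrt hs0).pow 3)

lemma kap_contDiff : ContDiff ℝ ∞ kap := contDiff_iff_contDiffAt.2 kap_contDiffAt

lemma exists_deriv_kap : ∃ C, 0 ≤ C ∧ ∀ s, |deriv kap s| ≤ C * √s := by
  have hc : Continuous (deriv kap) := kap_contDiff.continuous_deriv (by simp)
  obtain ⟨B, hB⟩ := (isCompact_Icc (a := (1 : ℝ)) (b := 2)).exists_bound_of_continuousOn
    hc.continuousOn
  refine ⟨|B| + 2, by positivity, fun s => ?_⟩
  rcases lt_trichotomy s 1 with h | h | h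
  · have : kap =ᶠ[𝓝 s] fun _ => 0 := by
      filter_upwards [eventually_lt_nhds h] with t ht using kap_zero ht.le
    rw [this.deriv_eq, deriv_const, abs_zero]
    positivity
  · have h1 := hB s ⟨h.ge, by linarith⟩
    rw [Real.norm_eq_abs] at h1
    rw [h, Real.sqrt_one, mul_one]
    rw [h] at h1
    linarith [le_abs_self B]
  · by_cases h2 : s ≤ 2
    · have h1 := hB s ⟨h.le, h2⟩
      rw [Real.norm_eq_abs] at h1
      have h3 : 1 ≤ √s := by
        rw [← Real.sqrt_one]
        exact Real.sqrt_le_sqrt h.le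
      have h4 : |B| + 2 ≤ (|B| + 2) * √s := by nlinarith [abs_nonneg B]
      linarith [le_abs_self B]
    · have h5 : kap =ᶠ[𝓝 s] fun s => (√s) ^ 3 := by
        filter_upwards [eventually_gt_nhds (not_le.1 h2)] with t ht using kap_of_ge ht.le
      have hs0 : s ≠ 0 := by linarith
      have h6 : HasDerivAt (fun s => (√s) ^ 3) (3 * (√s) ^ 2 * (1 / (2 * √s))) s := by
        have := (Real.hasDerivAt_sqrt hs0).fun_pow 3
        simpa using this
      have hpos : 0 < √s := Real.sqrt_pos.2 (by linarith)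
      rw [h5.deriv_eq, h6.deriv]
      have h7 : 3 * (√s) ^ 2 * (1 / (2 * √s)) = 3 / 2 * √s := by
        field_simp
      rw [h7, abs_of_nonneg (by positivity)]
      nlinarith [abs_nonneg B]

/-! ### the quadratic form -/

/-- the polar form -/
def bil (M : Matrix (Fin n) (Fin n) ℂ) (w v : Cm n) : ℂ :=
  ∑ i, ∑ j, M i j * (w i * cj (v j) + v i * cj (w j))

lemma quad_add_smul (M : Matrix (Fin n) (Fin n) ℂ) (w v : Cm n) (t : ℝ) :
    quad M (w + t • v) = quad M w + t * bil M w v + (t : ℂ) ^ 2 * quad M v := by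
  unfold quad bil
  simp only [Finset.mul_sum, ← Finset.sum_add_distrib]
  refine Finset.sum_congr rfl fun i _ => Finset.sum_congr rfl fun j _ => ?_
  simp only [Pi.add_apply, Pi.smul_apply, Complex.real_smul, cj, map_add, map_mul,
    Complex.conj_ofReal]
  ring

lemma quad_real_smul (M : Matrix (Fin n) (Fin n) ℂ) (r : ℝ) (w : Cm n) :
    (quad M (r • w)).re = r ^ 2 * (quad M w).re := by
  have h1 : r • w = fun i => (r : ℂ) * w i := by
    funext i; simp
  rw [h1, quad_smul, Complex.re_ofReal_mul]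

section real
variable {z : Cm n} {k : Fin n}

lemma real_dzb {f : Cm n → ℝ} (hf : DifferentiableAt ℝ f z) :
    dzb k (fun y => (f y : ℂ)) z = cj (dz k (fun y => (f y : ℂ)) z) := by
  have h1 : DifferentiableAt ℝ (fun y => (f y : ℂ)) z :=
    Complex.ofRealCLM.differentiableAt.comp z hf
  have h2 := dzb_cj (i := k) h1
  have h3 : (fun y => cj (f y : ℂ)) = fun y => (f y : ℂ) := by
    funext y; simp [cj]
  rw [h3] at h2
  exact h2

lemma fderiv_ofReal {E : Type*} [NormedAddCommGroup E] [NormedSpace ℝ E] {f : E → ℝ} {p : E}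
    (hf : DifferentiableAt ℝ f p) (v : E) :
    fderiv ℝ (fun y => (f y : ℂ)) p v = ((fderiv ℝ f p v : ℝ) : ℂ) := by
  have h1 : HasFDerivAt (fun y => (f y : ℂ)) _ p :=
    Complex.ofRealCLM.hasFDerivAt.comp p hf.hasFDerivAt
  rw [h1.fderiv]; rfl

end real

/-! ### on the manifold -/

variable {X : Type*} [TopologicalSpace X] [ChartedSpace (Cm n) X]
  {h : Chart n X → Cm n → Matrix (Fin n) (Fin n) ℂ} {e e' : Chart n X} {x : X}
  {Φ : Chart n X → Cm n → Cm n → ℝ}

section
variable [IsManifold 𝓘(ℂ, Cm n) ω X]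

lemma nq_diff (hh : IsHermitian h) (hx : At e x) (w : Cm n) :
    DifferentiableAt ℝ (fun p : Cm n × Cm n => nq h e p.1 p.2) (e x, w) :=
  ((nq_smTFun hh).smooth e x w hx).differentiableAt (by simp)

/-- the spray is tangent to the sphere bundles -/
lemma nq_spray (hh : IsHermitian h) (hx : At e x) (b : ℂ) (w : Cm n) :
    fderiv ℝ (fun p : Cm n × Cm n => nq h e p.1 p.2) (e x, w) (spray (h e) b (e x, w)) = 0 := by
  set f : Cm n × Cm n → ℝ := fun p => nq h e p.1 p.2 with hf
  have hd : DifferentiableAt ℝ f (e x, w) := nq_diff hh hx w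
  have hdc : DifferentiableAt ℝ (fun p => (f p : ℂ)) (e x, w) :=
    Complex.ofRealCLM.differentiableAt.comp _ hd
  have hsm : ∀ i j, DifferentiableAt ℝ (fun y => h e y i j) (e x) := fun i j =>
    (hh.smooth e x hx i j).differentiableAt (by simp)
  have hherm : ∀ᶠ y in 𝓝 (e x), (h e y).IsHermitian := by
    filter_upwards [hx.nhds_target] with y hy
    exact (hh.posDef_target hx.1 hy).isHermitian
  have hq1 : DifferentiableAt ℝ (fun y => (quad (h e y) w).re) (e x) :=
    re_diff (diff_quad_fst hsm)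
  have hq2 : DifferentiableAt ℝ (fun y => (quad (h e (e x)) y).re) w := re_diff (diff_quad_snd _)
  have hu : IsUnit (h e (e x)).det := (hh.posDef e x hx).det_pos.ne'.isUnit
  -- decompose the derivative
  have h1 : fderiv ℝ (fun p => (f p : ℂ)) (e x, w) (spray (h e) b (e x, w)) =
      fderiv ℝ (fun y => (((quad (h e y) w).re : ℝ) : ℂ)) (e x) (b • w) +
      fderiv ℝ (fun y => (((quad (h e (e x)) y).re : ℝ) : ℂ)) w (-(b • chr (h e) (e x) w)) := by
    have e1 := fderiv_fst (p := (e x, w)) hdc (b • w)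
    have e2 := fderiv_snd (p := (e x, w)) hdc (-(b • chr (h e) (e x) w))
    have e3 : spray (h e) b (e x, w) = (b • w, (0 : Cm n)) + ((0 : Cm n),
        -(b • chr (h e) (e x) w)) := by
      simp [spray]
    rw [e3, map_add]
    exact congrArg₂ _ e1.symm e2.symm
  have h2 : fderiv ℝ (fun y => (((quad (h e y) w).re : ℝ) : ℂ)) (e x) (b • w) =
      ∑ k, (quad (dM k (h e) (e x)) w * (b * w k) + cj (quad (dM k (h e) (e x)) w * (b * w k))) := by
    rw [fderiv_eq]
    refine Finset.sum_congr rfl fun k _ => ?_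
    rw [real_dzb hq1, dz_re_quad_fst hsm hherm, Pi.smul_apply, smul_eq_mul]
    simp only [cj, map_mul]
  have h3 : fderiv ℝ (fun y => (((quad (h e (e x)) y).re : ℝ) : ℂ)) w
      (-(b • chr (h e) (e x) w)) =
      ∑ m, (-((∑ j, h e (e x) m j * cj (w j)) * (b * chr (h e) (e x) w m)) +
        -cj ((∑ j, h e (e x) m j * cj (w j)) * (b * chr (h e) (e x) w m))) := by
    rw [fderiv_eq]
    refine Finset.sum_congr rfl fun m _ => ?_
    rw [real_dzb hq2, dz_re_quad_snd hherm.self_of_nhds, Pi.neg_apply, Pi.smul_apply, smul_eq_mul]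
    simp only [cj, map_mul, map_neg, mul_neg]
  have h4 : ∑ k, quad (dM k (h e) (e x)) w * (b * w k) =
      ∑ m, (∑ j, h e (e x) m j * cj (w j)) * (b * chr (h e) (e x) w m) := by
    have := chr_quad (g := h e) (z := e x) (w := w) hu
    calc ∑ k, quad (dM k (h e) (e x)) w * (b * w k)
        = b * ∑ k, w k * quad (dM k (h e) (e x)) w := by
          rw [Finset.mul_sum]; exact Finset.sum_congr rfl fun k _ => by ring
      _ = b * ∑ m, chr (h e) (e x) w m * ∑ j, h e (e x) m j * cj (w j) := by rw [this]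
      _ = _ := by
          rw [Finset.mul_sum]; exact Finset.sum_congr rfl fun k _ => by ring
  have h5 : fderiv ℝ (fun p => (f p : ℂ)) (e x, w) (spray (h e) b (e x, w)) = 0 := by
    rw [h1, h2, h3, Finset.sum_add_distrib, Finset.sum_add_distrib, Finset.sum_neg_distrib,
      Finset.sum_neg_distrib]
    have h6 : ∀ (F : Fin n → ℂ), ∑ m, cj (F m) = cj (∑ m, F m) := fun F => by
      simp only [cj, map_sum]
    rw [h6, h6, h4]
    ring
  rw [fderiv_ofReal hd] at h5
  exact_mod_cast h5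

/-- Cauchy–Schwarz for the vertical derivative of `|w|_h²` -/
lemma Wd_nq_sq_le (hh : IsHermitian h) (hx : At e x) (w v : Cm n) :
    (Wd (nq h) e (e x) w v) ^ 2 ≤ 4 * nq h e (e x) w * nq h e (e x) v := by
  have hpd := (hh.posDef e x hx).posSemidef
  have hexp : ∀ t : ℝ, nq h e (e x) (w + t • v) = nq h e (e x) w + t * (bil (h e (e x)) w v).re +
      t ^ 2 * nq h e (e x) v := by
    intro t
    unfold nq
    rw [quad_add_smul, Complex.add_re, Complex.add_re, Complex.re_ofReal_mul, ← Complex.ofReal_pow,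
      Complex.re_ofReal_mul]
  have hW : Wd (nq h) e (e x) w v = (bil (h e (e x)) w v).re := by
    have hd := nq_diff hh hx w
    have h1 : HasDerivAt (fun t : ℝ => ((e x, w + t • v) : Cm n × Cm n)) ((0 : Cm n), v) 0 := by
      have h2 : HasDerivAt (fun t : ℝ => w + t • v) v 0 := by
        have := ((hasDerivAt_id (0 : ℝ)).smul_const v).const_add w
        simpa using this
      exact (hasDerivAt_const (0 : ℝ) (e x)).prodMk h2
    have h3 : HasFDerivAt (fun p : Cm n × Cm n => nq h e p.1 p.2)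
        (fderiv ℝ (fun p : Cm n × Cm n => nq h e p.1 p.2) (e x, w)) (e x, w + (0 : ℝ) • v) := by
      rw [zero_smul, add_zero]; exact hd.hasFDerivAt
    have h4 : HasDerivAt ((fun p : Cm n × Cm n => nq h e p.1 p.2) ∘
        fun t : ℝ => ((e x, w + t • v) : Cm n × Cm n)) _ 0 := h3.comp_hasDerivAt (0 : ℝ) h1
    have h5 : HasDerivAt (fun t : ℝ => nq h e (e x) w + t * (bil (h e (e x)) w v).re +
        t ^ 2 * nq h e (e x) v) ((bil (h e (e x)) w v).re) 0 := by
      have a1 : HasDerivAt (fun t : ℝ => nq h e (e x) w + t * (bil (h e (e x)) w v).re)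
          ((bil (h e (e x)) w v).re) 0 := by
        have := ((hasDerivAt_id (0 : ℝ)).mul_const ((bil (h e (e x)) w v).re)).const_add
          (nq h e (e x) w)
        simpa using this
      have a2 : HasDerivAt (fun t : ℝ => t ^ 2 * nq h e (e x) v) 0 0 := by
        have := ((hasDerivAt_id (0 : ℝ)).fun_pow 2).mul_const (nq h e (e x) v)
        simpa using this
      have := a1.fun_add a2
      rw [add_zero] at this
      exact this
    have h6 : ((fun p : Cm n × Cm n => nq h e p.1 p.2) ∘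
        fun t : ℝ => ((e x, w + t • v) : Cm n × Cm n)) = fun t : ℝ => nq h e (e x) w +
        t * (bil (h e (e x)) w v).re + t ^ 2 * nq h e (e x) v := funext hexp
    rw [h6] at h4
    exact h4.unique h5
  rw [hW]
  have hnn : ∀ t : ℝ, 0 ≤ nq h e (e x) v * (t * t) + (bil (h e (e x)) w v).re * t +
      nq h e (e x) w := by
    intro t
    have h1 : 0 ≤ nq h e (e x) (w + t • v) := quad_nonneg hpd _
    rw [hexp t] at h1
    nlinarith
  have := discrim_le_zero hnn
  unfold discrim at this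
  linarith

lemma abs_Wd_nq_le (hh : IsHermitian h) (hx : At e x) (w v : Cm n) :
    |Wd (nq h) e (e x) w v| ≤ 2 * √(nq h e (e x) w) * √(nq h e (e x) v) := by
  have h1 := Wd_nq_sq_le hh hx w v
  have hw := nq_nonneg hh hx w
  have hv := nq_nonneg hh hx v
  refine abs_le_of_sq_le_sq ?_ (by positivity)
  rw [mul_pow, mul_pow, Real.sq_sqrt hw, Real.sq_sqrt hv]
  linarith

/-! ### homogenisation -/

/-- the point of the unit sphere -/
def nrm (h : Chart n X → Cm n → Matrix (Fin n) (Fin n) ℂ) (e : Chart n X) (z w : Cm n) : Cm n :=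
  (√(nq h e z w))⁻¹ • w

/-- the homogenisation of a function on the unit sphere bundle -/
def hom (h : Chart n X → Cm n → Matrix (Fin n) (Fin n) ℂ) (Φ : Chart n X → Cm n → Cm n → ℝ)
    (e : Chart n X) (z w : Cm n) : ℝ := kap (nq h e z w) * Φ e z (nrm h e z w)

lemma nq_nrm {w : Cm n} (hq : 0 < nq h e (e x) w) : nq h e (e x) (nrm h e (e x) w) = 1 := by
  unfold nrm
  have : nq h e (e x) ((√(nq h e (e x) w))⁻¹ • w) =
      ((√(nq h e (e x) w))⁻¹) ^ 2 * nq h e (e x) w := by
    unfold nq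
    exact quad_real_smul _ _ _
  rw [this, inv_pow, Real.sq_sqrt hq.le, inv_mul_cancel₀ hq.ne']

lemma hom_zero_near (hh : IsHermitian h) (hx : At e x) {w : Cm n} (hq : nq h e (e x) w < 1) :
    (fun p : Cm n × Cm n => hom h Φ e p.1 p.2) =ᶠ[𝓝 (e x, w)] fun _ => 0 := by
  have h1 := ((nq_smTFun hh).smooth e x w hx).continuousAt.eventually_lt_const hq
  filter_upwards [h1] with p hp
  unfold hom
  rw [kap_zero hp.le, zero_mul]

lemma nrm_contDiffAt (hh : IsHermitian h) (hx : At e x) {w : Cm n} (hq : 0 < nq h e (e x) w) :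
    ContDiffAt ℝ ∞ (fun p : Cm n × Cm n => ((p.1, nrm h e p.1 p.2) : Cm n × Cm n)) (e x, w) := by
  have h1 := (nq_smTFun hh).smooth e x w hx
  have h2 : ContDiffAt ℝ ∞ (fun p : Cm n × Cm n => (√(nq h e p.1 p.2))⁻¹) (e x, w) :=
    (h1.sqrt hq.ne').inv (Real.sqrt_pos.2 hq).ne'
  exact contDiffAt_fst.prodMk (h2.smul contDiffAt_snd)

lemma hom_smTFun (hh : IsHermitian h) (hΦ : SmTFun Φ) : SmTFun (hom h Φ) where
  change e e' x w hx hx' := by
    unfold hom nrm
    rw [← (nq_smTFun hh).change e e' x w hx hx', hΦ.change e e' x _ hx hx', Matrix.mulVec_smul]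
  smooth e x w hx := by
    by_cases hq : nq h e (e x) w < 1
    · exact contDiffAt_const.congr_of_eventuallyEq (hom_zero_near hh hx hq)
    · have hq0 : 0 < nq h e (e x) w := by linarith
      have h1 := (nq_smTFun hh).smooth e x w hx
      have h2 := nrm_contDiffAt hh hx hq0
      have h3 : ContDiffAt ℝ ∞ (fun p : Cm n × Cm n => Φ e p.1 p.2) (e x, nrm h e (e x) w) :=
        hΦ.smooth e x _ hx
      have h4 : ContDiffAt ℝ ∞ (fun p : Cm n × Cm n => Φ e p.1 (nrm h e p.1 p.2)) (e x, w) :=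
        ContDiffAt.comp (g := fun p : Cm n × Cm n => Φ e p.1 p.2)
          (f := fun p : Cm n × Cm n => ((p.1, nrm h e p.1 p.2) : Cm n × Cm n)) (e x, w) h3 h2
      exact ((kap_contDiffAt _).comp (e x, w) h1).mul h4

/-- the derivative of the homogenisation -/
lemma hom_fderiv (hh : IsHermitian h) (hΦ : SmTFun Φ) (hx : At e x) {w : Cm n}
    (hq : 0 < nq h e (e x) w) (a v : Cm n) :
    fderiv ℝ (fun p : Cm n × Cm n => hom h Φ e p.1 p.2) (e x, w) (a, v) =
      deriv kap (nq h e (e x) w) *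
        fderiv ℝ (fun p : Cm n × Cm n => nq h e p.1 p.2) (e x, w) (a, v) *
          Φ e (e x) (nrm h e (e x) w) +
      kap (nq h e (e x) w) * fderiv ℝ (fun p : Cm n × Cm n => Φ e p.1 p.2)
        (e x, nrm h e (e x) w) (a, (√(nq h e (e x) w))⁻¹ • v -
          (fderiv ℝ (fun p : Cm n × Cm n => nq h e p.1 p.2) (e x, w) (a, v) /
            (2 * nq h e (e x) w * √(nq h e (e x) w))) • w) := by
  set q := nq h e (e x) w with hqdef
  have hs : 0 < √q := Real.sqrt_pos.2 hq
  have hN := (nq_diff hh hx w).hasFDerivAt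
  set L := fderiv ℝ (fun p : Cm n × Cm n => nq h e p.1 p.2) (e x, w) with hL
  have h1 : HasFDerivAt (fun p : Cm n × Cm n => kap (nq h e p.1 p.2)) (deriv kap q • L) (e x, w) :=
    HasDerivAt.comp_hasFDerivAt (h₂ := kap) (f := fun p : Cm n × Cm n => nq h e p.1 p.2) (e x, w)
      ((kap_contDiffAt q).differentiableAt (by simp)).hasDerivAt hN
  have h2 : HasFDerivAt (fun p : Cm n × Cm n => (√(nq h e p.1 p.2))⁻¹)
      ((-(1 / (2 * q * √q))) • L) (e x, w) := by
    have a1 : HasDerivAt (fun s : ℝ => (√s)⁻¹) (-(1 / (2 * √q)) / (√q) ^ 2) q :=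
      (Real.hasDerivAt_sqrt hq.ne').fun_inv hs.ne'
    have a2 : -(1 / (2 * √q)) / (√q) ^ 2 = -(1 / (2 * q * √q)) := by
      rw [Real.sq_sqrt hq.le]
      field_simp
    rw [a2] at a1
    exact HasDerivAt.comp_hasFDerivAt (h₂ := fun s : ℝ => (√s)⁻¹)
      (f := fun p : Cm n × Cm n => nq h e p.1 p.2) (e x, w) a1 hN
  have h3 : HasFDerivAt (fun p : Cm n × Cm n => ((p.1, nrm h e p.1 p.2) : Cm n × Cm n))
      ((ContinuousLinearMap.fst ℝ (Cm n) (Cm n)).prod
        ((√q)⁻¹ • ContinuousLinearMap.snd ℝ (Cm n) (Cm n) +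
          ((-(1 / (2 * q * √q))) • L).smulRight w)) (e x, w) :=
    hasFDerivAt_fst.prodMk (h2.smul hasFDerivAt_snd)
  have h4 : HasFDerivAt (fun p : Cm n × Cm n => Φ e p.1 p.2)
      (fderiv ℝ (fun p : Cm n × Cm n => Φ e p.1 p.2) (e x, nrm h e (e x) w))
      (e x, nrm h e (e x) w) :=
    ((hΦ.smooth e x _ hx).differentiableAt (by simp)).hasFDerivAt
  have h5 : HasFDerivAt (fun p : Cm n × Cm n => Φ e p.1 (nrm h e p.1 p.2)) _ (e x, w) :=
    HasFDerivAt.comp (g := fun p : Cm n × Cm n => Φ e p.1 p.2)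
      (f := fun p : Cm n × Cm n => ((p.1, nrm h e p.1 p.2) : Cm n × Cm n)) (e x, w) h4 h3
  have h6 : HasFDerivAt (fun p : Cm n × Cm n => hom h Φ e p.1 p.2) _ (e x, w) := h1.fun_mul h5
  rw [h6.fderiv]
  simp only [add_apply, smul_apply, ContinuousLinearMap.comp_apply,
    ContinuousLinearMap.prod_apply, ContinuousLinearMap.coe_fst', ContinuousLinearMap.coe_snd',
    ContinuousLinearMap.smulRight_apply, smul_eq_mul]
  rw [add_comm]
  congr 1
  · show Φ e (e x) (nrm h e (e x) w) * (deriv kap q * L (a, v)) = _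
    ring
  · show kap q * _ = kap q * _
    congr 2
    rw [sub_eq_add_neg, ← neg_smul]
    congr 3
    ring

/-- the spray derivative of the homogenisation -/
lemma Yd_hom (hh : IsHermitian h) (hΦ : SmTFun Φ) (hx : At e x) {w : Cm n}
    (hq : 0 < nq h e (e x) w) (b : ℂ) :
    Yd h b (hom h Φ) e (e x) w =
      kap (nq h e (e x) w) * √(nq h e (e x) w) * Yd h b Φ e (e x) (nrm h e (e x) w) := by
  unfold Yd
  have h0 := nq_spray hh hx b w
  have h1 := hom_fderiv hh hΦ hx hq (b • w) (-(b • chr (h e) (e x) w))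
  have h2 : spray (h e) b (e x, w) = (b • w, -(b • chr (h e) (e x) w)) := rfl
  rw [← h2, h0] at h1
  rw [h1, mul_zero, zero_mul, zero_add, zero_div, zero_smul, sub_zero, mul_assoc]
  congr 1
  set r := √(nq h e (e x) w) with hr
  have hs : 0 < r := Real.sqrt_pos.2 hq
  rw [← smul_eq_mul (a := r), ← map_smul]
  congr 1
  refine Prod.ext ?_ ?_
  · show b • w = r • (b • nrm h e (e x) w)
    unfold nrm
    rw [smul_comm r b, smul_smul r, ← hr, mul_inv_cancel₀ hs.ne', one_smul]
  · show r⁻¹ • -(b • chr (h e) (e x) w) = r • -(b • chr (h e) (e x) (nrm h e (e x) w))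
    have h3 : chr (h e) (e x) (nrm h e (e x) w) = (r⁻¹) ^ 2 • chr (h e) (e x) w := by
      funext m
      unfold chr nrm
      rw [Pi.smul_apply, ← hr]
      rw [Finset.smul_sum]
      refine Finset.sum_congr rfl fun i _ => ?_
      rw [Finset.smul_sum]
      refine Finset.sum_congr rfl fun k _ => ?_
      simp only [Pi.smul_apply, Complex.real_smul]
      push_cast
      ring
    rw [h3, smul_neg, smul_neg, smul_comm b, smul_smul]
    congr 2
    field_simp

/-- the vertical derivative of the homogenisation -/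
lemma Wd_hom_le (hh : IsHermitian h) (hΦ : SmTFun Φ) {B K : ℝ} (hB : 0 ≤ B) (hK : 0 ≤ K)
    (hkap : ∀ s, |deriv kap s| ≤ K * √s) (hx : At e x)
    (hb : ∀ u, nq h e (e x) u = 1 → |Φ e (e x) u| ≤ B ∧
      ∀ v, |Wd Φ e (e x) u v| ≤ B * √(nq h e (e x) v)) (w v : Cm n) :
    |Wd (hom h Φ) e (e x) w v| ≤ (2 * K * B + 2 * B) * nq h e (e x) w * √(nq h e (e x) v) := by
  have hqn := nq_nonneg hh hx w
  by_cases hq1 : nq h e (e x) w < 1
  · have h0 : Wd (hom h Φ) e (e x) w v = 0 := by
      unfold Wd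
      rw [(hom_zero_near hh hx hq1).fderiv_eq]
      simp
    rw [h0, abs_zero]
    positivity
  · have hq : 0 < nq h e (e x) w := by linarith
    set q := nq h e (e x) w with hqdef
    set s := √q with hsdef
    have hs : 0 < s := Real.sqrt_pos.2 hq
    have hss : s ^ 2 = q := Real.sq_sqrt hq.le
    set t := √(nq h e (e x) v) with htdef
    have ht : 0 ≤ t := Real.sqrt_nonneg _
    obtain ⟨b1, b2⟩ := hb _ (nq_nrm hq)
    have hD := abs_Wd_nq_le hh hx w v
    set D := Wd (nq h) e (e x) w v with hDdef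
    have h1 := hom_fderiv hh hΦ hx hq 0 v
    have h2 : Wd (hom h Φ) e (e x) w v = deriv kap q * D * Φ e (e x) (nrm h e (e x) w) +
        kap q * (s⁻¹ * Wd Φ e (e x) (nrm h e (e x) w) v -
          D / (2 * q * s) * Wd Φ e (e x) (nrm h e (e x) w) w) := by
      have h3 : ((0 : Cm n), (√(nq h e (e x) w))⁻¹ • v -
          (fderiv ℝ (fun p : Cm n × Cm n => nq h e p.1 p.2) (e x, w) (0, v) /
            (2 * nq h e (e x) w * √(nq h e (e x) w))) • w) =
          s⁻¹ • ((0 : Cm n), v) - (D / (2 * q * s)) • ((0 : Cm n), w) := by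
        refine Prod.ext ?_ rfl
        simp
      rw [h3, map_sub, map_smul, map_smul] at h1
      exact h1
    rw [h2]
    have c1 : |deriv kap q * D * Φ e (e x) (nrm h e (e x) w)| ≤ (K * s) * (2 * s * t) * B := by
      rw [abs_mul, abs_mul]
      gcongr
      exact hkap q
    have hkq : |kap q| ≤ s ^ 3 := by
      rw [abs_of_nonneg (kap_nonneg q)]; exact kap_le q
    have c2 : |s⁻¹ * Wd Φ e (e x) (nrm h e (e x) w) v| ≤ s⁻¹ * (B * t) := by
      rw [abs_mul, abs_of_nonneg (inv_nonneg.2 hs.le)]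
      gcongr
      exact b2 v
    have c3 : |D / (2 * q * s) * Wd Φ e (e x) (nrm h e (e x) w) w| ≤
        (2 * s * t) / (2 * q * s) * (B * s) := by
      rw [abs_mul, abs_div, abs_of_nonneg (show 0 ≤ 2 * q * s by positivity)]
      gcongr
      exact b2 w
    have c4 : (2 * s * t) / (2 * q * s) * (B * s) = s⁻¹ * (B * t) := by
      rw [← hss]
      field_simp
    have c5 : |kap q * (s⁻¹ * Wd Φ e (e x) (nrm h e (e x) w) v -
          D / (2 * q * s) * Wd Φ e (e x) (nrm h e (e x) w) w)| ≤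
        s ^ 3 * (s⁻¹ * (B * t) + s⁻¹ * (B * t)) := by
      rw [abs_mul]
      have := abs_sub (s⁻¹ * Wd Φ e (e x) (nrm h e (e x) w) v)
        (D / (2 * q * s) * Wd Φ e (e x) (nrm h e (e x) w) w)
      have h8 : |s⁻¹ * Wd Φ e (e x) (nrm h e (e x) w) v -
          D / (2 * q * s) * Wd Φ e (e x) (nrm h e (e x) w) w| ≤
          s⁻¹ * (B * t) + s⁻¹ * (B * t) := by
        linarith
      gcongr
    calc _ ≤ |deriv kap q * D * Φ e (e x) (nrm h e (e x) w)| +
          |kap q * (s⁻¹ * Wd Φ e (e x) (nrm h e (e x) w) v -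
          D / (2 * q * s) * Wd Φ e (e x) (nrm h e (e x) w) w)| := abs_add_le _ _
      _ ≤ (K * s) * (2 * s * t) * B + s ^ 3 * (s⁻¹ * (B * t) + s⁻¹ * (B * t)) := add_le_add c1 c5
      _ = (2 * K * B + 2 * B) * q * t := by
          rw [← hss]
          field_simp
          ring

end

end Vale.Agent.P272.K.T4
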