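import Vale.Agent.P272.K.T4.Stmt

/-!
# P272, third main statement (T4++)

A compact Kähler manifold which carries a Hermitian metric of nonpositive holomorphic sectional
curvature without flat complex geodesic lines, and whose canonical bundle is nef, satisfies
`c₁(K_X)^n > 0`.
-/

open scoped Manifold ContDiff ComplexOrder
open MeasureTheory

noncomputable section

namespace Vale.Agent.P272.K

section
variable {n : ℕ} {X : Type*} [TopologicalSpace X] [ChartedSpace (Cm n) X]

/-- The velocity of `f : ℂ → X` at `z`, in the chart `e`. -/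
def vel (f : ℂ → X) (e : Chart n X) (z : ℂ) : Cm n := deriv (fun ζ => e (f ζ)) z

/-- `f : ℂ → X` is a **flat line** of the Hermitian metric `h`: an entire curve of constant speed
one (so a complete holomorphic isometric immersion of the flat plane), which is a geodesic of the
Chern connection (`D_{f'} f' = 0`, i.e.
`f''_m + Σ Γ^m_{ik} f'_i f'_k = 0` with `Γ^m_{ik} = Σ_q ∂_i h_{k q̄} h^{q̄ m}`), and along which
`R^h(f', f̄', f', v̄) = 0` for all `v`. -/
structure IsFlatLine (h : Chart n X → Cm n → Matrix (Fin n) (Fin n) ℂ) (f : ℂ → X) : Prop where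
  /-- `f` is holomorphic -/
  holo : MDifferentiable 𝓘(ℂ, ℂ) 𝓘(ℂ, Cm n) f
  /-- `|f'|_h = 1` -/
  unit : ∀ z e, At e (f z) →
    ∑ i, ∑ j, h e (e (f z)) i j * (vel f e z i * (starRingEnd ℂ) (vel f e z j)) = 1
  /-- `f'' + Γ(f', f') = 0` -/
  geod : ∀ z e, At e (f z) → HasDerivAt (vel f e)
    (fun m => -∑ i, ∑ k, vel f e z i * vel f e z k *
      ∑ q, dz i (fun y => h e y k q) (e (f z)) * (h e (e (f z)))⁻¹ q m) z
  /-- `R(f', f̄', f', ·) = 0` -/
  flat : ∀ z e, At e (f z) → ∀ l, ∑ i, ∑ j, ∑ k, curv (h e) (e (f z)) i j k l *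
    (vel f e z i * (starRingEnd ℂ) (vel f e z j) * vel f e z k) = 0

end

/-- **Main statement (T4++).** Let `X` be a compact connected complex manifold of dimension `n ≥ 1`,
with a Kähler metric `w` and a Hermitian metric `h` (of any kind) of nonpositive holomorphic
sectional curvature which has no flat line. If `K_X + a[w]` is nef, `a ≥ 0`, then
`(K_X + a[w])^n > 0`. For `a = 0`: if `K_X` is nef, then `c₁(K_X)^n > 0`. -/
def NoFlatStatement : Prop :=
  ∀ (n : ℕ) (_ : 1 ≤ n) (X : Type) [TopologicalSpace X] [T2Space X] [CompactSpace X] [Nonempty X]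
    [ChartedSpace (Cm n) X] [IsManifold 𝓘(ℂ, Cm n) ω X]
    (w h : Chart n X → Cm n → Matrix (Fin n) (Fin n) ℂ) (_ : IsKahler w) (_ : IsHermitian h)
    (_ : NonposHSC h) (_ : ∀ f : ℂ → X, ¬ IsFlatLine h f) (a : ℝ) (_ : 0 ≤ a)
    (_ : NefCanonical w a) (φ : Chart n X → Cm n → ℝ) (_ : IsCanonicalMetric φ),
    ∃ I : ℝ, 0 < I ∧ IsIntegral (fun e z => (cHess (φ e) z + (a : ℂ) • w e z).det.re) I

end Vale.Agent.P272.K
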