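import Vale.Agent.P272.K.T4.Main
import Vale.Agent.P272.K.T4.Hom
import Vale.Agent.P272.K.T4.BlockA
import Vale.Agent.P272.K.T4.L5Final
import Vale.Agent.P272.K.Asm.Final

/-! T4+: everything except the local estimate `LocalL5`. -/

open scoped Manifold ContDiff ComplexOrder Topology

set_option linter.all false

noncomputable section

namespace Vale.Agent.P272.K.T4

theorem hypStatement_of_local (hL : ∀ n, LocalL5 n) : HypStatement :=
  hypStatement (fun n X _ _ _ _ _ _ _ =>
    ⟨dens n X, l1 n X, l2 n X, mom n X, l5_of_local (hL n) X, coer n X⟩)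
    (fun n X _ _ _ _ _ _ _ => aubinYau n X)

end Vale.Agent.P272.K.T4
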