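import Mathlib.Analysis.InnerProductSpace.Calculus
import Mathlib.Analysis.ODE.Gronwall

/-!
# Invariance of compact sets (Bony, Brezis)

If a vector field is orthogonal to all proximal normals of the compact set `K`, then integral
curves which start in `K` stay in `K`.
-/

open scoped RealInnerProductSpace Topology NNReal
open Set Filter Metric

noncomputable section

namespace Vale.Agent.P272.K.T4

variable {E : Type*} [NormedAddCommGroup E] [InnerProductSpace ℝ E]

lemma mem_of_hasDerivAt_aux {K S : Set E} (hK : IsCompact K) (hKS : K ⊆ S) {V : E → E} {L : ℝ≥0}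
    (hV : LipschitzOnWith L V S)
    (hn : ∀ k ∈ K, ∀ v : E, (∀ y ∈ K, ‖v‖ ≤ ‖y - (k + v)‖) → ⟪v, V k⟫ ≤ 0)
    {γ : ℝ → E} {T : ℝ} (hγS : ∀ t ∈ Ico 0 T, γ t ∈ S) (hc : ContinuousOn γ (Icc 0 T))
    (hγ : ∀ t ∈ Ico 0 T, HasDerivWithinAt γ (V (γ t)) (Ioi t) t)
    (h0 : γ 0 ∈ K) : ∀ t ∈ Icc 0 T, γ t ∈ K := by
  have hne : K.Nonempty := ⟨_, h0⟩
  set f : ℝ → ℝ := fun t => infDist (γ t) K ^ 2 with hf
  have hfc : ContinuousOn f (Icc 0 T) :=
    ((continuous_infDist_pt K).comp_continuousOn hc).pow 2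
  have hf0 : f 0 ≤ 0 := by
    rw [hf]
    simp only
    rw [infDist_zero_of_mem h0]
    simp
  have hslope : ∀ t ∈ Ico 0 T, ∀ r, 2 * L * f t < r →
      ∃ᶠ z in 𝓝[>] t, (z - t)⁻¹ * (f z - f t) < r := by
    intro t ht r hr
    obtain ⟨k, hk, hkd⟩ := hK.exists_infDist_eq_dist hne (γ t)
    have hft : f t = ‖γ t - k‖ ^ 2 := by rw [hf]; simp only; rw [hkd, dist_eq_norm]
    have hprox : ∀ y ∈ K, ‖γ t - k‖ ≤ ‖y - (k + (γ t - k))‖ := by
      intro y hy
      have h1 : infDist (γ t) K ≤ dist (γ t) y := infDist_le_dist_of_mem hy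
      rw [hkd, dist_eq_norm, dist_eq_norm] at h1
      rw [add_sub_cancel, norm_sub_rev y]
      exact h1
    have hd : HasDerivWithinAt (fun z => ‖γ z - k‖ ^ 2) (2 * ⟪γ t - k, V (γ t)⟫) (Ioi t) t := by
      have h1 := (((hγ t ht).sub_const k)).norm_sq
      simpa using h1
    have hle : 2 * ⟪γ t - k, V (γ t)⟫ ≤ 2 * L * f t := by
      have h1 := hn k hk (γ t - k) hprox
      have h2 : ‖V (γ t) - V k‖ ≤ L * ‖γ t - k‖ := by
        have := hV.dist_le_mul _ (hγS t ht) _ (hKS hk)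
        rwa [dist_eq_norm, dist_eq_norm] at this
      have h3 : ⟪γ t - k, V (γ t)⟫ = ⟪γ t - k, V (γ t) - V k⟫ + ⟪γ t - k, V k⟫ := by
        rw [← inner_add_right, sub_add_cancel]
      have h4 : ⟪γ t - k, V (γ t) - V k⟫ ≤ ‖γ t - k‖ * ‖V (γ t) - V k‖ := real_inner_le_norm _ _
      have h5 : ‖γ t - k‖ * ‖V (γ t) - V k‖ ≤ ‖γ t - k‖ * (L * ‖γ t - k‖) := by gcongr
      rw [h3, hft]
      nlinarith
    have hlt : 2 * ⟪γ t - k, V (γ t)⟫ < r := hle.trans_lt hr
    have hev := hasDerivWithinAt_iff_tendsto_slope.1 hd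
    rw [sdiff_singleton_eq_self (by simp)] at hev
    have hev2 := hev.eventually (gt_mem_nhds hlt)
    refine Eventually.frequently ?_
    filter_upwards [hev2, self_mem_nhdsWithin] with z hz hzt
    have hzt' : 0 < z - t := sub_pos.2 hzt
    refine lt_of_le_of_lt ?_ hz
    rw [slope_def_field, div_eq_inv_mul]
    refine mul_le_mul_of_nonneg_left ?_ (inv_nonneg.2 hzt'.le)
    rw [hft]
    refine sub_le_sub_right ?_ _
    rw [hf]
    simp only
    have h6 : infDist (γ z) K ≤ ‖γ z - k‖ := by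
      rw [← dist_eq_norm]; exact infDist_le_dist_of_mem hk
    have h7 : 0 ≤ infDist (γ z) K := infDist_nonneg
    gcongr
  have hG := le_gronwallBound_of_liminf_deriv_right_le (f := f) (f' := fun t => 2 * L * f t)
    (δ := 0) (K := 2 * L) (ε := 0) (a := 0) (b := T) hfc hslope hf0 (fun x _ => by simp)
  intro t ht
  have h1 := hG t ht
  rw [sub_zero, gronwallBound_ε0, zero_mul] at h1
  have h2 : infDist (γ t) K = 0 := by
    have h3 : infDist (γ t) K ^ 2 ≤ 0 := h1
    nlinarith [infDist_nonneg (x := γ t) (s := K)]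
  rwa [hK.isClosed.mem_iff_infDist_zero hne]

/-- **Bony-Brezis.** If the Lipschitz field `V` is orthogonal to all proximal normals of the
compact set `K`, integral curves of `V` starting in `K` stay in `K`. -/
theorem mem_of_hasDerivAt {K S : Set E} (hK : IsCompact K) (hKS : K ⊆ S) {V : E → E} {L : ℝ≥0}
    (hV : LipschitzOnWith L V S)
    (hn : ∀ k ∈ K, ∀ v : E, (∀ y ∈ K, ‖v‖ ≤ ‖y - (k + v)‖) → ⟪v, V k⟫ = 0)
    {γ : ℝ → E} (hγS : ∀ t, γ t ∈ S) (hγ : ∀ t, HasDerivAt γ (V (γ t)) t)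
    (h0 : γ 0 ∈ K) (t : ℝ) : γ t ∈ K := by
  rcases le_total 0 t with ht | ht
  · exact mem_of_hasDerivAt_aux (T := t) hK hKS hV (fun k hk v hv => (hn k hk v hv).le)
      (fun s _ => hγS s) (fun s _ => (hγ s).continuousAt.continuousWithinAt)
      (fun s _ => (hγ s).hasDerivWithinAt) h0 t ⟨ht, le_rfl⟩
  · have hV' : LipschitzOnWith L (fun x => -V x) S := by
      intro x hx y hy
      rw [edist_neg_neg]
      exact hV hx hy
    have h := mem_of_hasDerivAt_aux (T := -t) (V := fun x => -V x) (γ := fun s => γ (-s)) hK hKS hV'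
      (fun k hk v hv => by rw [inner_neg_right, hn k hk v hv, neg_zero])
      (fun s _ => hγS _) (fun s _ => ?_) (fun s _ => ?_) (by simpa using h0) (-t)
      ⟨by linarith, le_rfl⟩
    · simpa using h
    · exact ((hγ (-s)).continuousAt.comp (f := fun s : ℝ => -s) continuous_neg.continuousAt).continuousWithinAt
    · have h1 : HasDerivAt (fun s => γ (-s)) (-V (γ (-s))) s := by
        have := (hγ (-s)).scomp s (hasDerivAt_neg s)
        simpa [Function.comp_def] using this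
      exact h1.hasDerivWithinAt

end Vale.Agent.P272.K.T4
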