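import Vale.Agent.P272.K.T4.EmbDefs
import Vale.Agent.P272.K.C2.Mat

/-! P272/T4, block (b2a): the spray of the Chern connection under changes of coordinates. -/

open scoped Manifold ContDiff ComplexOrder Topology Matrix
open Set Metric

set_option linter.unusedSectionVars false

noncomputable section

namespace Vale.Agent.P272.K.T4

open LIN

variable {n : ℕ}

/-- `Σ w_i ∂_i h` -/
def Dw (h : Cm n → Matrix (Fin n) (Fin n) ℂ) (z w : Cm n) : Matrix (Fin n) (Fin n) ℂ :=
  ∑ i, w i • C2.DM i h z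

lemma chr_eq (h : Cm n → Matrix (Fin n) (Fin n) ℂ) (z w : Cm n) :
    chr h z w = Matrix.vecMul w (Dw h z w * (h z)⁻¹) := by
  funext m
  simp only [chr, Matrix.vecMul, dotProduct, Matrix.mul_apply, Dw, Matrix.sum_apply,
    Matrix.smul_apply, smul_eq_mul, C2.DM_apply, Finset.sum_mul, Finset.mul_sum]
  rw [Finset.sum_comm]
  refine Finset.sum_congr rfl fun k _ => ?_
  rw [Finset.sum_comm]
  refine Finset.sum_congr rfl fun q _ => Finset.sum_congr rfl fun i _ => ?_
  ring

variable {X : Type*} [TopologicalSpace X] [ChartedSpace (Cm n) X]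
  {h : Chart n X → Cm n → Matrix (Fin n) (Fin n) ℂ} {e e' : Chart n X} {x : X}

/-- the Hessian term `Σ w_i w_k ∂_i J_{pk}` of a change of coordinates -/
def hessJ (e e' : Chart n X) (x : X) (w : Cm n) : Cm n :=
  (∑ i, w i • C2.DM i (fun z => jacM e e' (e.symm z)) (e x)).mulVec w

variable [IsManifold 𝓘(ℂ, Cm n) ω X]

lemma jac_md (hx : At e x) (hx' : At e' x) : C2.MC 1 (fun z => jacM e e' (e.symm z)) (e x) :=
  fun p i => ((jacM_holo hx hx' p i).restrict_scalars ℝ).of_le (by exact le_top)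

/-- transformation law of the Christoffel vector -/
theorem chr_change (hh : IsHermitian h) (hx : At e x) (hx' : At e' x) (w : Cm n) :
    (jacM e e' x).mulVec (chr (h e) (e x) w) =
      hessJ e e' x w + chr (h e') (e' x) ((jacM e e' x).mulVec w) := by
  set J : Cm n → Matrix (Fin n) (Fin n) ℂ := fun z => jacM e e' (e.symm z) with hJ
  set H : Cm n → Matrix (Fin n) (Fin n) ℂ := fun z => h e' (e' (e.symm z)) with hH
  have hJx : J (e x) = jacM e e' x := by simp only [J]; rw [hx.left_inv]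
  have hHx : H (e x) = h e' (e' x) := by simp only [H]; rw [hx.left_inv]
  have hJ1 : C2.MC 1 J (e x) := jac_md hx hx'
  have hτ := transition_differentiableAt hx hx'
  have hsm : ∀ k q, ContDiffAt ℝ ∞ (fun y => h e' y k q) (e' x) := hh.smooth e' x hx'
  have h2 : e' (e.symm (e x)) = e' x := by rw [hx.left_inv]
  have hτR : ContDiffAt ℝ ∞ (fun z => e' (e.symm z)) (e x) :=
    ((transition hx hx').restrict_scalars ℝ).of_le (by exact le_top)
  have hH1 : C2.MC 1 H (e x) := by
    intro k q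
    have : ContDiffAt ℝ ∞ (fun z => h e' (e' (e.symm z)) k q) (e x) :=
      ContDiffAt.comp (e x) (g := fun y => h e' y k q) (by rw [h2]; exact hsm k q) hτR
    exact this.of_le (by exact WithTop.coe_le_coe.2 le_top)
  have hJmd : C2.MD J (e x) := hJ1.md one_ne_zero
  have hHmd : C2.MD H (e x) := hH1.md one_ne_zero
  have hJt : C2.MD (fun z => (J z)ᵀ) (e x) := fun i j => hJmd j i
  have hJc : C2.MD (fun z => (J z).map (starRingEnd ℂ)) (e x) := fun i j =>
    ((Complex.conjCLE : ℂ →L[ℝ] ℂ).differentiableAt).comp (e x) (hJmd i j)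
  -- derivatives
  have d1 : ∀ i, C2.DM i (fun z => (J z).map (starRingEnd ℂ)) (e x) = 0 := by
    intro i
    ext p q
    have h3 : DifferentiableAt ℂ (fun z => J z p q) (e x) :=
      (jacM_holo hx hx' p q).differentiableAt (by simp)
    show dz i (fun y => (starRingEnd ℂ) (J y p q)) (e x) = 0
    rw [C2.dz_conj _ (hJmd p q), dzb_of_holo h3, map_zero]
  have d2 : ∀ i, C2.DM i (fun z => (J z)ᵀ) (e x) = (C2.DM i J (e x))ᵀ := fun i => rfl
  have d3 : ∀ i, C2.DM i H (e x) = ∑ p, J (e x) p i • C2.DM p (h e') (e' x) := by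
    intro i
    ext k q
    rw [Matrix.sum_apply]
    simp only [Matrix.smul_apply, C2.DM_apply, smul_eq_mul]
    have := dz_comp_holo (i := i) (f := fun y => h e' y k q) (τ := fun z => e' (e.symm z)) (z := e x)
      (by rw [h2]; exact (hsm k q).differentiableAt (by simp)) hτ
    simp only [H]
    rw [this, h2]
    refine Finset.sum_congr rfl fun p _ => ?_
    rw [mul_comm]
    congr 1
    rw [hJx, jacM_eq]
  have hev : h e =ᶠ[𝓝 (e x)] fun z => (J z)ᵀ * H z * (J z).map (starRingEnd ℂ) := by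
    filter_upwards [hx.nhds_at hx'] with z hz
    have := hh.change e e' (e.symm z) hz.2.1 hz.2.2
    rw [e.right_inv hz.1] at this
    exact this
  have d4 : ∀ i, C2.DM i (h e) (e x) = (C2.DM i J (e x))ᵀ * H (e x) *
      (J (e x)).map (starRingEnd ℂ) + (J (e x))ᵀ * C2.DM i H (e x) *
      (J (e x)).map (starRingEnd ℂ) := by
    intro i
    rw [C2.DM_congr hev]
    have h3 : C2.MD (fun z => (J z)ᵀ * H z) (e x) := by
      intro a b
      have : (fun y => ((J y)ᵀ * H y) a b) = fun y => ∑ c, (J y)ᵀ a c * H y c b := by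
        funext y; rw [Matrix.mul_apply]
      rw [this]
      exact DifferentiableAt.fun_sum fun c _ => (hJt a c).mul (hHmd c b)
    rw [C2.DM_mul h3 hJc, C2.DM_mul hJt hHmd, d1, d2, Matrix.mul_zero, add_zero, Matrix.add_mul]
  have hu := jacM_isUnit hx hx'
  have hH0 : IsUnit (H (e x)).det := by
    rw [hHx]
    exact (hh.posDef e' x hx').det_pos.ne'.isUnit
  have hinv : (h e (e x))⁻¹ * (J (e x))ᵀ = ((J (e x)).map (starRingEnd ℂ))⁻¹ * (H (e x))⁻¹ := by
    rw [hh.change e e' x hx hx', ← hJx, ← hHx, inv_form (by rw [hJx]; exact hu), Matrix.mul_assoc,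
      Matrix.nonsing_inv_mul _ (by rw [Matrix.det_transpose, hJx]; exact hu), Matrix.mul_one]
  have hcc : (J (e x)).map (starRingEnd ℂ) * ((J (e x)).map (starRingEnd ℂ))⁻¹ = 1 :=
    Matrix.mul_nonsing_inv _ (isUnit_conj (by rw [hJx]; exact hu))
  have hHH : H (e x) * (H (e x))⁻¹ = 1 := Matrix.mul_nonsing_inv _ hH0
  have key : ∀ i, C2.DM i (h e) (e x) * (h e (e x))⁻¹ * (J (e x))ᵀ =
      (C2.DM i J (e x))ᵀ + (J (e x))ᵀ * C2.DM i H (e x) * (H (e x))⁻¹ := by
    intro i
    rw [Matrix.mul_assoc, hinv, d4, Matrix.add_mul]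
    congr 1
    · calc (C2.DM i J (e x))ᵀ * H (e x) * (J (e x)).map (starRingEnd ℂ) *
            (((J (e x)).map (starRingEnd ℂ))⁻¹ * (H (e x))⁻¹)
          = (C2.DM i J (e x))ᵀ * (H (e x) * ((J (e x)).map (starRingEnd ℂ) *
            ((J (e x)).map (starRingEnd ℂ))⁻¹) * (H (e x))⁻¹) := by
            simp only [Matrix.mul_assoc]
        _ = _ := by rw [hcc, Matrix.mul_one, hHH, Matrix.mul_one]
    · calc (J (e x))ᵀ * C2.DM i H (e x) * (J (e x)).map (starRingEnd ℂ) *
            (((J (e x)).map (starRingEnd ℂ))⁻¹ * (H (e x))⁻¹)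
          = (J (e x))ᵀ * C2.DM i H (e x) * ((J (e x)).map (starRingEnd ℂ) *
            ((J (e x)).map (starRingEnd ℂ))⁻¹) * (H (e x))⁻¹ := by
            simp only [Matrix.mul_assoc]
        _ = _ := by rw [hcc, Matrix.mul_one]
  -- conclusion
  rw [chr_eq, ← Matrix.vecMul_transpose, Matrix.vecMul_vecMul, ← hJx]
  have e1 : Dw (h e) (e x) w * (h e (e x))⁻¹ * (J (e x))ᵀ =
      (∑ i, w i • C2.DM i J (e x))ᵀ + (J (e x))ᵀ * (Dw (h e') (e' x) ((J (e x)).mulVec w) *
        (h e' (e' x))⁻¹) := by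
    have e2 : Dw (h e') (e' x) ((J (e x)).mulVec w) = ∑ i, w i • C2.DM i H (e x) := by
      simp only [Dw, d3, Finset.smul_sum]
      rw [Finset.sum_comm]
      refine Finset.sum_congr rfl fun p _ => ?_
      simp only [smul_smul]
      rw [← Finset.sum_smul]
      congr 1
      simp only [Matrix.mulVec, dotProduct]
      exact Finset.sum_congr rfl fun i _ => mul_comm _ _
    rw [e2, ← hHx, Dw, Finset.sum_mul, Finset.sum_mul, Matrix.transpose_sum, Finset.sum_mul,
      Finset.mul_sum, ← Finset.sum_add_distrib]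
    refine Finset.sum_congr rfl fun i _ => ?_
    rw [Matrix.smul_mul, Matrix.smul_mul, key, Matrix.transpose_smul, smul_add, Matrix.smul_mul,
      Matrix.mul_smul, ← Matrix.mul_assoc]
  rw [e1, Matrix.vecMul_add, Matrix.vecMul_transpose, hessJ, chr_eq, ← Matrix.vecMul_vecMul,
    Matrix.vecMul_transpose]

end Vale.Agent.P272.K.T4
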