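import Vale.Agent.P272.K.T4.Curve2
import Vale.Agent.P272.K.T4.StmtNF

/-! P272/T4: test functions on the tangent bundle, unless there is a flat line. -/

open scoped Manifold ContDiff ComplexOrder Topology Matrix
open Set Metric Filter

set_option linter.unusedSectionVars false

noncomputable section

namespace Vale.Agent.P272.K.T4

open LIN

variable {n : ℕ} {X : Type*} [TopologicalSpace X] [ChartedSpace (Cm n) X]
  {h : Chart n X → Cm n → Matrix (Fin n) (Fin n) ℂ}
  [IsManifold 𝓘(ℂ, Cm n) ω X] [T2Space X]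

lemma quad_im_zero {M : Matrix (Fin n) (Fin n) ℂ} (hM : M.PosDef) (w : Cm n) :
    (quad M w).im = 0 := by
  have h1 : 0 ≤ star (star w) ⬝ᵥ (M *ᵥ (star w)) := hM.posSemidef.dotProduct_mulVec_nonneg _
  have h2 : star (star w) ⬝ᵥ (M *ᵥ (star w)) = quad M w := by
    rw [star_star]
    simp only [quad, dotProduct, Matrix.mulVec, Finset.mul_sum]
    refine Finset.sum_congr rfl fun i _ => Finset.sum_congr rfl fun j _ => ?_
    simp only [Pi.star_apply, cj, RCLike.star_def]
    ring
  rw [h2] at h1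
  exact (Complex.le_def.1 h1).2.symm

/-- **Test functions or a flat line**, for any Hermitian metric. -/
theorem test_or_flatLine (𝒞 : Cov (Cm n) X) (hh : IsHermitian h) (hS : IsCompact (SJ 𝒞 h))
    (hZ : IsCompact (ZJ' 𝒞 h)) :
    (∃ Ψ₁ Ψ₂ : WW 𝒞 → ℝ, ContDiff ℝ ∞ Ψ₁ ∧ ContDiff ℝ ∞ Ψ₂ ∧
      ∀ e x w, At e x → (quad (h e (e x)) w).re = 1 → (∀ l, crv (h e) (e x) w l = 0) →
        0 < fderiv ℝ Ψ₁ (emb 𝒞 e x w) (fderiv ℝ (embC 𝒞 e) (e x, w) (spray (h e) 1 (e x, w))) +
          fderiv ℝ Ψ₂ (emb 𝒞 e x w)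
            (fderiv ℝ (embC 𝒞 e) (e x, w) (spray (h e) Complex.I (e x, w)))) ∨
    ∃ f : ℂ → X, IsFlatLine h f := by
  rcases test_or_plane 𝒞 hh hS hZ with h1 | ⟨V₁, V₂, F, hV, hFZ, hF⟩
  · exact Or.inl h1
  · right
    choose e f w hAt hq hR hFe using hFZ
    obtain ⟨h1, h2⟩ := exists_entire_deriv hF hAt hFe
      (fun z => (embC_contDiffAt 𝒞 (hAt z).1 (hAt z).mem_target (w z)).differentiableAt (by simp))
      (fun z => by rw [hFe z]; exact (hV (e z) (f z) (w z) (hAt z) (hq z)).1)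
      (fun z => by rw [hFe z]; exact (hV (e z) (f z) (w z) (hAt z) (hq z)).2)
    have hf : Continuous f := continuous_iff_continuousAt.2 fun z => (h1 z).continuousAt
    have hd : ∀ z e', At e' (f z) → vel f e' z = (jacM (e z) e' (f z)).mulVec (w z) :=
      fun z e' he' => (h2 z e' he').deriv
    refine ⟨f, ⟨h1, fun z e' he' => ?_, fun z e' he' => ?_, fun z e' he' l => ?_⟩⟩
    · have a1 : (quad (h e' (e' (f z))) (vel f e' z)).re = 1 := by
        rw [hd z e' he', ← hq z]
        exact congrArg Complex.re (quad_change hh (hAt z) he' (w z)).symm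
      have a2 : (quad (h e' (e' (f z))) (vel f e' z)).im = 0 :=
        quad_im_zero (hh.posDef e' _ he') _
      exact Complex.ext a1 a2
    · have a1 := geodesic_of_plane hh hF hV hAt hFe hq hf h2 z e' he'
      have a2 : -chr (h e') (e' (f z)) (deriv (fun ζ => e' (f ζ)) z) =
          (fun m => -∑ i, ∑ k, vel f e' z i * vel f e' z k *
      ∑ q, dz i (fun y => h e' y k q) (e' (f z)) * (h e' (e' (f z)))⁻¹ q m) := rfl
      rw [← a2]
      exact a1
    · have a1 := crv_zero_change hh (hAt z) he' (w z) (hR z) l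
      rw [← hd z e' he'] at a1
      exact a1

end Vale.Agent.P272.K.T4
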