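import Vale.Agent.P272.K.T4.Hom
import Vale.Agent.P272.K.T4.TestNF
import Vale.Agent.P272.K.T4.L3NF

/-! P272/T4: coercivity for a Hermitian metric without flat lines. -/

open scoped Manifold ContDiff ComplexOrder Topology Matrix
open Set Metric Filter

set_option linter.all false

noncomputable section

namespace Vale.Agent.P272.K.T4

open LIN

/-- Block B without hyperbolicity -/
theorem coer_noFlat {n : ℕ} {X : Type} [TopologicalSpace X] [T2Space X] [CompactSpace X]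
    [ChartedSpace (Cm n) X] [IsManifold 𝓘(ℂ, Cm n) ω X]
    {h : Chart n X → Cm n → Matrix (Fin n) (Fin n) ℂ} (hh : IsHermitian h)
    (hno : ∀ f : ℂ → X, ¬ IsFlatLine h f) : Coercive h := by
  obtain ⟨𝒞⟩ := Cov.nonempty (Cm n) X
  rcases test_or_flatLine 𝒞 hh (isCompact_SJ 𝒞 hh) (isCompact_ZJ' 𝒞 hh) with
    ⟨Ψ₁, Ψ₂, s1, s2, hpos⟩ | ⟨f, hf⟩
  swap
  · exact absurd hf (hno f)
  refine coer_of_test 𝒞 hh (embC_smTFun 𝒞 s1) (embC_smTFun 𝒞 s2) fun e x u hx hu hR => ?_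
  have h1 := hpos e x u hx hu hR
  have hY : ∀ (b : ℂ) (Ψ : WW 𝒞 → ℝ), ContDiff ℝ ∞ Ψ →
      Yd h b (fun (e : Chart n X) z w => Ψ (embC 𝒞 e (z, w))) e (e x) u =
      fderiv ℝ Ψ (emb 𝒞 e x u) (fderiv ℝ (embC 𝒞 e) (e x, u) (spray (h e) b (e x, u))) := by
    intro b Ψ hΨ
    have a1 : DifferentiableAt ℝ (embC 𝒞 e) (e x, u) :=
      (embC_contDiffAt 𝒞 hx.1 hx.mem_target u).differentiableAt (by simp)
    have a2 : DifferentiableAt ℝ Ψ (embC 𝒞 e (e x, u)) := (hΨ.differentiable (by simp)) _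
    have a3 := fderiv_comp (e x, u) a2 a1
    have a4 : Yd h b (fun (e : Chart n X) z w => Ψ (embC 𝒞 e (z, w))) e (e x) u =
        fderiv ℝ (Ψ ∘ embC 𝒞 e) (e x, u) (spray (h e) b (e x, u)) := rfl
    rw [a4, a3, ContinuousLinearMap.comp_apply, embC_apply_at 𝒞 hx]
  rw [hY 1 Ψ₁ s1, hY Complex.I Ψ₂ s2]
  exact h1

end Vale.Agent.P272.K.T4
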