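import Mathlib.Analysis.ODE.ExistUnique
import Mathlib.Analysis.Calculus.ContDiff.RCLike
import Mathlib.Analysis.Calculus.MeanValue
import Mathlib.Analysis.Complex.Basic
import Mathlib.MeasureTheory.Integral.IntervalIntegral.FundThmCalculus

/-! P272/T4: two commuting flows on an invariant closed set (abstract part). -/

open Set Metric Filter Topology
open scoped NNReal

noncomputable section

namespace Vale.Agent.P272.K.T4

variable {W : Type*} [NormedAddCommGroup W] [NormedSpace ℝ W]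

/-- `γ` is a global integral curve of the vector field `V`. -/
def IsCurve (V : W → W) (γ : ℝ → W) : Prop := ∀ t, HasDerivAt γ (V (γ t)) t

/-- global existence for bounded Lipschitz vector fields -/
theorem exists_curve [CompleteSpace W] {V : W → W} {K : ℝ≥0} (hK : LipschitzWith K V) {L : ℝ}
    (hL : ∀ x, ‖V x‖ ≤ L) (x : W) : ∃ γ : ℝ → W, γ 0 = x ∧ IsCurve V γ := by
  have hL0 : 0 ≤ L := (norm_nonneg _).trans (hL x)
  -- local solutions on all bounded intervals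
  have hloc : ∀ T : ℝ, 0 < T → ∃ α : ℝ → W, α 0 = x ∧ ∀ t ∈ Ioo (-T) T, HasDerivAt α (V (α t)) t := by
    intro T hT
    have h0 : (0 : ℝ) ∈ Icc (-T) T := ⟨by linarith, hT.le⟩
    have hpl : IsPicardLindelof (fun _ : ℝ => V) (tmin := -T) (tmax := T) ⟨0, h0⟩ x
        (Real.toNNReal (L * T)) 0 (Real.toNNReal L) K := by
      refine IsPicardLindelof.of_time_independent (fun y _ => ?_) hK.lipschitzOnWith ?_
      · rw [Real.coe_toNNReal _ hL0]; exact hL y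
      · rw [Real.coe_toNNReal _ hL0, Real.coe_toNNReal _ (by positivity)]
        simp
    obtain ⟨α, h1, h2⟩ := hpl.exists_eq_forall_mem_Icc_hasDerivWithinAt₀
    exact ⟨α, h1, fun t ht => (h2 t (Ioo_subset_Icc_self ht)).hasDerivAt (Icc_mem_nhds ht.1 ht.2)⟩
  choose! α hα0 hα using hloc
  have huniq : ∀ T T' : ℝ, 0 < T → T ≤ T' → EqOn (α T) (α T') (Ioo (-T) T) := by
    intro T T' hT hTT'
    refine ODE_solution_unique_of_mem_Ioo (v := fun _ => V) (s := fun _ => univ) (K := K)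
      (fun _ _ => hK.lipschitzOnWith) (t₀ := 0) ⟨by linarith, hT⟩
      (fun t ht => ⟨hα T hT t ht, mem_univ _⟩)
      (fun t ht => ⟨hα T' (by linarith) t ⟨by linarith [ht.1], by linarith [ht.2]⟩, mem_univ _⟩) ?_
    rw [hα0 T hT, hα0 T' (by linarith)]
  refine ⟨fun t => α (|t| + 1) t, ?_, fun t => ?_⟩
  · exact hα0 _ (by positivity)
  · have hT : 0 < |t| + 2 := by positivity
    have h1 : (fun s => α (|s| + 1) s) =ᶠ[𝓝 t] α (|t| + 2) := by
      have h2 : ∀ᶠ s in 𝓝 t, |s| < |t| + 1 :=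
        (continuous_abs.tendsto t).eventually (Iio_mem_nhds (by linarith))
      filter_upwards [h2] with s hs
      refine huniq (|s| + 1) (|t| + 2) (by positivity) (by linarith) ?_
      exact ⟨by linarith [neg_abs_le s], by linarith [le_abs_self s]⟩
    have h3 := hα (|t| + 2) hT t ⟨by linarith [neg_abs_le t], by linarith [le_abs_self t]⟩
    have h4 : α (|t| + 1) t = α (|t| + 2) t := h1.eq_of_nhds
    show HasDerivAt (fun s => α (|s| + 1) s) (V (α (|t| + 1) t)) t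
    rw [h4]
    exact h3.congr_of_eventuallyEq h1

/-- uniqueness of global integral curves -/
theorem IsCurve.unique {V : W → W} {K : ℝ≥0} (hK : LipschitzWith K V) {γ γ' : ℝ → W}
    (h : IsCurve V γ) (h' : IsCurve V γ') (h0 : γ 0 = γ' 0) : γ = γ' :=
  ODE_solution_unique_univ (v := fun _ => V) (s := fun _ => univ) (K := K) (t₀ := 0)
    (fun _ => hK.lipschitzOnWith) (fun t => ⟨h t, mem_univ _⟩) (fun t => ⟨h' t, mem_univ _⟩) h0

/-- integral curves in negative time -/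
theorem IsCurve.neg {V : W → W} {γ : ℝ → W} (h : IsCurve V γ) :
    IsCurve (fun x => -V x) (fun t => γ (-t)) := by
  intro t
  have := (h (-t)).scomp t (hasDerivAt_neg t)
  simpa [Function.comp_def] using this

/-- the comparison estimate for positive times -/
lemma compare_pos {V₁ V₂ : W → W} {K : ℝ≥0} (hK : LipschitzWith K V₂) {M L : ℝ}
    (hM : ∀ x y, ‖V₂ (x + y) - V₂ x - fderiv ℝ V₂ x y‖ ≤ M * ‖y‖ ^ 2) (hL : ∀ x, ‖V₁ x‖ ≤ L)
    (hM0 : 0 ≤ M) (hd : Differentiable ℝ V₁) {u g : ℝ → W} (hu : IsCurve V₂ u) (hg : IsCurve V₂ g)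
    (hcomm : ∀ t, fderiv ℝ V₁ (g t) (V₂ (g t)) = fderiv ℝ V₂ (g t) (V₁ (g t))) (h : ℝ) {δ : ℝ}
    (hδ : ‖u 0 - (g 0 + h • V₁ (g 0))‖ ≤ δ) {t : ℝ} (ht : 0 ≤ t) :
    ‖u t - (g t + h • V₁ (g t))‖ ≤ gronwallBound δ K (M * L ^ 2 * h ^ 2) t := by
  have hv : ∀ t, HasDerivAt (fun t => g t + h • V₁ (g t))
      (V₂ (g t) + h • fderiv ℝ V₁ (g t) (V₂ (g t))) t := by
    intro t
    have h1 : HasDerivAt (fun t => V₁ (g t)) (fderiv ℝ V₁ (g t) (V₂ (g t))) t :=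
      (hd (g t)).hasFDerivAt.comp_hasDerivAt t (hg t)
    exact (hg t).add (h1.const_smul h)
  have key := dist_le_of_approx_trajectories_ODE (v := fun _ => V₂) (K := K) (f := u)
    (g := fun t => g t + h • V₁ (g t)) (f' := fun t => V₂ (u t))
    (g' := fun t => V₂ (g t) + h • fderiv ℝ V₁ (g t) (V₂ (g t))) (a := 0) (b := t) (εf := 0)
    (εg := M * L ^ 2 * h ^ 2) (δ := δ) (fun _ => hK)
    (HasDerivAt.continuousOn fun s _ => hu s) (fun s _ => (hu s).hasDerivWithinAt)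
    (fun s _ => by simp) (HasDerivAt.continuousOn fun s _ => hv s)
    (fun s _ => (hv s).hasDerivWithinAt) (fun s _ => ?_) (by rwa [dist_eq_norm]) t ⟨ht, le_rfl⟩
  · rwa [dist_eq_norm, zero_add, sub_zero] at key
  · rw [dist_eq_norm, hcomm]
    have h1 := hM (g s) (h • V₁ (g s))
    have e : V₂ (g s) + h • fderiv ℝ V₂ (g s) (V₁ (g s)) - V₂ (g s + h • V₁ (g s)) =
        -(V₂ (g s + h • V₁ (g s)) - V₂ (g s) - fderiv ℝ V₂ (g s) (h • V₁ (g s))) := by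
      rw [map_smul]; abel
    rw [e, norm_neg]
    refine h1.trans ?_
    rw [norm_smul, mul_pow, Real.norm_eq_abs, sq_abs]
    have h2 : ‖V₁ (g s)‖ ^ 2 ≤ L ^ 2 := pow_le_pow_left₀ (norm_nonneg _) (hL _) 2
    have h3 : 0 ≤ h ^ 2 := sq_nonneg _
    calc M * (h ^ 2 * ‖V₁ (g s)‖ ^ 2) ≤ M * (h ^ 2 * L ^ 2) := by gcongr
      _ = M * L ^ 2 * h ^ 2 := by ring

/-- speed bound -/
lemma IsCurve.dist_le {V : W → W} {L : ℝ} (hL : ∀ x, ‖V x‖ ≤ L) {γ : ℝ → W} (h : IsCurve V γ)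
    (t k : ℝ) : ‖γ (t + k) - γ t‖ ≤ L * |k| := by
  have := (convex_univ : Convex ℝ (univ : Set ℝ)).norm_image_sub_le_of_norm_hasDerivWithin_le
    (f := γ) (f' := fun t => V (γ t)) (C := L) (fun s _ => (h s).hasDerivWithinAt)
    (fun s _ => hL _) (mem_univ t) (mem_univ (t + k))
  simpa using this

/-- quadratic remainder along an integral curve -/
lemma IsCurve.taylor {V : W → W} {K : ℝ≥0} (hK : LipschitzWith K V) {L : ℝ}
    (hL : ∀ x, ‖V x‖ ≤ L) {γ : ℝ → W} (h : IsCurve V γ) (t k : ℝ) :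
    ‖γ (t + k) - γ t - k • V (γ t)‖ ≤ K * L * k ^ 2 := by
  have hL0 : 0 ≤ L := (norm_nonneg _).trans (hL 0)
  have h1 : ∀ r : ℝ, HasDerivAt (fun r => γ (t + r) - r • V (γ t)) (V (γ (t + r)) - V (γ t)) r := by
    intro r
    have h2 : HasDerivAt (fun r => γ (t + r)) (V (γ (t + r))) r := by
      have := (h (t + r)).scomp r ((hasDerivAt_id r).const_add t)
      simpa [Function.comp_def] using this
    have h3 : HasDerivAt (fun r : ℝ => r • V (γ t)) (V (γ t)) r := by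
      simpa using (hasDerivAt_id r).smul_const (V (γ t))
    exact h2.sub h3
  have key := (convex_segment (𝕜 := ℝ) (0 : ℝ) k).norm_image_sub_le_of_norm_hasDerivWithin_le
    (f := fun r => γ (t + r) - r • V (γ t)) (f' := fun r => V (γ (t + r)) - V (γ t))
    (C := K * (L * |k|)) (fun r _ => (h1 r).hasDerivWithinAt) (fun r hr => ?_)
    (left_mem_segment ℝ 0 k) (right_mem_segment ℝ 0 k)
  · have e : γ (t + k) - k • V (γ t) - (γ (t + 0) - (0 : ℝ) • V (γ t)) =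
        γ (t + k) - γ t - k • V (γ t) := by
      rw [add_zero, zero_smul, sub_zero]; abel
    rw [e, sub_zero, Real.norm_eq_abs] at key
    refine key.trans (le_of_eq ?_)
    rw [← sq_abs k]; ring
  · have h2 : ‖V (γ (t + r)) - V (γ t)‖ ≤ K * ‖γ (t + r) - γ t‖ := hK.norm_sub_le _ _
    have h3 := h.dist_le hL t r
    have h4 : |r| ≤ |k| := by
      rw [segment_eq_uIcc, mem_uIcc] at hr
      rcases hr with hr | hr
      · rw [abs_of_nonneg hr.1]; exact hr.2.trans (le_abs_self k)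
      · rw [abs_of_nonpos hr.2]; exact (neg_le_neg hr.1).trans (neg_le_abs k)
    calc ‖V (γ (t + r)) - V (γ t)‖ ≤ K * ‖γ (t + r) - γ t‖ := h2
      _ ≤ K * (L * |r|) := by gcongr
      _ ≤ K * (L * |k|) := by gcongr

lemma gronwallBound_linear (δ K ε x : ℝ) :
    gronwallBound δ K ε x = δ * Real.exp (K * x) + ε * gronwallBound 0 K 1 x := by
  unfold gronwallBound
  split_ifs with h
  · simp [h]
  · field_simp
    ring

/-- derivative of the family of curves in the parameter -/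
lemma hasDerivAt_param {V₁ V₂ : W → W} {K : ℝ≥0} (hK : LipschitzWith K V₂) {M L : ℝ}
    (hM : ∀ x y, ‖V₂ (x + y) - V₂ x - fderiv ℝ V₂ x y‖ ≤ M * ‖y‖ ^ 2) (hL : ∀ x, ‖V₁ x‖ ≤ L)
    (hM0 : 0 ≤ M) (hd : Differentiable ℝ V₁) {γ : ℝ → W} {β : ℝ → ℝ → W}
    (hγ : IsCurve V₁ γ) (hβ : ∀ s, IsCurve V₂ (β s)) (hβ0 : ∀ s, β s 0 = γ s)
    (hcomm : ∀ s t, fderiv ℝ V₁ (β s t) (V₂ (β s t)) = fderiv ℝ V₂ (β s t) (V₁ (β s t)))
    (s : ℝ) {t : ℝ} (ht : 0 ≤ t) : HasDerivAt (fun s => β s t) (V₁ (β s t)) s := by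
  rw [hasDerivAt_iff_isLittleO_nhds_zero]
  have h0 := (hasDerivAt_iff_isLittleO_nhds_zero.1 (hγ s))
  have hbd : ∀ h : ℝ, ‖β (s + h) t - β s t - h • V₁ (β s t)‖ ≤
      ‖γ (s + h) - γ s - h • V₁ (γ s)‖ * Real.exp (K * t) +
        (M * L ^ 2 * h ^ 2) * gronwallBound 0 K 1 t := by
    intro h
    have h1 := compare_pos hK hM hL hM0 hd (hβ (s + h)) (hβ s) (hcomm s) h
      (δ := ‖γ (s + h) - γ s - h • V₁ (γ s)‖)
      (by rw [hβ0, hβ0]; exact le_of_eq (by congr 1; abel)) ht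
    rw [gronwallBound_linear] at h1
    refine le_trans (le_of_eq ?_) h1
    congr 1; abel
  have h1 : (fun h : ℝ => ‖γ (s + h) - γ s - h • V₁ (γ s)‖ * Real.exp (K * t) +
        (M * L ^ 2 * h ^ 2) * gronwallBound 0 K 1 t) =o[𝓝 0] fun h : ℝ => h := by
    refine Asymptotics.IsLittleO.add ?_ ?_
    · have := h0.norm_left.const_mul_left (Real.exp (K * t))
      refine this.congr_left fun h => ?_
      ring
    · have h2 : (fun h : ℝ => h ^ 2) =o[𝓝 0] fun h : ℝ => h :=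
        Asymptotics.isLittleO_pow_id (by norm_num)
      have := h2.const_mul_left (M * L ^ 2 * gronwallBound 0 K 1 t)
      refine this.congr_left fun h => ?_
      ring
  refine Asymptotics.IsBigO.trans_isLittleO ?_ h1
  refine Asymptotics.IsBigO.of_bound 1 (Eventually.of_forall fun h => ?_)
  rw [one_mul]
  exact (hbd h).trans (le_abs_self _)

/-- **Commuting flows on an invariant set**: a plane through every point. -/
theorem exists_plane [CompleteSpace W] {V₁ V₂ : W → W} {K₁ K₂ : ℝ≥0} (hK₁ : LipschitzWith K₁ V₁)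
    (hK₂ : LipschitzWith K₂ V₂) {M L₁ L₂ : ℝ} (hL₁ : ∀ x, ‖V₁ x‖ ≤ L₁) (hL₂ : ∀ x, ‖V₂ x‖ ≤ L₂)
    (hM : ∀ x y, ‖V₂ (x + y) - V₂ x - fderiv ℝ V₂ x y‖ ≤ M * ‖y‖ ^ 2) (hM0 : 0 ≤ M)
    (hd₁ : Differentiable ℝ V₁) (P : Set W)
    (inv₁ : ∀ γ, IsCurve V₁ γ → γ 0 ∈ P → ∀ t, γ t ∈ P)
    (inv₂ : ∀ γ, IsCurve V₂ γ → γ 0 ∈ P → ∀ t, γ t ∈ P)
    (comm : ∀ k ∈ P, fderiv ℝ V₁ k (V₂ k) = fderiv ℝ V₂ k (V₁ k)) {p : W} (hp : p ∈ P) :
    ∃ F : ℂ → W, F 0 = p ∧ (∀ z, F z ∈ P) ∧ ∀ z, HasFDerivAt F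
      (Complex.reCLM.smulRight (V₁ (F z)) + Complex.imCLM.smulRight (V₂ (F z))) z := by
  obtain ⟨γ, hγ0, hγ⟩ := exists_curve hK₁ hL₁ p
  have hγP : ∀ s, γ s ∈ P := inv₁ γ hγ (by rwa [hγ0])
  choose β hβ0 hβ using fun s => exists_curve hK₂ hL₂ (γ s)
  have hβP : ∀ s t, β s t ∈ P := fun s => inv₂ (β s) (hβ s) (by rw [hβ0]; exact hγP s)
  have hpar : ∀ s t, HasDerivAt (fun s => β s t) (V₁ (β s t)) s := by
    intro s t
    rcases le_total 0 t with ht | ht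
    · exact hasDerivAt_param hK₂ hM hL₁ hM0 hd₁ hγ hβ hβ0 (fun s t => comm _ (hβP s t)) s ht
    · have hfn : ∀ x, fderiv ℝ (fun x => -V₂ x) x = -fderiv ℝ V₂ x := fun x => fderiv_fun_neg
      have := hasDerivAt_param (V₁ := V₁) (V₂ := fun x => -V₂ x) (K := K₂) hK₂.neg (M := M)
        (L := L₁) (fun x y => ?_) hL₁ hM0 hd₁ hγ (β := fun s t => β s (-t))
        (fun s => (hβ s).neg) (fun s => by simp [hβ0]) (fun s t => ?_) s (t := -t) (by linarith)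
      · simpa using this
      · rw [hfn]
        have e : -V₂ (x + y) - -V₂ x - (-fderiv ℝ V₂ x) y =
            -(V₂ (x + y) - V₂ x - fderiv ℝ V₂ x y) := by
          rw [neg_apply]; abel
        rw [e, norm_neg]; exact hM x y
      · rw [hfn, map_neg, neg_apply, comm _ (hβP s (-t))]
  have hcurve₁ : ∀ t, IsCurve V₁ fun s => β s t := fun t s => hpar s t
  refine ⟨fun z => β z.re z.im, by simp [hβ0, hγ0], fun z => hβP _ _, fun z => ?_⟩
  rw [hasFDerivAt_iff_isLittleO_nhds_zero]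
  have hL₁0 : 0 ≤ L₁ := (norm_nonneg _).trans (hL₁ 0)
  have hL₂0 : 0 ≤ L₂ := (norm_nonneg _).trans (hL₂ 0)
  have h2 : (fun h : ℂ => ‖h‖ ^ 2) =o[𝓝 0] fun h : ℂ => h :=
    Asymptotics.isLittleO_norm_pow_id (by norm_num)
  refine Asymptotics.IsBigO.trans_isLittleO ?_ h2
  refine Asymptotics.IsBigO.of_bound (K₂ * L₂ + K₂ * L₁ + K₁ * L₁)
    (Eventually.of_forall fun w => ?_)
  have e : β (z + w).re (z + w).im - β z.re z.im -
      (Complex.reCLM.smulRight (V₁ (β z.re z.im)) + Complex.imCLM.smulRight (V₂ (β z.re z.im))) w =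
      (β (z.re + w.re) (z.im + w.im) - β (z.re + w.re) z.im - w.im • V₂ (β (z.re + w.re) z.im)) +
      w.im • (V₂ (β (z.re + w.re) z.im) - V₂ (β z.re z.im)) +
      (β (z.re + w.re) z.im - β z.re z.im - w.re • V₁ (β z.re z.im)) := by
    simp only [Complex.add_re, Complex.add_im, add_apply, ContinuousLinearMap.smulRight_apply,
      Complex.reCLM_apply, Complex.imCLM_apply, smul_sub]
    abel
  rw [e]
  have b1 := (hβ (z.re + w.re)).taylor hK₂ hL₂ z.im w.im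
  have b3 := (hcurve₁ z.im).taylor hK₁ hL₁ z.re w.re
  have b2 : ‖w.im • (V₂ (β (z.re + w.re) z.im) - V₂ (β z.re z.im))‖ ≤
      |w.im| * (K₂ * (L₁ * |w.re|)) := by
    rw [norm_smul, Real.norm_eq_abs]
    have b4 : ‖V₂ (β (z.re + w.re) z.im) - V₂ (β z.re z.im)‖ ≤
        K₂ * ‖β (z.re + w.re) z.im - β z.re z.im‖ := hK₂.norm_sub_le _ _
    have b5 := (hcurve₁ z.im).dist_le hL₁ z.re w.re
    refine mul_le_mul_of_nonneg_left (b4.trans ?_) (abs_nonneg _)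
    exact mul_le_mul_of_nonneg_left b5 K₂.2
  have hre : |w.re| ≤ ‖w‖ := Complex.abs_re_le_norm w
  have him : |w.im| ≤ ‖w‖ := Complex.abs_im_le_norm w
  have c1 : w.im ^ 2 ≤ ‖w‖ ^ 2 := by rw [← sq_abs]; exact pow_le_pow_left₀ (abs_nonneg _) him 2
  have c3 : w.re ^ 2 ≤ ‖w‖ ^ 2 := by rw [← sq_abs]; exact pow_le_pow_left₀ (abs_nonneg _) hre 2
  have c2 : |w.im| * |w.re| ≤ ‖w‖ ^ 2 := by
    rw [sq]; exact mul_le_mul him hre (abs_nonneg _) (norm_nonneg _)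
  have hK1 : (0 : ℝ) ≤ K₁ := K₁.2
  have hK2 : (0 : ℝ) ≤ K₂ := K₂.2
  rw [Real.norm_eq_abs, abs_of_nonneg (by positivity : (0 : ℝ) ≤ ‖w‖ ^ 2)]
  calc _ ≤ K₂ * L₂ * w.im ^ 2 + |w.im| * (K₂ * (L₁ * |w.re|)) + K₁ * L₁ * w.re ^ 2 :=
        (norm_add_le _ _).trans (add_le_add ((norm_add_le _ _).trans (add_le_add b1 b2)) b3)
    _ = K₂ * L₂ * w.im ^ 2 + K₂ * L₁ * (|w.im| * |w.re|) + K₁ * L₁ * w.re ^ 2 := by ring
    _ ≤ K₂ * L₂ * ‖w‖ ^ 2 + K₂ * L₁ * ‖w‖ ^ 2 + K₁ * L₁ * ‖w‖ ^ 2 := by gcongr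
    _ = _ := by ring

/-- bounds for compactly supported `C²` fields -/
lemma exists_bounds {V : W → W} (hV : ContDiff ℝ 2 V) (hc : HasCompactSupport V) :
    ∃ (K : ℝ≥0) (L M : ℝ), LipschitzWith K V ∧ (∀ x, ‖V x‖ ≤ L) ∧ 0 ≤ M ∧
      ∀ x y, ‖V (x + y) - V x - fderiv ℝ V x y‖ ≤ M * ‖y‖ ^ 2 := by
  obtain ⟨K, hK⟩ := ContDiff.lipschitzWith_of_hasCompactSupport hc hV (by norm_num)
  obtain ⟨L, hL⟩ := hc.exists_bound_of_continuous hV.continuous
  obtain ⟨M, hM⟩ := ContDiff.lipschitzWith_of_hasCompactSupport (hc.fderiv ℝ)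
    (hV.fderiv_right (m := 1) (by norm_num)) (by norm_num)
  refine ⟨K, L, M, hK, hL, M.2, fun x y => ?_⟩
  have := (convex_segment (𝕜 := ℝ) x (x + y)).norm_image_sub_le_of_norm_fderiv_le' (f := V)
    (φ := fderiv ℝ V x) (C := M * ‖y‖) (𝕜 := ℝ)
    (fun z _ => (hV.differentiable (by norm_num)) z) (fun z hz => ?_)
    (left_mem_segment ℝ x (x + y)) (right_mem_segment ℝ x (x + y))
  · rw [add_sub_cancel_left] at this
    refine this.trans (le_of_eq (by ring))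
  · refine (hM.norm_sub_le _ _).trans ?_
    refine mul_le_mul_of_nonneg_left ?_ M.2
    obtain ⟨a, b, ha, hb, hab, rfl⟩ := hz
    have e : a • x + b • (x + y) - x = b • y := by
      have : a = 1 - b := by linarith
      subst this
      rw [smul_add, sub_smul, one_smul]; abel
    rw [e, norm_smul, Real.norm_eq_abs, abs_of_nonneg hb]
    have : b ≤ 1 := by linarith
    calc b * ‖y‖ ≤ 1 * ‖y‖ := by gcongr
      _ = ‖y‖ := one_mul _

/-- **Commuting flows on an invariant set**, compactly supported `C²` fields. -/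
theorem exists_plane' [CompleteSpace W] {V₁ V₂ : W → W} (hV₁ : ContDiff ℝ 2 V₁)
    (hc₁ : HasCompactSupport V₁) (hV₂ : ContDiff ℝ 2 V₂) (hc₂ : HasCompactSupport V₂) (P : Set W)
    (inv₁ : ∀ γ, IsCurve V₁ γ → γ 0 ∈ P → ∀ t, γ t ∈ P)
    (inv₂ : ∀ γ, IsCurve V₂ γ → γ 0 ∈ P → ∀ t, γ t ∈ P)
    (comm : ∀ k ∈ P, fderiv ℝ V₁ k (V₂ k) = fderiv ℝ V₂ k (V₁ k)) {p : W} (hp : p ∈ P) :
    ∃ F : ℂ → W, F 0 = p ∧ (∀ z, F z ∈ P) ∧ ∀ z, HasFDerivAt F
      (Complex.reCLM.smulRight (V₁ (F z)) + Complex.imCLM.smulRight (V₂ (F z))) z := by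
  obtain ⟨K₁, L₁, M₁, hK₁, hL₁, _, _⟩ := exists_bounds hV₁ hc₁
  obtain ⟨K₂, L₂, M₂, hK₂, hL₂, hM0, hM⟩ := exists_bounds hV₂ hc₂
  exact exists_plane hK₁ hK₂ hL₁ hL₂ hM hM0 (hV₁.differentiable (by norm_num)) P inv₁ inv₂ comm hp

end Vale.Agent.P272.K.T4
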