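import Vale.Agent.P272.K.T4.Sep
import Vale.Agent.P272.K.T4.Brezis
import Mathlib.Analysis.InnerProductSpace.EuclideanDist
import Mathlib.Analysis.Calculus.ContDiff.RCLike

/-!
# Positive combinations of derivatives, or a compact set invariant under all the flows
-/

open scoped ContDiff RealInnerProductSpace Topology NNReal
open Set Filter Metric

noncomputable section

namespace Vale.Agent.P272.K.T4

section inner
variable {E : Type*} [NormedAddCommGroup E] [InnerProductSpace ℝ E]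

/-- **Bony-Brezis** for locally Lipschitz fields. -/
theorem mem_of_hasDerivAt_loc {K : Set E} (hK : IsCompact K) {V : E → E}
    (hV : LocallyLipschitz V)
    (hn : ∀ k ∈ K, ∀ v : E, (∀ y ∈ K, ‖v‖ ≤ ‖y - (k + v)‖) → ⟪v, V k⟫ = 0)
    {γ : ℝ → E} (hγ : ∀ t, HasDerivAt γ (V (γ t)) t)
    (h0 : γ 0 ∈ K) (t : ℝ) : γ t ∈ K := by
  have hc : Continuous γ := continuous_iff_continuousAt.2 fun t => (hγ t).continuousAt
  have key : ∀ (W : E → E), LocallyLipschitz W →
      (∀ k ∈ K, ∀ v : E, (∀ y ∈ K, ‖v‖ ≤ ‖y - (k + v)‖) → ⟪v, W k⟫ = 0) →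
      ∀ β : ℝ → E, Continuous β → (∀ t, HasDerivAt β (W (β t)) t) → β 0 ∈ K → ∀ T, 0 ≤ T →
      β T ∈ K := by
    intro W hW hWn β hβc hβ hβ0 T hT
    have hB : IsCompact (K ∪ β '' Icc 0 T) := hK.union (isCompact_Icc.image hβc)
    obtain ⟨L, hL⟩ := (hW.locallyLipschitzOn).exists_lipschitzOnWith_of_compact hB
    exact mem_of_hasDerivAt_aux (T := T) hK subset_union_left hL
      (fun k hk v hv => (hWn k hk v hv).le)
      (fun s hs => Or.inr ⟨s, Ico_subset_Icc_self hs, rfl⟩) hβc.continuousOn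
      (fun s _ => (hβ s).hasDerivWithinAt) hβ0 T ⟨hT, le_rfl⟩
  rcases le_total 0 t with ht | ht
  · exact key V hV hn γ hc hγ h0 t ht
  · have h := key (fun x => -V x) hV.neg
      (fun k hk v hv => by rw [inner_neg_right, hn k hk v hv, neg_zero]) (fun s => γ (-s))
      (hc.comp continuous_neg) (fun s => ?_) (by simpa using h0) (-t) (by linarith)
    · simpa using h
    · have := (hγ (-s)).scomp s (hasDerivAt_neg s)
      simpa [Function.comp_def] using this

end inner

/-- **Alternative.** For a compact set `Z` and locally Lipschitz vector fields `V i` on a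
finite-dimensional space: either there are smooth functions `Ψ i` with
`∑ i, DΨ_i(z) V_i(z) > 0` on `Z`, or `Z` contains a nonempty compact set which is invariant under
the flows of all the `V i`. -/
theorem sep {W : Type*} [NormedAddCommGroup W] [NormedSpace ℝ W] [FiniteDimensional ℝ W]
    {ι : Type*} [Fintype ι] {V : ι → W → W} (hV : ∀ i, LocallyLipschitz (V i)) {Z : Set W}
    (hZ : IsCompact Z)
    (hno : ¬ ∃ Ψ : ι → W → ℝ, (∀ i, ContDiff ℝ ∞ (Ψ i)) ∧
      ∀ z ∈ Z, 0 < ∑ i, fderiv ℝ (Ψ i) z (V i z)) :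
    ∃ K, K ⊆ Z ∧ K.Nonempty ∧ IsCompact K ∧ ∀ i, ∀ γ : ℝ → W,
      (∀ t, HasDerivAt γ (V i (γ t)) t) → γ 0 ∈ K → ∀ t, γ t ∈ K := by
  set e : W ≃L[ℝ] EuclideanSpace ℝ (Fin (Module.finrank ℝ W)) := toEuclidean with he
  have hV' : ∀ i, LocallyLipschitz (fun y => e (V i (e.symm y))) := fun i =>
    (e.lipschitz.locallyLipschitz).comp ((hV i).comp e.symm.lipschitz.locallyLipschitz)
  rcases posOn_or_exists (V := fun i y => e (V i (e.symm y)))
    (hZ.image e.continuous) (fun i => (hV' i).continuous.continuousOn) with h | h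
  · exfalso
    obtain ⟨Ψ, hΨ, hpos⟩ := h
    refine hno ⟨fun i z => Ψ i (e z), fun i => (hΨ i).comp e.contDiff, fun z hz => ?_⟩
    have h1 := hpos (e z) ⟨z, hz, rfl⟩
    refine h1.trans_eq (Finset.sum_congr rfl fun i _ => ?_)
    have h2 : HasFDerivAt (fun z => Ψ i (e z))
        ((fderiv ℝ (Ψ i) (e z)).comp (e : W →L[ℝ] EuclideanSpace ℝ (Fin (Module.finrank ℝ W)))) z :=
      (((hΨ i).differentiable (by simp) (e z)).hasFDerivAt).comp z e.hasFDerivAt
    rw [h2.fderiv]
    simp
  · obtain ⟨K, hKZ, hKne, hKc, hKn⟩ := h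
    refine ⟨e.symm '' K, ?_, hKne.image _, hKc.image e.symm.continuous, ?_⟩
    · rintro _ ⟨y, hy, rfl⟩
      obtain ⟨z, hz, rfl⟩ := hKZ hy
      simpa using hz
    · intro i γ hγ h0 t
      have h1 : ∀ t, HasDerivAt (fun t => e (γ t)) (e (V i (e.symm (e (γ t))))) t := by
        intro t
        have h2 := (e : W →L[ℝ] EuclideanSpace ℝ (Fin (Module.finrank ℝ W))).hasFDerivAt.comp_hasDerivAt
          t (hγ t)
        rw [e.symm_apply_apply]
        exact h2
      have h3 : e (γ 0) ∈ K := by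
        obtain ⟨y, hy, hyγ⟩ := h0
        rw [← hyγ]
        simpa using hy
      have h4 := mem_of_hasDerivAt_loc hKc (hV' i) (fun k hk v hv => hKn k hk v hv i) h1 h3 t
      exact ⟨e (γ t), h4, by simp⟩

end Vale.Agent.P272.K.T4
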