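import Vale.Agent.P272.K.T4.EmbField
import Vale.Agent.P272.K.T4.Dyn
import Vale.Agent.P272.K.T4.SepFinal

/-! P272/T4, block (b2b): compactly supported extension of the spray to the ambient space,
commutation on the flat directions, and the alternative: test functions or a plane. -/

open scoped Manifold ContDiff ComplexOrder Topology Matrix
open Set Metric Filter

set_option linter.unusedSectionVars false

noncomputable section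

namespace Vale.Agent.P272.K.T4

open LIN

/-- smooth cutoff which is one near a compact set -/
theorem exists_cutoff {W : Type*} [NormedAddCommGroup W] [NormedSpace ℝ W] [FiniteDimensional ℝ W]
    {S U : Set W} (hS : IsCompact S) (hU : IsOpen U) (hSU : S ⊆ U) :
    ∃ (ρ : W → ℝ) (K : Set W), ContDiff ℝ ∞ ρ ∧ IsCompact K ∧ K ⊆ U ∧ (∀ y ∉ K, ρ y = 0) ∧
      ∀ y ∈ S, ∀ᶠ y' in 𝓝 y, ρ y' = 1 := by
  obtain ⟨K, hK, hSK, hKU⟩ := exists_compact_between hS hU hSU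
  obtain ⟨f, h1, h0, -⟩ := exists_contMDiffMap_one_nhds_of_subset_interior
    (n := ⊤) (modelWithCornersSelf ℝ W) hS.isClosed hSK
  refine ⟨f, K, f.contMDiff.contDiff, hK, hKU, h0, fun y hy => ?_⟩
  rw [Filter.eventually_iff, mem_nhdsSet_iff_forall] at h1
  exact h1 y hy

variable {n : ℕ} {X : Type*} [TopologicalSpace X] [ChartedSpace (Cm n) X]
  {h : Chart n X → Cm n → Matrix (Fin n) (Fin n) ℂ} {e e' : Chart n X} {x : X}
  [IsManifold 𝓘(ℂ, Cm n) ω X] [T2Space X]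

/-- the image of the unit vectors with `R(w, w̄) w = 0` -/
def ZJ' (𝒞 : Cov (Cm n) X) (h : Chart n X → Cm n → Matrix (Fin n) (Fin n) ℂ) : Set (WW 𝒞) :=
  {y | ∃ e x w, At e x ∧ (quad (h e (e x)) w).re = 1 ∧ (∀ l, crv (h e) (e x) w l = 0) ∧
    y = emb 𝒞 e x w}

/-- the compactly supported extension of the spray -/
def VV (𝒞 : Cov (Cm n) X) (ρ : WW 𝒞 → ℝ) (h : Chart n X → Cm n → Matrix (Fin n) (Fin n) ℂ)
    (b : ℂ) (y : WW 𝒞) : WW 𝒞 := (ρ y / sig 𝒞 y) • UU 𝒞 h b y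

lemma VV_contDiff (𝒞 : Cov (Cm n) X) (hh : IsHermitian h) (b : ℂ) {ρ : WW 𝒞 → ℝ} {K : Set (WW 𝒞)}
    (hρ : ContDiff ℝ ∞ ρ) (hK : IsCompact K) (hKU : K ⊆ {y | 0 < sig 𝒞 y})
    (h0 : ∀ y ∉ K, ρ y = 0) : ContDiff ℝ ∞ (VV 𝒞 ρ h b) := by
  rw [contDiff_iff_contDiffAt]
  intro y
  by_cases hy : y ∈ K
  · exact (hρ.contDiffAt.div (sig_contDiff 𝒞).contDiffAt (hKU hy).ne').smul
      (UU_contDiff 𝒞 hh b).contDiffAt
  · refine (contDiffAt_const (c := (0 : WW 𝒞))).congr_of_eventuallyEq ?_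
    filter_upwards [hK.isClosed.isOpen_compl.mem_nhds hy] with y' hy'
    rw [VV, h0 y' hy', zero_div, zero_smul]

lemma VV_compact (𝒞 : Cov (Cm n) X) (b : ℂ) {ρ : WW 𝒞 → ℝ} {K : Set (WW 𝒞)}
    (hK : IsCompact K) (h0 : ∀ y ∉ K, ρ y = 0) : HasCompactSupport (VV 𝒞 ρ h b) :=
  HasCompactSupport.intro hK fun y hy => by rw [VV, h0 y hy, zero_div, zero_smul]

lemma VV_emb (𝒞 : Cov (Cm n) X) (hh : IsHermitian h) (b : ℂ) {ρ : WW 𝒞 → ℝ} (hx : At e x)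
    (w : Cm n) (h1 : ρ (emb 𝒞 e x w) = 1) :
    VV 𝒞 ρ h b (emb 𝒞 e x w) = fderiv ℝ (embC 𝒞 e) (e x, w) (spray (h e) b (e x, w)) := by
  have h2 : sig 𝒞 (emb 𝒞 e x w) ≠ 0 := by
    have := one_le_sig 𝒞 (e := e) (x := x) w
    linarith
  rw [VV, UU_emb 𝒞 hh b hx, h1, smul_smul, one_div, inv_mul_cancel₀ h2, one_smul]

lemma VV_embC_eventually (𝒞 : Cov (Cm n) X) (hh : IsHermitian h) (b : ℂ) {ρ : WW 𝒞 → ℝ}
    (hx : At e x) (w : Cm n) (h1 : ∀ᶠ y in 𝓝 (emb 𝒞 e x w), ρ y = 1) :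
    (fun p => VV 𝒞 ρ h b (embC 𝒞 e p)) =ᶠ[𝓝 (e x, w)]
      fun p => fderiv ℝ (embC 𝒞 e) p (spray (h e) b p) := by
  have hc : ContinuousAt (embC 𝒞 e) (e x, w) :=
    (embC_contDiffAt 𝒞 hx.1 hx.mem_target w).continuousAt
  have h2 : ∀ᶠ p in 𝓝 (e x, w), ρ (embC 𝒞 e p) = 1 := by
    have : Tendsto (embC 𝒞 e) (𝓝 (e x, w)) (𝓝 (emb 𝒞 e x w)) := by
      rw [← embC_apply_at 𝒞 hx w]; exact hc
    exact this.eventually h1
  have h3 : ∀ᶠ p : Cm n × Cm n in 𝓝 (e x, w), p.1 ∈ e.target :=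
    (continuous_fst.tendsto (e x, w)).eventually hx.nhds_target
  filter_upwards [h2, h3] with p hp hpt
  have hp' : At e (e.symm p.1) := At.of_target hx.1 hpt
  have h4 : embC 𝒞 e p = emb 𝒞 e (e.symm p.1) p.2 := rfl
  have h5 := VV_emb 𝒞 hh b (ρ := ρ) hp' p.2 (by rw [← h4]; exact hp)
  rw [e.right_inv hpt] at h5
  rw [h4]
  exact h5

/-- the two fields commute at the image of a vector with `R(w, w̄) w = 0` -/
theorem VV_bracket (𝒞 : Cov (Cm n) X) (hh : IsHermitian h) {ρ : WW 𝒞 → ℝ} {K : Set (WW 𝒞)}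
    (hρ : ContDiff ℝ ∞ ρ) (hK : IsCompact K) (hKU : K ⊆ {y | 0 < sig 𝒞 y})
    (h0 : ∀ y ∉ K, ρ y = 0) (hx : At e x) (w : Cm n)
    (h1 : ∀ᶠ y in 𝓝 (emb 𝒞 e x w), ρ y = 1) (hR : ∀ l, crv (h e) (e x) w l = 0) :
    fderiv ℝ (VV 𝒞 ρ h 1) (emb 𝒞 e x w) (VV 𝒞 ρ h Complex.I (emb 𝒞 e x w)) =
      fderiv ℝ (VV 𝒞 ρ h Complex.I) (emb 𝒞 e x w) (VV 𝒞 ρ h 1 (emb 𝒞 e x w)) := by
  have hA : ContDiffAt ℝ ∞ (embC 𝒞 e) (e x, w) := embC_contDiffAt 𝒞 hx.1 hx.mem_target w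
  have hA1 : ContDiffAt ℝ ∞ (fderiv ℝ (embC 𝒞 e)) (e x, w) :=
    hA.fderiv_right (m := ∞) (le_of_eq rfl)
  have hAd : DifferentiableAt ℝ (embC 𝒞 e) (e x, w) := hA.differentiableAt (by simp)
  have hA1d : DifferentiableAt ℝ (fderiv ℝ (embC 𝒞 e)) (e x, w) := hA1.differentiableAt (by simp)
  have hs : ∀ b : ℂ, DifferentiableAt ℝ (spray (h e) b) (e x, w) := fun b =>
    (spray_target hh hx.1 hx.mem_target b w).differentiableAt (by simp)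
  -- derivative of the field along a push-forward vector
  have key : ∀ (b : ℂ) (v : Cm n × Cm n),
      fderiv ℝ (VV 𝒞 ρ h b) (emb 𝒞 e x w) (fderiv ℝ (embC 𝒞 e) (e x, w) v) =
        fderiv ℝ (fderiv ℝ (embC 𝒞 e)) (e x, w) v (spray (h e) b (e x, w)) +
          fderiv ℝ (embC 𝒞 e) (e x, w) (fderiv ℝ (spray (h e) b) (e x, w) v) := by
    intro b v
    have hV : DifferentiableAt ℝ (VV 𝒞 ρ h b) (embC 𝒞 e (e x, w)) :=
      ((VV_contDiff 𝒞 hh b hρ hK hKU h0).differentiable (by simp)) _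
    have h2 : fderiv ℝ (fun p => VV 𝒞 ρ h b (embC 𝒞 e p)) (e x, w) =
        (fderiv ℝ (VV 𝒞 ρ h b) (embC 𝒞 e (e x, w))).comp (fderiv ℝ (embC 𝒞 e) (e x, w)) :=
      fderiv_comp (e x, w) hV hAd
    rw [(VV_embC_eventually 𝒞 hh b hx w h1).fderiv_eq, fderiv_clm_apply hA1d (hs b),
      embC_apply_at 𝒞 hx] at h2
    have h3 := congrArg (fun L : (Cm n × Cm n) →L[ℝ] WW 𝒞 => L v) h2
    simp only [ContinuousLinearMap.comp_apply, add_apply, ContinuousLinearMap.flip_apply] at h3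
    rw [← h3]
    abel
  have h1' : ρ (emb 𝒞 e x w) = 1 := h1.self_of_nhds
  rw [VV_emb 𝒞 hh _ hx w h1', VV_emb 𝒞 hh _ hx w h1', key, key,
    spray_bracket (fun i j => hh.smooth_target hx.1 hx.mem_target i j)
      (hh.det_ne_zero_target hx.1 hx.mem_target) w hR]
  congr 1
  have hsym : IsSymmSndFDerivAt ℝ (embC 𝒞 e) (e x, w) :=
    hA.isSymmSndFDerivAt (by simpa using (WithTop.coe_le_coe.2 le_top : ((2 : ℕ∞) : WithTop ℕ∞) ≤ ∞))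
  exact hsym.eq _ _

/-- **Alternative**: either there are test functions on the ambient space whose sum of derivatives
along the two fields is positive on the flat directions, or there is a plane in the image of the
flat directions tangent to the two fields. -/
theorem test_or_plane (𝒞 : Cov (Cm n) X) (hh : IsHermitian h) (hS : IsCompact (SJ 𝒞 h))
    (hZ : IsCompact (ZJ' 𝒞 h)) :
    (∃ Ψ₁ Ψ₂ : WW 𝒞 → ℝ, ContDiff ℝ ∞ Ψ₁ ∧ ContDiff ℝ ∞ Ψ₂ ∧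
      ∀ e x w, At e x → (quad (h e (e x)) w).re = 1 → (∀ l, crv (h e) (e x) w l = 0) →
        0 < fderiv ℝ Ψ₁ (emb 𝒞 e x w) (fderiv ℝ (embC 𝒞 e) (e x, w) (spray (h e) 1 (e x, w))) +
          fderiv ℝ Ψ₂ (emb 𝒞 e x w)
            (fderiv ℝ (embC 𝒞 e) (e x, w) (spray (h e) Complex.I (e x, w)))) ∨
    ∃ (V₁ V₂ : WW 𝒞 → WW 𝒞) (F : ℂ → WW 𝒞),
      (∀ e x w, At e x → (quad (h e (e x)) w).re = 1 →
        V₁ (emb 𝒞 e x w) = fderiv ℝ (embC 𝒞 e) (e x, w) (spray (h e) 1 (e x, w)) ∧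
        V₂ (emb 𝒞 e x w) = fderiv ℝ (embC 𝒞 e) (e x, w) (spray (h e) Complex.I (e x, w))) ∧
      (∀ z, F z ∈ ZJ' 𝒞 h) ∧ ∀ z, HasFDerivAt F
        (Complex.reCLM.smulRight (V₁ (F z)) + Complex.imCLM.smulRight (V₂ (F z))) z := by
  have hSU : SJ 𝒞 h ⊆ {y | 0 < sig 𝒞 y} := by
    rintro y ⟨e, x, w, hx, -, rfl⟩
    exact lt_of_lt_of_le one_pos (one_le_sig 𝒞 w)
  obtain ⟨ρ, K, hρ, hK, hKU, h0, h1⟩ := exists_cutoff hS
    (isOpen_lt continuous_const (sig_contDiff 𝒞).continuous) hSU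
  have hρ1 : ∀ e x w, At e x → (quad (h e (e x)) w).re = 1 →
      ∀ᶠ y in 𝓝 (emb 𝒞 e x w), ρ y = 1 := fun e x w hx hq => h1 _ ⟨e, x, w, hx, hq, rfl⟩
  have hVs : ∀ b, ContDiff ℝ ∞ (VV 𝒞 ρ h b) := fun b => VV_contDiff 𝒞 hh b hρ hK hKU h0
  have hVc : ∀ b, HasCompactSupport (VV 𝒞 ρ h b) := fun b => VV_compact 𝒞 b hK h0
  have hle2 : (2 : WithTop ℕ∞) ≤ ∞ := by exact WithTop.coe_le_coe.2 le_top
  have hle1 : (1 : WithTop ℕ∞) ≤ ∞ := by exact WithTop.coe_le_coe.2 le_top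
  set V : Fin 2 → WW 𝒞 → WW 𝒞 := fun i => VV 𝒞 ρ h (if i = 0 then 1 else Complex.I) with hV
  have hV0 : V 0 = VV 𝒞 ρ h 1 := by simp [V]
  have hV1 : V 1 = VV 𝒞 ρ h Complex.I := by simp [V]
  by_cases hno : ∃ Ψ : Fin 2 → WW 𝒞 → ℝ, (∀ i, ContDiff ℝ ∞ (Ψ i)) ∧
      ∀ z ∈ ZJ' 𝒞 h, 0 < ∑ i, fderiv ℝ (Ψ i) z (V i z)
  · left
    obtain ⟨Ψ, hΨ, hpos⟩ := hno
    refine ⟨Ψ 0, Ψ 1, hΨ 0, hΨ 1, fun e x w hx hq hR => ?_⟩
    have h2 := hpos _ ⟨e, x, w, hx, hq, hR, rfl⟩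
    rw [Fin.sum_univ_two, hV0, hV1] at h2
    have h3 := (hρ1 e x w hx hq).self_of_nhds
    rwa [VV_emb 𝒞 hh _ hx w h3, VV_emb 𝒞 hh _ hx w h3] at h2
  · right
    have hlip : ∀ i, LocallyLipschitz (V i) := fun i => ((hVs _).of_le hle1).locallyLipschitz
    obtain ⟨P, hPZ, ⟨p, hp⟩, hPc, hinv⟩ := sep hlip hZ hno
    obtain ⟨F, -, hFP, hF⟩ := exists_plane' ((hVs 1).of_le hle2) (hVc 1)
      ((hVs Complex.I).of_le hle2) (hVc Complex.I) P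
      (fun γ hγ => hinv 0 γ (by rw [hV0]; exact hγ))
      (fun γ hγ => hinv 1 γ (by rw [hV1]; exact hγ))
      (fun k hk => by
        obtain ⟨e, x, w, hx, hq, hR, rfl⟩ := hPZ hk
        exact VV_bracket 𝒞 hh hρ hK hKU h0 hx w (hρ1 e x w hx hq) hR) hp
    refine ⟨_, _, F, fun e x w hx hq => ?_, fun z => hPZ (hFP z), hF⟩
    have h3 := (hρ1 e x w hx hq).self_of_nhds
    exact ⟨VV_emb 𝒞 hh _ hx w h3, VV_emb 𝒞 hh _ hx w h3⟩

end Vale.Agent.P272.K.T4
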