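import Vale.Agent.P272.K.T4.Comp
import Vale.Agent.P272.K.T4.FlowC

/-! P272/T4: `test_or_plane` with the compactness statements filled in. -/

open scoped Manifold ContDiff ComplexOrder Topology Matrix
open Set Metric

noncomputable section

namespace Vale.Agent.P272.K.T4

open LIN

variable {n : ℕ} {X : Type*} [TopologicalSpace X] [ChartedSpace (Cm n) X]
  {h : Chart n X → Cm n → Matrix (Fin n) (Fin n) ℂ} [IsManifold 𝓘(ℂ, Cm n) ω X] [T2Space X]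

theorem test_or_plane' (𝒞 : Cov (Cm n) X) (hh : IsHermitian h) :
    (∃ Ψ₁ Ψ₂ : WW 𝒞 → ℝ, ContDiff ℝ ∞ Ψ₁ ∧ ContDiff ℝ ∞ Ψ₂ ∧
      ∀ e x w, At e x → (quad (h e (e x)) w).re = 1 → (∀ l, crv (h e) (e x) w l = 0) →
        0 < fderiv ℝ Ψ₁ (emb 𝒞 e x w) (fderiv ℝ (embC 𝒞 e) (e x, w) (spray (h e) 1 (e x, w))) +
          fderiv ℝ Ψ₂ (emb 𝒞 e x w)
            (fderiv ℝ (embC 𝒞 e) (e x, w) (spray (h e) Complex.I (e x, w)))) ∨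
    ∃ (V₁ V₂ : WW 𝒞 → WW 𝒞) (F : ℂ → WW 𝒞),
      (∀ e x w, At e x → (quad (h e (e x)) w).re = 1 →
        V₁ (emb 𝒞 e x w) = fderiv ℝ (embC 𝒞 e) (e x, w) (spray (h e) 1 (e x, w)) ∧
        V₂ (emb 𝒞 e x w) = fderiv ℝ (embC 𝒞 e) (e x, w) (spray (h e) Complex.I (e x, w))) ∧
      (∀ z, F z ∈ ZJ' 𝒞 h) ∧ ∀ z, HasFDerivAt F
        (Complex.reCLM.smulRight (V₁ (F z)) + Complex.imCLM.smulRight (V₂ (F z))) z :=
  test_or_plane 𝒞 hh (isCompact_SJ 𝒞 hh) (isCompact_ZJ' 𝒞 hh)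

end Vale.Agent.P272.K.T4
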