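import Vale.Agent.P272.K.T4.FlowC
import Vale.Agent.P272.K.T4.Curve
import Vale.Agent.P272.K.T4.Laws
import Vale.Agent.P272.K.T4.Comp

/-! P272/T4: the entire curve produced by the dynamical argument is a geodesic. -/

open scoped Manifold ContDiff ComplexOrder Topology Matrix
open Set Metric Filter

set_option linter.unusedSectionVars false

noncomputable section

namespace Vale.Agent.P272.K.T4

open LIN

variable {n : ℕ} {X : Type*} [TopologicalSpace X] [ChartedSpace (Cm n) X]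
  {h : Chart n X → Cm n → Matrix (Fin n) (Fin n) ℂ} {e e' : Chart n X} {x : X}

/-- the fibre component of the embedding in the `i`-th chart -/
def fibi (𝒞 : Cov (Cm n) X) (i : Fin 𝒞.N) : WW 𝒞 →L[ℝ] Cm n :=
  (ContinuousLinearMap.snd ℝ (Cm n) (Cm n)).comp
    ((ContinuousLinearMap.snd ℝ ℝ (Cm n × Cm n)).comp (ContinuousLinearMap.proj i))

lemma fibi_apply (𝒞 : Cov (Cm n) X) (i : Fin 𝒞.N) (y : WW 𝒞) : fibi 𝒞 i y = (y i).2.2 := rfl

variable [IsManifold 𝓘(ℂ, Cm n) ω X] [T2Space X]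

lemma fderiv_embC_fib {𝒞 : Cov (Cm n) X} {i : Fin 𝒞.N} (hi : x ∈ (𝒞.e i).source)
    (hb : 𝒞.e i x ∈ ball (𝒞.c i) (2 * 𝒞.r i)) (w : Cm n) (u v : Cm n) :
    (fderiv ℝ (embC 𝒞 (𝒞.e i)) (𝒞.e i x, w) (u, v) i).2.2 = v := by
  have hi' : At (𝒞.e i) x := ⟨𝒞.mem i, hi⟩
  have hd : DifferentiableAt ℝ (embC 𝒞 (𝒞.e i)) (𝒞.e i x, w) :=
    (embC_contDiffAt 𝒞 hi'.1 hi'.mem_target w).differentiableAt (by simp)
  have h1 : HasFDerivAt (fun p => fibi 𝒞 i (embC 𝒞 (𝒞.e i) p))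
      ((fibi 𝒞 i).comp (fderiv ℝ (embC 𝒞 (𝒞.e i)) (𝒞.e i x, w))) (𝒞.e i x, w) :=
    (fibi 𝒞 i).hasFDerivAt.comp (𝒞.e i x, w) hd.hasFDerivAt
  have h2 : HasFDerivAt (fun p : Cm n × Cm n => p.2) (ContinuousLinearMap.snd ℝ (Cm n) (Cm n))
      (𝒞.e i x, w) := hasFDerivAt_snd
  have h3 : (fun p => fibi 𝒞 i (embC 𝒞 (𝒞.e i) p)) =ᶠ[𝓝 (𝒞.e i x, w)]
      fun p : Cm n × Cm n => p.2 := by
    have h4 : Tendsto (fun p : Cm n × Cm n => p.1) (𝓝 (𝒞.e i x, w)) (𝓝 (𝒞.e i x)) :=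
      continuous_fst.continuousAt (x := (𝒞.e i x, w))
    filter_upwards [h4.eventually (eventually_η hi' hi hb), h4.eventually hi'.nhds_target]
      with p hp hp2
    simp only [fibi_apply, embC, emb]
    rw [hp, one_smul, jacM_self (At.of_target hi'.1 hp2), Matrix.one_mulVec]
  have h5 := h1.unique (h2.congr_of_eventuallyEq h3)
  have h6 := congrArg (fun L => L (u, v)) h5
  simpa only [ContinuousLinearMap.comp_apply, fibi_apply, ContinuousLinearMap.coe_snd'] using h6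

/-- the velocity of the curve of `exists_entire_deriv` satisfies the geodesic equation -/
theorem geodesic_of_plane {𝒞 : Cov (Cm n) X} (hh : IsHermitian h) {F : ℂ → WW 𝒞}
    {V₁ V₂ : WW 𝒞 → WW 𝒞}
    (hF : ∀ z, HasFDerivAt F
      (Complex.reCLM.smulRight (V₁ (F z)) + Complex.imCLM.smulRight (V₂ (F z))) z)
    (hV : ∀ e x w, At e x → (quad (h e (e x)) w).re = 1 →
        V₁ (emb 𝒞 e x w) = fderiv ℝ (embC 𝒞 e) (e x, w) (spray (h e) 1 (e x, w)) ∧
        V₂ (emb 𝒞 e x w) = fderiv ℝ (embC 𝒞 e) (e x, w) (spray (h e) Complex.I (e x, w)))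
    {e₀ : ℂ → Chart n X} {f : ℂ → X} {w₀ : ℂ → Cm n} (hAt : ∀ z, At (e₀ z) (f z))
    (hFe : ∀ z, F z = emb 𝒞 (e₀ z) (f z) (w₀ z))
    (hq : ∀ z, (quad (h (e₀ z) (e₀ z (f z))) (w₀ z)).re = 1)
    (hf : Continuous f)
    (hder : ∀ z e', At e' (f z) →
      HasDerivAt (fun ζ => e' (f ζ)) ((jacM (e₀ z) e' (f z)).mulVec (w₀ z)) z)
    (z₀ : ℂ) (e' : Chart n X) (he' : At e' (f z₀)) :
    HasDerivAt (fun z => deriv (fun ζ => e' (f ζ)) z)
      (-chr (h e') (e' (f z₀)) (deriv (fun ζ => e' (f ζ)) z₀)) z₀ := by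
  -- general facts
  have hd : ∀ z e, At e (f z) → deriv (fun ζ => e (f ζ)) z =
      (jacM (e₀ z) e (f z)).mulVec (w₀ z) := fun z e he => (hder z e he).deriv
  have hF1 : ∀ z e, At e (f z) → F z = emb 𝒞 e (f z) (deriv (fun ζ => e (f ζ)) z) := by
    intro z e he
    rw [hFe z, emb_change 𝒞 (hAt z) he, hd z e he]
  have hq1 : ∀ z e, At e (f z) → (quad (h e (e (f z))) (deriv (fun ζ => e (f ζ)) z)).re = 1 := by
    intro z e he
    rw [hd z e he, ← hq z]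
    exact congrArg Complex.re (quad_change hh (hAt z) he (w₀ z)).symm
  -- the chart of the covering
  obtain ⟨i, hi, hb⟩ := 𝒞.cover (f z₀)
  have hr := 𝒞.r_pos i
  have hi' : At (𝒞.e i) (f z₀) := ⟨𝒞.mem i, hi⟩
  have hb2 : 𝒞.e i (f z₀) ∈ ball (𝒞.c i) (2 * 𝒞.r i) := ball_subset_ball (by linarith) hb
  set W : ℂ → Cm n := fun z => deriv (fun ζ => 𝒞.e i (f ζ)) z with hW
  have hev : ∀ᶠ z in 𝓝 z₀, f z ∈ (𝒞.e i).source ∧ W z = (F z i).2.2 := by
    have h1 : ∀ᶠ z in 𝓝 z₀, f z ∈ (𝒞.e i).source :=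
      hf.continuousAt.eventually ((𝒞.e i).open_source.mem_nhds hi)
    have h2 : ∀ᶠ z in 𝓝 z₀, 𝒞.e i (f z) ∈ ball (𝒞.c i) (2 * 𝒞.r i) :=
      (ContinuousAt.comp (g := 𝒞.e i) ((𝒞.e i).continuousAt hi) hf.continuousAt).eventually
        (isOpen_ball.mem_nhds hb2)
    filter_upwards [h1, h2] with z hz1 hz2
    refine ⟨hz1, ?_⟩
    have hz : At (𝒞.e i) (f z) := ⟨𝒞.mem i, hz1⟩
    have h3 : (F z i).2.2 = 𝒞.η i (f z) • (jacM (𝒞.e i) (𝒞.e i) (f z)).mulVec (W z) := by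
      rw [hF1 z _ hz]; rfl
    rw [h3, 𝒞.η_eq_one hz1 (ball_subset_closedBall hz2), one_smul, jacM_self hz,
      Matrix.one_mulVec]
  -- the derivative of `W`
  have hWd : HasDerivAt W (-chr (h (𝒞.e i)) (𝒞.e i (f z₀)) (W z₀)) z₀ := by
    have h1 : HasFDerivAt (fun z => fibi 𝒞 i (F z))
        ((fibi 𝒞 i).comp (Complex.reCLM.smulRight (V₁ (F z₀)) +
          Complex.imCLM.smulRight (V₂ (F z₀)))) z₀ :=
      (fibi 𝒞 i).hasFDerivAt.comp z₀ (hF z₀)
    have hV' := hV (𝒞.e i) (f z₀) (W z₀) hi' (hq1 z₀ _ hi')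
    rw [← hF1 z₀ _ hi'] at hV'
    have h2 : HasFDerivAt (𝕜 := ℂ) (fun z => fibi 𝒞 i (F z))
        (ContinuousLinearMap.toSpanSingleton ℂ
          (-chr (h (𝒞.e i)) (𝒞.e i (f z₀)) (W z₀))) z₀ := by
      refine hasFDerivAt_of_restrictScalars ℝ h1 ?_
      ext1 ζ
      simp only [ContinuousLinearMap.coe_restrictScalars', ContinuousLinearMap.comp_apply,
        fibi_apply, add_apply, ContinuousLinearMap.smulRight_apply,
        Complex.reCLM_apply, Complex.imCLM_apply, Pi.add_apply, Pi.smul_apply, Prod.snd_add,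
        Prod.smul_snd, ContinuousLinearMap.toSpanSingleton_apply]
      rw [hV'.1, hV'.2]
      simp only [spray]
      rw [fderiv_embC_fib hi hb2, fderiv_embC_fib hi hb2, one_smul]
      rw [← Complex.coe_smul, ← Complex.coe_smul, ← smul_neg, smul_smul, ← add_smul,
        Complex.re_add_im]
    have h3 := h2.hasDerivAt
    rw [ContinuousLinearMap.toSpanSingleton_apply, one_smul] at h3
    refine h3.congr_of_eventuallyEq ?_
    filter_upwards [hev] with z hz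
    exact hz.2
  -- transfer to the chart `e'`
  have hev' : (fun z => (e' (f z), deriv (fun ζ => e' (f ζ)) z)) =ᶠ[𝓝 z₀]
      fun z => TM (𝒞.e i) e' (𝒞.e i (f z), W z) := by
    have h1 : ∀ᶠ z in 𝓝 z₀, f z ∈ e'.source :=
      hf.continuousAt.eventually (e'.open_source.mem_nhds he'.2)
    filter_upwards [hev, h1] with z hz1 hz2
    have a1 : At (𝒞.e i) (f z) := ⟨𝒞.mem i, hz1.1⟩
    have a2 : At e' (f z) := ⟨he'.1, hz2⟩
    simp only [TM]
    rw [a1.left_inv]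
    refine Prod.ext rfl ?_
    simp only [hW]
    rw [hd z e' a2, hd z _ a1, jacM_comp (hAt z) a1 a2, ← Matrix.mulVec_mulVec]
  have hb1 : HasDerivAt (fun z => 𝒞.e i (f z)) (W z₀) z₀ := by
    have := hder z₀ _ hi'
    rwa [← this.deriv] at this
  have hpair : HasFDerivAt (fun z => (𝒞.e i (f z), W z))
      ((((ContinuousLinearMap.toSpanSingleton ℂ (W z₀)).prod
        (ContinuousLinearMap.toSpanSingleton ℂ
          (-chr (h (𝒞.e i)) (𝒞.e i (f z₀)) (W z₀)))).restrictScalars ℝ)) z₀ :=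
    (HasFDerivAt.prodMk hb1.hasFDerivAt hWd.hasFDerivAt).restrictScalars ℝ
  have hTMd : HasFDerivAt (TM (𝒞.e i) e') (fderiv ℝ (TM (𝒞.e i) e') (𝒞.e i (f z₀), W z₀))
      (𝒞.e i (f z₀), W z₀) :=
    ((TM_contDiffAt hi' he' (W z₀)).differentiableAt (by simp)).hasFDerivAt
  have hcomp := HasFDerivAt.comp z₀ hTMd hpair
  have hval : TM (𝒞.e i) e' (𝒞.e i (f z₀), W z₀) =
      (e' (f z₀), deriv (fun ζ => e' (f ζ)) z₀) := hev'.self_of_nhds.symm
  have h2 : HasFDerivAt (fun z => (e' (f z), deriv (fun ζ => e' (f ζ)) z)) _ z₀ :=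
    hcomp.congr_of_eventuallyEq hev'
  have h3 := h2.snd
  have h4 : HasFDerivAt (𝕜 := ℂ) (fun z => deriv (fun ζ => e' (f ζ)) z)
      (ContinuousLinearMap.toSpanSingleton ℂ
        (-chr (h e') (e' (f z₀)) (deriv (fun ζ => e' (f ζ)) z₀))) z₀ := by
    refine hasFDerivAt_of_restrictScalars ℝ h3 ?_
    ext1 ζ
    simp only [ContinuousLinearMap.coe_restrictScalars', ContinuousLinearMap.comp_apply,
      ContinuousLinearMap.toSpanSingleton_apply, ContinuousLinearMap.coe_snd',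
      ContinuousLinearMap.prod_apply]
    have a1 := TM_spray hh hi' he' ζ (W z₀)
    rw [hval] at a1
    have a2 : spray (h (𝒞.e i)) ζ (𝒞.e i (f z₀), W z₀) =
        (ζ • W z₀, ζ • -chr (h (𝒞.e i)) (𝒞.e i (f z₀)) (W z₀)) := by
      simp only [spray, smul_neg]
    rw [a2] at a1
    rw [a1]
    simp only [spray, smul_neg]
  have h5 := h4.hasDerivAt
  rwa [ContinuousLinearMap.toSpanSingleton_apply, one_smul] at h5

end Vale.Agent.P272.K.T4
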