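import Vale.Agent.P272.K.LIN.Cov
import Vale.Agent.P272.K.Inv.Consts

/-! P272/T4, block (b2): definitions for the embedding of the tangent bundle. -/

open scoped Manifold ContDiff ComplexOrder Topology
open Set Metric

noncomputable section

namespace Vale.Agent.P272.K.T4

open LIN

variable {n : ℕ}

/-- the Christoffel vector `Γ_h(w,w)` of the Chern connection of `h` at `z` -/
def chr (h : Cm n → Matrix (Fin n) (Fin n) ℂ) (z w : Cm n) : Cm n :=
  fun m => ∑ i, ∑ k, w i * w k * ∑ q, dz i (fun y => h y k q) z * (h z)⁻¹ q m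

/-- the complex spray multiplied by `b`, at the point `p = (z,w)` of the tangent bundle -/
def spray (h : Cm n → Matrix (Fin n) (Fin n) ℂ) (b : ℂ) (p : Cm n × Cm n) : Cm n × Cm n :=
  (b • p.2, -(b • chr h p.1 p.2))

variable {X : Type*} [TopologicalSpace X] [ChartedSpace (Cm n) X]

/-- the target space of the embedding of the tangent bundle -/
abbrev WW (𝒞 : Cov (Cm n) X) : Type := Fin 𝒞.N → ℝ × Cm n × Cm n

/-- the image of the tangent vector at `x` with components `w` in the chart `e` -/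
def emb (𝒞 : Cov (Cm n) X) (e : Chart n X) (x : X) (w : Cm n) : WW 𝒞 := fun i =>
  (𝒞.η i x, 𝒞.η i x • (𝒞.e i x - 𝒞.c i), 𝒞.η i x • (jacM e (𝒞.e i) x).mulVec w)

/-- the embedding in the chart `e` -/
def embC (𝒞 : Cov (Cm n) X) (e : Chart n X) (p : Cm n × Cm n) : WW 𝒞 := emb 𝒞 e (e.symm p.1) p.2

/-- the image of the unit sphere bundle -/
def SJ (𝒞 : Cov (Cm n) X) (h : Chart n X → Cm n → Matrix (Fin n) (Fin n) ℂ) : Set (WW 𝒞) :=
  {y | ∃ e x w, At e x ∧ (quad (h e (e x)) w).re = 1 ∧ y = emb 𝒞 e x w}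

/-- the image of the set of unit vectors of vanishing holomorphic sectional curvature -/
def ZJ (𝒞 : Cov (Cm n) X) (h : Chart n X → Cm n → Matrix (Fin n) (Fin n) ℂ) : Set (WW 𝒞) :=
  {y | ∃ e x w, At e x ∧ (quad (h e (e x)) w).re = 1 ∧ (quart (curv (h e) (e x)) w).re = 0 ∧
    y = emb 𝒞 e x w}

end Vale.Agent.P272.K.T4
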