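import Vale.Agent.P272.K.T4.Stmt
import Vale.Agent.P272.K.T4.EmbDefs
import Vale.Agent.P272.K.P1.Square
import Vale.Agent.P272.K.INT.Dens

/-! P272/T4: definitions shared by the blocks of T4+ (functions on the tangent bundle, spray
derivative, fibre averages) and the exact statements of the blocks. -/

open scoped Manifold ContDiff ComplexOrder Topology
open Set Metric MeasureTheory

noncomputable section

namespace Vale.Agent.P272.K.T4

open INT (IsDensity intX)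

variable {n : ℕ} {X : Type*} [TopologicalSpace X] [ChartedSpace (Cm n) X]

/-- a function on the tangent bundle, given in the charts: `F e z w` is its value at the tangent
vector with components `w` in the chart `e` at the point with coordinates `z` -/
def IsTFun {V : Type*} (F : Chart n X → Cm n → Cm n → V) : Prop :=
  ∀ e e' x w, At e x → At e' x → F e (e x) w = F e' (e' x) ((jacM e e' x).mulVec w)

/-- smooth function on the tangent bundle -/
structure SmTFun (F : Chart n X → Cm n → Cm n → ℝ) : Prop where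
  change : IsTFun F
  smooth : ∀ e x w, At e x → ContDiffAt ℝ ∞ (fun p : Cm n × Cm n => F e p.1 p.2) (e x, w)

/-- continuous function on the tangent bundle -/
structure CTFun (F : Chart n X → Cm n → Cm n → ℝ) : Prop where
  change : IsTFun F
  cont : ∀ e x w, At e x → ContinuousAt (fun p : Cm n × Cm n => F e p.1 p.2) (e x, w)

/-- derivative of a function on the tangent bundle along the real field `Re`-part of
`b • (geodesic spray of g)`: `(Y_b^g F)(z,w) = DF(z,w)(b w, -b Γ_g(z)(w,w))` -/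
def Yd (g : Chart n X → Cm n → Matrix (Fin n) (Fin n) ℂ) (b : ℂ)
    (F : Chart n X → Cm n → Cm n → ℝ) (e : Chart n X) (z w : Cm n) : ℝ :=
  fderiv ℝ (fun p : Cm n × Cm n => F e p.1 p.2) (z, w) (spray (g e) b (z, w))

/-- vertical derivative -/
def Wd (F : Chart n X → Cm n → Cm n → ℝ) (e : Chart n X) (z w v : Cm n) : ℝ :=
  fderiv ℝ (fun p : Cm n × Cm n => F e p.1 p.2) (z, w) (0, v)

/-- fibre average with the radial weight `χ (g(w,w))` -/
def Eg (χ : ℝ → ℝ) (g : Chart n X → Cm n → Matrix (Fin n) (Fin n) ℂ)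
    (F : Chart n X → Cm n → Cm n → ℝ) (e : Chart n X) (z : Cm n) : ℝ :=
  ∫ w : Cm n, F e z w * χ (quad (g e z) w).re * (g e z).det.re

/-- `|w|_h²` -/
def nq (h : Chart n X → Cm n → Matrix (Fin n) (Fin n) ℂ) (e : Chart n X) (z w : Cm n) : ℝ :=
  (quad (h e z) w).re

/-- `|Γ_h(w,w) - Γ_g(w,w)|_h²` -/
def Pq (g h : Chart n X → Cm n → Matrix (Fin n) (Fin n) ℂ) (e : Chart n X) (z w : Cm n) : ℝ :=
  (quad (h e z) (P1.dGam (g e) (h e) z w)).re

/-- `-R^h(w,w̄,w,w̄)` -/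
def Rq (h : Chart n X → Cm n → Matrix (Fin n) (Fin n) ℂ) (e : Chart n X) (z w : Cm n) : ℝ :=
  -(quart (curv (h e) z) w).re

/-- the covector `R^h(w, w̄, w, ·)` -/
def xiL (h : Cm n → Matrix (Fin n) (Fin n) ℂ) (z w : Cm n) (l : Fin n) : ℂ :=
  ∑ i, ∑ j, ∑ k, curv h z i j k l * (w i * cj (w j) * w k)

/-- the vector `R^h(w, w̄) w` -/
def xiV (h : Cm n → Matrix (Fin n) (Fin n) ℂ) (z w : Cm n) : Cm n :=
  fun m => ∑ l, xiL h z w l * (h z)⁻¹ l m

/-- `|R^h(w,w̄)w|_h² / (1 + |w|_h²)` -/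
def Dq (h : Chart n X → Cm n → Matrix (Fin n) (Fin n) ℂ) (e : Chart n X) (z w : Cm n) : ℝ :=
  (quad (h e z) (xiV (h e) z w)).re / (1 + (quad (h e z) w).re)

/-- `tr_g h` -/
def Tr (g h : Chart n X → Cm n → Matrix (Fin n) (Fin n) ℂ) (e : Chart n X) (z : Cm n) : ℝ :=
  ((g e z)⁻¹ * h e z).trace.re

/-- `det g` -/
def dt (g : Chart n X → Cm n → Matrix (Fin n) (Fin n) ℂ) (e : Chart n X) (z : Cm n) : ℝ :=
  (g e z).det.re

/-- `Ric(g) ≥ -g` -/
def RicGe (g : Chart n X → Cm n → Matrix (Fin n) (Fin n) ℂ) : Prop :=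
  ∀ e x, At e x → (-cHess (fun z => Real.log (g e z).det.re) (e x) + g e (e x)).PosSemidef

/-- `χ` is an admissible weight -/
structure Wt (χ : ℝ → ℝ) : Prop where
  smooth : ContDiff ℝ ∞ χ
  nonneg : ∀ s, 0 ≤ χ s
  pos : 0 < χ 0
  zero : ∀ s, 1 ≤ s → χ s = 0

/-! ### The blocks -/

/-- Block A (L1), helper791 -/
def L1Statement (n : ℕ) (X : Type) [TopologicalSpace X] [T2Space X] [CompactSpace X]
    [ChartedSpace (Cm n) X] [IsManifold 𝓘(ℂ, Cm n) ω X] : Prop :=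
  ∀ (χ : ℝ → ℝ) (_ : Wt χ) (g : Chart n X → Cm n → Matrix (Fin n) (Fin n) ℂ) (_ : IsKahler g)
    (F : Chart n X → Cm n → Cm n → ℝ) (_ : SmTFun F) (b : ℂ),
    intX (fun e z => Eg χ g (Yd g b F) e z * dt g e z) = 0

/-- Block A (L2), helper791 -/
def L2Statement (n : ℕ) (X : Type) [TopologicalSpace X] [T2Space X] [CompactSpace X]
    [ChartedSpace (Cm n) X] [IsManifold 𝓘(ℂ, Cm n) ω X] : Prop :=
  ∀ (χ : ℝ → ℝ) (_ : Wt χ), ∃ C : ℝ, 0 ≤ C ∧
    ∀ (h : Chart n X → Cm n → Matrix (Fin n) (Fin n) ℂ) (_ : IsHermitian h)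
      (g : Chart n X → Cm n → Matrix (Fin n) (Fin n) ℂ) (_ : IsKahler g) (_ : RicGe g),
    intX (fun e z => Eg χ g (fun e z w => Pq g h e z w + Rq h e z w) e z * dt g e z) ≤
      C * intX (fun e z => Tr g h e z * dt g e z)

/-- Block A (moments), helper791: `E|w|_h⁴ ≥ c (tr_g h)²`, `E 1 = const` -/
def MomStatement (n : ℕ) (X : Type) [TopologicalSpace X] [T2Space X] [CompactSpace X]
    [ChartedSpace (Cm n) X] [IsManifold 𝓘(ℂ, Cm n) ω X] : Prop :=
  ∀ (χ : ℝ → ℝ) (_ : Wt χ), ∃ c C : ℝ, 0 < c ∧ 0 ≤ C ∧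
    ∀ (h : Chart n X → Cm n → Matrix (Fin n) (Fin n) ℂ) (_ : IsHermitian h)
      (g : Chart n X → Cm n → Matrix (Fin n) (Fin n) ℂ) (_ : IsHermitian g) (e : Chart n X) (x : X),
      At e x → c * Tr g h e (e x) ^ 2 ≤ Eg χ g (fun e z w => nq h e z w ^ 2) e (e x) ∧
        Eg χ g (fun _ _ _ => 1) e (e x) ≤ C

/-- Block A (density), helper791 -/
def DensStatement (n : ℕ) (X : Type) [TopologicalSpace X] [T2Space X] [CompactSpace X]
    [ChartedSpace (Cm n) X] [IsManifold 𝓘(ℂ, Cm n) ω X] : Prop :=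
  ∀ (χ : ℝ → ℝ) (_ : Wt χ) (g : Chart n X → Cm n → Matrix (Fin n) (Fin n) ℂ) (_ : IsHermitian g)
    (F : Chart n X → Cm n → Cm n → ℝ) (_ : CTFun F),
    (∀ e x, At e x → Integrable fun w : Cm n =>
      F e (e x) w * χ (quad (g e (e x)) w).re * (g e (e x)).det.re) ∧
    IsDensity fun e z => Eg χ g F e z * dt g e z

/-- Block L5, helper327 (the new estimate of T4+) -/
def L5Statement (n : ℕ) (X : Type) [TopologicalSpace X] [T2Space X] [CompactSpace X]
    [ChartedSpace (Cm n) X] [IsManifold 𝓘(ℂ, Cm n) ω X] : Prop :=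
  ∀ (χ : ℝ → ℝ) (_ : Wt χ) (h : Chart n X → Cm n → Matrix (Fin n) (Fin n) ℂ) (_ : IsHermitian h)
    (_ : NonposHSC h) (ε : ℝ), 0 < ε → ∃ C : ℝ, 0 ≤ C ∧
      ∀ (g : Chart n X → Cm n → Matrix (Fin n) (Fin n) ℂ) (_ : IsKahler g) (_ : RicGe g),
      intX (fun e z => Eg χ g (Dq h) e z * dt g e z) ≤
        ε * intX (fun e z => Tr g h e z ^ 2 * dt g e z) +
          C * intX (fun e z => (Tr g h e z + 1) * dt g e z)

/-- Block B (dynamics + homogenisation), helpers 977, 804, 527, 705 -/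
def CoerStatement (n : ℕ) (X : Type) [TopologicalSpace X] [T2Space X] [CompactSpace X]
    [ChartedSpace (Cm n) X] [IsManifold 𝓘(ℂ, Cm n) ω X] : Prop :=
  ∀ (_ : BrodyHyperbolic n X) (h : Chart n X → Cm n → Matrix (Fin n) (Fin n) ℂ)
    (_ : IsHermitian h), ∃ (c C : ℝ) (F₁ F₂ : Chart n X → Cm n → Cm n → ℝ), 0 ≤ c ∧ 0 ≤ C ∧
      SmTFun F₁ ∧ SmTFun F₂ ∧
      (∀ e x w v, At e x → |Wd F₁ e (e x) w v| ≤ C * nq h e (e x) w * √(nq h e (e x) v)) ∧
      (∀ e x w v, At e x → |Wd F₂ e (e x) w v| ≤ C * nq h e (e x) w * √(nq h e (e x) v)) ∧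
      ∀ e x w, At e x → nq h e (e x) w ^ 2 ≤
        C + c * Dq h e (e x) w + Yd h 1 F₁ e (e x) w + Yd h Complex.I F₂ e (e x) w

end Vale.Agent.P272.K.T4
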