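import Vale.Agent.P272.K.T4.Defs
import Vale.Agent.P272.K.INT.Wirt

/-!
# Geodesic spray of a Kähler metric: invariance of the Liouville measure, in one chart

`P = ℂⁿ × ℂⁿ`, points `p = (z, w)`, `w` a tangent vector at `z`.
-/

open scoped Manifold ContDiff ComplexOrder Topology
open Complex Set Filter MeasureTheory

set_option linter.all false

noncomputable section

namespace Vale.Agent.P272.K.T4

variable {n : ℕ}

/-- the entrywise derivative `∂_k g` of a matrix function -/
def dM (k : Fin n) (g : Cm n → Matrix (Fin n) (Fin n) ℂ) (z : Cm n) : Matrix (Fin n) (Fin n) ℂ :=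
  Matrix.of fun a b => dz k (fun y => g y a b) z

/-- the Christoffel vector in terms of `dM` -/
lemma chr_dM (g : Cm n → Matrix (Fin n) (Fin n) ℂ) (z w : Cm n) (m : Fin n) : chr g z w m =
    ∑ k, w k * ∑ i, w i * (dM k g z * (g z)⁻¹) i m := by
  unfold chr
  refine Finset.sum_congr rfl fun k _ => ?_
  rw [Finset.mul_sum]
  refine Finset.sum_congr rfl fun i _ => ?_
  rw [Matrix.mul_apply, mul_assoc]
  rfl

/-- the complex spray `w_k ∂/∂z_k - Γ(w,w)^m ∂/∂w_m` -/
def spr (g : Cm n → Matrix (Fin n) (Fin n) ℂ) (F : Cm n × Cm n → ℂ) (p : Cm n × Cm n) : ℂ :=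
  ∑ k, p.2 k * dz k (fun y => F (y, p.2)) p.1 -
    ∑ m, chr g p.1 p.2 m * dz m (fun y => F (p.1, y)) p.2

instance haarP : (volume : Measure (Cm n × Cm n)).IsAddHaarMeasure :=
  Measure.prod.instIsAddHaarMeasure _ _

/-! ### partial derivatives on the product -/

section prod
variable {F G : Cm n × Cm n → ℂ} {p : Cm n × Cm n} {k : Fin n}

lemma diff_fst (h : DifferentiableAt ℝ F p) : DifferentiableAt ℝ (fun y => F (y, p.2)) p.1 := by
  have h1 : DifferentiableAt ℝ (fun y : Cm n => (y, p.2)) p.1 :=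
    differentiableAt_id.prodMk (differentiableAt_const _)
  exact DifferentiableAt.comp (f := fun y : Cm n => (y, p.2)) (g := F) p.1 h h1

lemma diff_snd (h : DifferentiableAt ℝ F p) : DifferentiableAt ℝ (fun y => F (p.1, y)) p.2 := by
  have h1 : DifferentiableAt ℝ (fun y : Cm n => (p.1, y)) p.2 :=
    (differentiableAt_const _).prodMk differentiableAt_id
  exact DifferentiableAt.comp (f := fun y : Cm n => (p.1, y)) (g := F) p.2 h h1

lemma fderiv_fst (h : DifferentiableAt ℝ F p) (v : Cm n) :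
    fderiv ℝ (fun y => F (y, p.2)) p.1 v = fderiv ℝ F p (v, 0) := by
  have h1 : HasFDerivAt (fun y : Cm n => (y, p.2))
      ((ContinuousLinearMap.id ℝ (Cm n)).prod (0 : Cm n →L[ℝ] Cm n)) p.1 :=
    (hasFDerivAt_id _).prodMk (hasFDerivAt_const _ _)
  have h2 : HasFDerivAt (fun y => F (y, p.2)) _ p.1 :=
    HasFDerivAt.comp (g := F) (f := fun y : Cm n => (y, p.2)) p.1 h.hasFDerivAt h1
  rw [h2.fderiv]; rfl

lemma fderiv_snd (h : DifferentiableAt ℝ F p) (v : Cm n) :
    fderiv ℝ (fun y => F (p.1, y)) p.2 v = fderiv ℝ F p (0, v) := by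
  have h1 : HasFDerivAt (fun y : Cm n => (p.1, y))
      ((0 : Cm n →L[ℝ] Cm n).prod (ContinuousLinearMap.id ℝ (Cm n))) p.2 :=
    (hasFDerivAt_const _ _).prodMk (hasFDerivAt_id _)
  have h2 : HasFDerivAt (fun y => F (p.1, y)) _ p.2 :=
    HasFDerivAt.comp (g := F) (f := fun y : Cm n => (p.1, y)) p.2 h.hasFDerivAt h1
  rw [h2.fderiv]; rfl

lemma dz_fst_eq (h : DifferentiableAt ℝ F p) : dz k (fun y => F (y, p.2)) p.1 =
    (fderiv ℝ F p (Pi.single k 1, 0) - I * fderiv ℝ F p (Pi.single k I, 0)) / 2 := by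
  unfold dz; rw [fderiv_fst h, fderiv_fst h]

lemma dz_snd_eq (h : DifferentiableAt ℝ F p) : dz k (fun y => F (p.1, y)) p.2 =
    (fderiv ℝ F p (0, Pi.single k 1) - I * fderiv ℝ F p (0, Pi.single k I)) / 2 := by
  unfold dz; rw [fderiv_snd h, fderiv_snd h]

lemma integral_fderiv_zero (hF : ContDiff ℝ 1 F) (hc : HasCompactSupport F) (v : Cm n × Cm n) :
    ∫ p, fderiv ℝ F p v = 0 := by
  have h1 : Continuous (fun z => fderiv ℝ F z v) :=
    (hF.continuous_fderiv (by norm_num)).clm_apply continuous_const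
  have h2 : HasCompactSupport (fun z => fderiv ℝ F z v) := hc.fderiv_apply (𝕜 := ℝ) v
  have := integral_mul_fderiv_eq_neg_fderiv_mul_of_integrable
    (μ := (volume : Measure (Cm n × Cm n)))
    (f := fun _ => (1 : ℂ)) (g := F) (v := v)
    (by simp)
    (by simpa using h1.integrable_of_hasCompactSupport h2)
    (by simpa using hF.continuous.integrable_of_hasCompactSupport hc)
    (by fun_prop) (fun x _ => hF.differentiable (by norm_num) x)
  simpa using this

lemma integrable_fd (hF : ContDiff ℝ 1 F) (hc : HasCompactSupport F) (v : Cm n × Cm n) :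
    Integrable (fun p => fderiv ℝ F p v) :=
  ((hF.continuous_fderiv (by norm_num)).clm_apply
    continuous_const).integrable_of_hasCompactSupport (hc.fderiv_apply (𝕜 := ℝ) v)

lemma integral_dz_fst (hF : ContDiff ℝ 1 F) (hc : HasCompactSupport F) :
    Integrable (fun p : Cm n × Cm n => dz k (fun y => F (y, p.2)) p.1) ∧
    ∫ p : Cm n × Cm n, dz k (fun y => F (y, p.2)) p.1 = 0 := by
  have h0 : (fun p : Cm n × Cm n => dz k (fun y => F (y, p.2)) p.1) = fun p =>
      (fderiv ℝ F p (Pi.single k 1, 0) - I * fderiv ℝ F p (Pi.single k I, 0)) / 2 := by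
    funext p; exact dz_fst_eq (hF.differentiable (by norm_num) p)
  rw [h0]
  refine ⟨((integrable_fd hF hc _).sub ((integrable_fd hF hc _).const_mul I)).div_const 2, ?_⟩
  rw [integral_div, integral_sub (integrable_fd hF hc _) ((integrable_fd hF hc _).const_mul I),
    integral_const_mul, integral_fderiv_zero hF hc, integral_fderiv_zero hF hc]
  simp

lemma integral_dz_snd (hF : ContDiff ℝ 1 F) (hc : HasCompactSupport F) :
    Integrable (fun p : Cm n × Cm n => dz k (fun y => F (p.1, y)) p.2) ∧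
    ∫ p : Cm n × Cm n, dz k (fun y => F (p.1, y)) p.2 = 0 := by
  have h0 : (fun p : Cm n × Cm n => dz k (fun y => F (p.1, y)) p.2) = fun p =>
      (fderiv ℝ F p (0, Pi.single k 1) - I * fderiv ℝ F p (0, Pi.single k I)) / 2 := by
    funext p; exact dz_snd_eq (hF.differentiable (by norm_num) p)
  rw [h0]
  refine ⟨((integrable_fd hF hc _).sub ((integrable_fd hF hc _).const_mul I)).div_const 2, ?_⟩
  rw [integral_div, integral_sub (integrable_fd hF hc _) ((integrable_fd hF hc _).const_mul I),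
    integral_const_mul, integral_fderiv_zero hF hc, integral_fderiv_zero hF hc]
  simp

end prod

/-! ### derivatives of the coordinates of the fibre -/

lemma dz_coord (k i : Fin n) (w : Cm n) : dz k (fun y : Cm n => y i) w = if k = i then 1 else 0 := by
  have h : DifferentiableAt ℂ (fun y : Cm n => y i) w := differentiableAt_apply i w
  rw [dz_of_holo h]
  have : fderiv ℂ (fun y : Cm n => y i) w = ContinuousLinearMap.proj i :=
    (ContinuousLinearMap.proj (R := ℂ) (φ := fun _ : Fin n => ℂ) i).hasFDerivAt.fderiv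
  rw [this]
  simp [Pi.single_apply, eq_comm]

lemma dz_conj_coord (k i : Fin n) (w : Cm n) : dz k (fun y : Cm n => cj (y i)) w = 0 := by
  have h : DifferentiableAt ℂ (fun y : Cm n => y i) w := differentiableAt_apply i w
  rw [dz_cj (h.restrictScalars ℝ), dzb_of_holo h]
  simp [cj]

lemma diff_coord (i : Fin n) (w : Cm n) : DifferentiableAt ℝ (fun y : Cm n => y i) w :=
  differentiableAt_apply i w

lemma diff_conj_coord (i : Fin n) (w : Cm n) : DifferentiableAt ℝ (fun y : Cm n => cj (y i)) w :=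
  (Complex.conjCLE.differentiableAt).comp w (differentiableAt_apply i w)

/-- `∂/∂w_m` of `g(w,w)` -/
lemma dz_quad_snd (M : Matrix (Fin n) (Fin n) ℂ) (m : Fin n) (w : Cm n) :
    dz m (fun y => quad M y) w = ∑ j, M m j * cj (w j) := by
  unfold quad
  have hd : ∀ i j, DifferentiableAt ℝ (fun y : Cm n => M i j * (y i * cj (y j))) w := fun i j =>
    ((diff_coord i w).mul (diff_conj_coord j w)).const_mul _
  rw [dz_sum _ fun i _ => DifferentiableAt.fun_sum fun j _ => hd i j]
  have h1 : ∀ i, dz m (fun y : Cm n => ∑ j, M i j * (y i * cj (y j))) w =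
      ∑ j, M i j * ((if m = i then 1 else 0) * cj (w j)) := by
    intro i
    rw [dz_sum _ fun j _ => hd i j]
    refine Finset.sum_congr rfl fun j _ => ?_
    rw [dz_const_mul _ ((diff_coord i w).fun_mul (diff_conj_coord j w)),
      dz_mul (diff_coord i w) (diff_conj_coord j w), dz_coord, dz_conj_coord, mul_zero, add_zero]
  simp only [h1]
  rw [Finset.sum_eq_single m]
  · simp
  · intro i _ hi
    simp [hi.symm]
  · simp

/-- `∂/∂z_k` of `g(w,w)` -/
lemma dz_quad_fst {g : Cm n → Matrix (Fin n) (Fin n) ℂ} {z : Cm n}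
    (hg : ∀ i j, DifferentiableAt ℝ (fun y => g y i j) z) (k : Fin n) (w : Cm n) :
    dz k (fun y => quad (g y) w) z = quad (dM k g z) w := by
  unfold quad
  have hd : ∀ i j, DifferentiableAt ℝ (fun y : Cm n => g y i j * (w i * cj (w j))) z := fun i j =>
    (hg i j).mul_const _
  rw [dz_sum _ fun i _ => DifferentiableAt.fun_sum fun j _ => hd i j]
  refine Finset.sum_congr rfl fun i _ => ?_
  rw [dz_sum _ fun j _ => hd i j]
  refine Finset.sum_congr rfl fun j _ => ?_
  rw [dz_mul (hg i j) (differentiableAt_const _), dz_const, mul_zero, add_zero]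
  rfl

/-- chain rule for a real function of a real function -/
lemma dz_real_comp {χ : ℝ → ℝ} {f : Cm n → ℝ} {z : Cm n} {k : Fin n}
    (hχ : DifferentiableAt ℝ χ (f z)) (hf : DifferentiableAt ℝ f z) :
    dz k (fun y => ((χ (f y) : ℝ) : ℂ)) z = ((deriv χ (f z) : ℝ) : ℂ) * dz k (fun y => (f y : ℂ)) z := by
  have h1 : ∀ v, fderiv ℝ (fun y => ((χ (f y) : ℝ) : ℂ)) z v =
      ((deriv χ (f z) : ℝ) : ℂ) * fderiv ℝ (fun y => (f y : ℂ)) z v := by
    intro v
    have e1 : HasFDerivAt (fun y => χ (f y)) (deriv χ (f z) • fderiv ℝ f z) z :=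
      hχ.hasDerivAt.comp_hasFDerivAt z hf.hasFDerivAt
    have e2 : HasFDerivAt (fun y => ((χ (f y) : ℝ) : ℂ)) _ z :=
      Complex.ofRealCLM.hasFDerivAt.comp z e1
    have e3 : HasFDerivAt (fun y => (f y : ℂ)) _ z :=
      Complex.ofRealCLM.hasFDerivAt.comp z hf.hasFDerivAt
    rw [e2.fderiv, e3.fderiv]
    simp
  unfold dz
  rw [h1, h1]; ring

end Vale.Agent.P272.K.T4
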