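import Vale.Agent.P272.K.T4.FibA
import Vale.Agent.P272.K.INT.Gronwall

/-! # The divergence identity for the spray -/

open scoped Manifold ContDiff ComplexOrder Topology
open Complex Set Filter MeasureTheory

set_option linter.all false

noncomputable section

namespace Vale.Agent.P272.K.T4

variable {n : ℕ}

section alg
variable {g : Cm n → Matrix (Fin n) (Fin n) ℂ} {z w : Cm n}

lemma chr_mul (h0 : IsUnit (g z).det) (j : Fin n) :
    ∑ m, chr g z w m * g z m j = ∑ k, w k * ∑ i, w i * dM k g z i j := by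
  have hA : ∀ k, dM k g z * (g z)⁻¹ * g z = dM k g z := fun k => by
    rw [Matrix.mul_assoc, Matrix.nonsing_inv_mul _ h0, Matrix.mul_one]
  simp only [chr_dM]
  simp only [Finset.sum_mul]
  rw [Finset.sum_comm]
  refine Finset.sum_congr rfl fun k _ => ?_
  simp only [mul_assoc, ← Finset.mul_sum, Finset.sum_mul]
  rw [Finset.sum_comm]
  congr 1
  refine Finset.sum_congr rfl fun i _ => ?_
  rw [← Finset.mul_sum]
  congr 1
  conv_rhs => rw [← hA k]
  rw [Matrix.mul_apply]

lemma chr_quad (h0 : IsUnit (g z).det) :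
    ∑ m, chr g z w m * ∑ j, g z m j * cj (w j) = ∑ k, w k * quad (dM k g z) w := by
  have h1 : ∑ m, chr g z w m * ∑ j, g z m j * cj (w j) =
      ∑ j, (∑ m, chr g z w m * g z m j) * cj (w j) := by
    simp only [Finset.mul_sum, Finset.sum_mul]
    rw [Finset.sum_comm]
    exact Finset.sum_congr rfl fun j _ => Finset.sum_congr rfl fun m _ => by ring
  rw [h1]
  simp only [chr_mul h0, quad, Finset.sum_mul, Finset.mul_sum]
  rw [Finset.sum_comm]
  refine Finset.sum_congr rfl fun k _ => ?_
  rw [Finset.sum_comm]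
  exact Finset.sum_congr rfl fun i _ => Finset.sum_congr rfl fun j _ => by ring

lemma diff_chr (m : Fin n) : DifferentiableAt ℝ (fun y => chr g z y m) w := by
  simp only [chr_dM]
  exact DifferentiableAt.fun_sum fun k _ => (diff_coord k w).fun_mul
    (DifferentiableAt.fun_sum fun i _ => (diff_coord i w).mul_const _)

lemma dz_chr (m : Fin n) : dz m (fun y => chr g z y m) w =
    ∑ i, w i * (dM m g z * (g z)⁻¹) i m + ∑ k, w k * (dM k g z * (g z)⁻¹) m m := by
  simp only [chr_dM]
  have hi : ∀ k, DifferentiableAt ℝ (fun y : Cm n => ∑ i, y i * (dM k g z * (g z)⁻¹) i m) w :=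
    fun k => DifferentiableAt.fun_sum fun i _ => (diff_coord i w).mul_const _
  rw [dz_sum _ fun k _ => (diff_coord k w).fun_mul (hi k)]
  have h1 : ∀ k, dz m (fun y : Cm n => ∑ i, y i * (dM k g z * (g z)⁻¹) i m) w =
      (dM k g z * (g z)⁻¹) m m := by
    intro k
    rw [dz_sum _ fun i _ => (diff_coord i w).mul_const _, Finset.sum_eq_single m]
    · rw [dz_mul (diff_coord m w) (differentiableAt_const _), dz_coord, dz_const]; simp
    · intro i _ hi
      rw [dz_mul (diff_coord i w) (differentiableAt_const _), dz_coord, dz_const,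
        if_neg (fun h => hi h.symm)]; simp
    · simp
  have h2 : ∀ k, dz m (fun y : Cm n => y k * ∑ i, y i * (dM k g z * (g z)⁻¹) i m) w =
      (if m = k then 1 else 0) * (∑ i, w i * (dM k g z * (g z)⁻¹) i m) +
        w k * (dM k g z * (g z)⁻¹) m m := by
    intro k
    rw [dz_mul (diff_coord k w) (hi k), dz_coord, h1]
  simp only [h2, Finset.sum_add_distrib]
  congr 1
  rw [Finset.sum_eq_single m]
  · simp
  · intro k _ hk; simp [hk.symm]
  · simp

lemma sum_dz_chr (hcl : ∀ i j l, dz l (fun y => g y i j) z = dz i (fun y => g y l j) z) :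
    ∑ m, dz m (fun y => chr g z y m) w = 2 * ∑ k, w k * (dM k g z * (g z)⁻¹).trace := by
  simp only [dz_chr, Finset.sum_add_distrib]
  have h1 : ∀ i m, (dM m g z * (g z)⁻¹) i m = (dM i g z * (g z)⁻¹) m m := by
    intro i m
    rw [Matrix.mul_apply, Matrix.mul_apply]
    refine Finset.sum_congr rfl fun q _ => ?_
    congr 1
    exact hcl i q m
  have h2 : ∑ m, ∑ i, w i * (dM m g z * (g z)⁻¹) i m = ∑ k, w k * (dM k g z * (g z)⁻¹).trace := by
    rw [Finset.sum_comm]
    refine Finset.sum_congr rfl fun k _ => ?_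
    rw [← Finset.mul_sum]
    congr 1
    exact Finset.sum_congr rfl fun m _ => h1 k m
  have h3 : ∑ m, ∑ k, w k * (dM k g z * (g z)⁻¹) m m = ∑ k, w k * (dM k g z * (g z)⁻¹).trace := by
    rw [Finset.sum_comm]
    refine Finset.sum_congr rfl fun k _ => ?_
    rw [← Finset.mul_sum]
    rfl
  rw [h2, h3]; ring

end alg

/-- the invariant weight `χ(g(w,w)) (det g)²` -/
def wt (χ : ℝ → ℝ) (g : Cm n → Matrix (Fin n) (Fin n) ℂ) (p : Cm n × Cm n) : ℂ :=
  ((χ ((quad (g p.1) p.2).re) : ℝ) : ℂ) * (g p.1).det ^ 2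

section wt
variable {χ : ℝ → ℝ} {g : Cm n → Matrix (Fin n) (Fin n) ℂ} {z w : Cm n}

lemma diff_quad_fst (hg : ∀ i j, DifferentiableAt ℝ (fun y => g y i j) z) :
    DifferentiableAt ℝ (fun y => quad (g y) w) z := by
  unfold quad
  exact DifferentiableAt.fun_sum fun i _ => DifferentiableAt.fun_sum fun j _ =>
    (hg i j).mul_const _

lemma diff_quad_snd (M : Matrix (Fin n) (Fin n) ℂ) :
    DifferentiableAt ℝ (fun y => quad M y) w := by
  unfold quad
  exact DifferentiableAt.fun_sum fun i _ => DifferentiableAt.fun_sum fun j _ =>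
    ((diff_coord i w).fun_mul (diff_conj_coord j w)).const_mul _

lemma dz_det_eq (hg : ∀ i j, DifferentiableAt ℝ (fun y => g y i j) z) (h0 : IsUnit (g z).det)
    (k : Fin n) : dz k (fun y => (g y).det) z = (dM k g z * (g z)⁻¹).trace * (g z).det := by
  rw [INT.dz_det hg k, Matrix.trace_mul_comm, ← INT.sum_det_updateRow h0]
  rfl

lemma dz_re_quad_fst (hg : ∀ i j, DifferentiableAt ℝ (fun y => g y i j) z)
    (hh : ∀ᶠ y in 𝓝 z, (g y).IsHermitian) (k : Fin n) :
    dz k (fun y => (((quad (g y) w).re : ℝ) : ℂ)) z = quad (dM k g z) w := by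
  rw [← dz_quad_fst hg k w]
  refine dz_congr ?_
  filter_upwards [hh] with y hy
  exact Complex.ext (by simp) (by simp [quad_im hy w])

lemma dz_re_quad_snd {M : Matrix (Fin n) (Fin n) ℂ} (hM : M.IsHermitian) (m : Fin n) :
    dz m (fun y => (((quad M y).re : ℝ) : ℂ)) w = ∑ j, M m j * cj (w j) := by
  rw [← dz_quad_snd M m w]
  refine dz_congr (Eventually.of_forall fun y => ?_)
  exact Complex.ext (by simp) (by simp [quad_im hM y])

lemma re_diff {E : Type*} [NormedAddCommGroup E] [NormedSpace ℝ E] {f : E → ℂ} {x : E}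
    (h : DifferentiableAt ℝ f x) : DifferentiableAt ℝ (fun y => (f y).re) x :=
  Complex.reCLM.differentiableAt.comp x h

lemma dz_wt_fst (hχ : Differentiable ℝ χ) (hg : ∀ i j, DifferentiableAt ℝ (fun y => g y i j) z)
    (hh : ∀ᶠ y in 𝓝 z, (g y).IsHermitian) (h0 : IsUnit (g z).det) (k : Fin n) :
    dz k (fun y => wt χ g (y, w)) z =
      ((deriv χ (quad (g z) w).re : ℝ) : ℂ) * quad (dM k g z) w * (g z).det ^ 2 +
      ((χ (quad (g z) w).re : ℝ) : ℂ) *
        (2 * (g z).det ^ 2 * (dM k g z * (g z)⁻¹).trace) := by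
  have hq : DifferentiableAt ℝ (fun y => (quad (g y) w).re) z := re_diff (diff_quad_fst hg)
  have hdet : DifferentiableAt ℝ (fun y => (g y).det) z := INT.differentiableAt_det hg
  have hχq : DifferentiableAt ℝ (fun y => ((χ ((quad (g y) w).re) : ℝ) : ℂ)) z :=
    Complex.ofRealCLM.differentiableAt.comp z ((hχ _).comp z hq)
  unfold wt
  simp only []
  rw [dz_mul hχq (hdet.fun_pow 2), dz_real_comp (hχ _) hq, dz_re_quad_fst hg hh]
  have h2 : dz k (fun y => (g y).det ^ 2) z = 2 * (g z).det ^ 2 * (dM k g z * (g z)⁻¹).trace := by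
    have : (fun y => (g y).det ^ 2) = fun y => (g y).det * (g y).det := by funext y; ring
    rw [this, dz_mul hdet hdet, dz_det_eq hg h0]; ring
  rw [h2]

lemma dz_wt_snd (hχ : Differentiable ℝ χ) (hh : (g z).IsHermitian) (m : Fin n) :
    dz m (fun y => wt χ g (z, y)) w =
      ((deriv χ (quad (g z) w).re : ℝ) : ℂ) * (∑ j, g z m j * cj (w j)) * (g z).det ^ 2 := by
  have hq : DifferentiableAt ℝ (fun y => (quad (g z) y).re) w := re_diff (diff_quad_snd _)
  have hχq : DifferentiableAt ℝ (fun y => ((χ ((quad (g z) y).re) : ℝ) : ℂ)) w :=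
    Complex.ofRealCLM.differentiableAt.comp w ((hχ _).comp w hq)
  unfold wt
  simp only []
  rw [dz_mul hχq (differentiableAt_const _), dz_real_comp (hχ _) hq, dz_re_quad_snd hh,
    dz_const, mul_zero, add_zero]

/-- The divergence identity. -/
theorem spr_mul_wt {F : Cm n × Cm n → ℂ} (hχ : Differentiable ℝ χ)
    (hg : ∀ i j, DifferentiableAt ℝ (fun y => g y i j) z)
    (hh : ∀ᶠ y in 𝓝 z, (g y).IsHermitian) (h0 : IsUnit (g z).det)
    (hcl : ∀ i j l, dz l (fun y => g y i j) z = dz i (fun y => g y l j) z)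
    (hF : DifferentiableAt ℝ F (z, w)) :
    spr g F (z, w) * wt χ g (z, w) =
      ∑ k, dz k (fun y => F (y, w) * wt χ g (y, w) * w k) z -
      ∑ m, dz m (fun y => F (z, y) * wt χ g (z, y) * chr g z y m) w := by
  have hF1 : DifferentiableAt ℝ (fun y => F (y, w)) z := diff_fst (p := (z, w)) hF
  have hF2 : DifferentiableAt ℝ (fun y => F (z, y)) w := diff_snd (p := (z, w)) hF
  have hw1 : DifferentiableAt ℝ (fun y => wt χ g (y, w)) z := by
    have hq : DifferentiableAt ℝ (fun y => (quad (g y) w).re) z := re_diff (diff_quad_fst hg)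
    exact (Complex.ofRealCLM.differentiableAt.comp z ((hχ _).comp z hq)).fun_mul
      ((INT.differentiableAt_det hg).fun_pow 2)
  have hw2 : DifferentiableAt ℝ (fun y => wt χ g (z, y)) w := by
    have hq : DifferentiableAt ℝ (fun y => (quad (g z) y).re) w := re_diff (diff_quad_snd _)
    have hc : DifferentiableAt ℝ (fun _ : Cm n => (g z).det ^ 2) w := differentiableAt_const _
    exact (Complex.ofRealCLM.differentiableAt.comp w ((hχ _).comp w hq)).fun_mul hc
  have e1 : ∀ k, dz k (fun y => F (y, w) * wt χ g (y, w) * w k) z =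
      (dz k (fun y => F (y, w)) z * wt χ g (z, w) +
        F (z, w) * dz k (fun y => wt χ g (y, w)) z) * w k := by
    intro k
    rw [dz_mul (hF1.fun_mul hw1) (differentiableAt_const _), dz_mul hF1 hw1, dz_const, mul_zero,
      add_zero]
  have e2 : ∀ m, dz m (fun y => F (z, y) * wt χ g (z, y) * chr g z y m) w =
      (dz m (fun y => F (z, y)) w * wt χ g (z, w) +
        F (z, w) * dz m (fun y => wt χ g (z, y)) w) * chr g z w m +
      F (z, w) * wt χ g (z, w) * dz m (fun y => chr g z y m) w := by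
    intro m
    rw [dz_mul (hF2.fun_mul hw2) (diff_chr m), dz_mul hF2 hw2]
  simp only [e1, e2, Finset.sum_add_distrib, add_mul, ← Finset.mul_sum,
    sum_dz_chr hcl]
  have e3 : ∑ k, F (z, w) * dz k (fun y => wt χ g (y, w)) z * w k =
      F (z, w) * (((deriv χ (quad (g z) w).re : ℝ) : ℂ) * (g z).det ^ 2 *
          (∑ k, w k * quad (dM k g z) w) +
        ((χ (quad (g z) w).re : ℝ) : ℂ) * (2 * (g z).det ^ 2) *
          ∑ k, w k * (dM k g z * (g z)⁻¹).trace) := by
    simp only [dz_wt_fst hχ hg hh h0, Finset.mul_sum, mul_add]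
    rw [← Finset.sum_add_distrib]
    exact Finset.sum_congr rfl fun k _ => by ring
  have e4 : ∑ m, F (z, w) * dz m (fun y => wt χ g (z, y)) w * chr g z w m =
      F (z, w) * (((deriv χ (quad (g z) w).re : ℝ) : ℂ) * (g z).det ^ 2 *
          (∑ k, w k * quad (dM k g z) w)) := by
    rw [← chr_quad h0]
    simp only [dz_wt_snd hχ hh.self_of_nhds]
    rw [Finset.mul_sum, Finset.mul_sum]
    exact Finset.sum_congr rfl fun m _ => by ring
  have e5 : ∑ k, dz k (fun y => F (y, w)) z * wt χ g (z, w) * w k =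
      (∑ k, w k * dz k (fun y => F (y, w)) z) * wt χ g (z, w) := by
    rw [Finset.sum_mul]; exact Finset.sum_congr rfl fun k _ => by ring
  have e6 : ∑ m, dz m (fun y => F (z, y)) w * wt χ g (z, w) * chr g z w m =
      (∑ m, chr g z w m * dz m (fun y => F (z, y)) w) * wt χ g (z, w) := by
    rw [Finset.sum_mul]; exact Finset.sum_congr rfl fun k _ => by ring
  rw [e3, e4, e5, e6]
  unfold spr
  simp only [wt]
  ring

end wt

end Vale.Agent.P272.K.T4
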