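import Vale.Agent.P272.K.T4.FibC

/-! # Fibre averages: linear change of coordinates, continuity in parameters -/

open scoped Manifold ContDiff ComplexOrder Topology
open Complex Set Filter MeasureTheory

set_option linter.all false

noncomputable section

namespace Vale.Agent.P272.K.T4

variable {n : ℕ} {E : Type*} [NormedAddCommGroup E] [NormedSpace ℝ E]

lemma quad_pull (J M : Matrix (Fin n) (Fin n) ℂ) (w : Cm n) :
    quad (J.transpose * M * J.map (starRingEnd ℂ)) w = quad M (J.mulVec w) := by
  rw [quad_eq, quad_eq]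
  have h1 : (fun i => cj (J.mulVec w i)) = (J.map (starRingEnd ℂ)).mulVec fun i => cj (w i) := by
    funext i
    simp only [Matrix.mulVec, dotProduct, cj, map_sum, map_mul, Matrix.map_apply]
  have h2 : (J.map (starRingEnd ℂ)).conjTranspose = J.transpose := by
    ext i j; simp
  rw [h1, ← Matrix.mulVec_mulVec, ← Matrix.mulVec_mulVec, Matrix.star_mulVec, h2]
  rw [Matrix.dotProduct_mulVec, Matrix.dotProduct_mulVec, Matrix.dotProduct_mulVec]

section basic
variable {χ : ℝ → ℝ} {M : Matrix (Fin n) (Fin n) ℂ} {f f' : Cm n → E}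

lemma cont_quad (M : Matrix (Fin n) (Fin n) ℂ) : Continuous fun w : Cm n => (quad M w).re := by
  unfold quad
  have : Continuous fun w : Cm n => ∑ i, ∑ j, M i j * (w i * cj (w j)) := by
    refine continuous_finset_sum _ fun i _ => continuous_finset_sum _ fun j _ => ?_
    exact continuous_const.mul ((continuous_apply i).mul
      (Complex.continuous_conj.comp (continuous_apply j)))
  exact Complex.continuous_re.comp this

lemma fib_cont (hχ : Wt χ) (hf : Continuous f) : Continuous fun w => χ (quad M w).re • f w :=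
  (hχ.smooth.continuous.comp (cont_quad M)).smul hf

lemma fib_bound (hχ : Wt χ) (hM : M.PosDef) :
    ∃ R : ℝ, 0 ≤ R ∧ ∀ w : Cm n, R < ‖w‖ → χ (quad M w).re = 0 := by
  obtain ⟨R, hR, h⟩ := wt_bound (g := fun _ => M) hχ (isCompact_singleton (x := (0 : Cm n)))
    (fun i j => continuousOn_const) (fun z _ => hM)
  exact ⟨R, hR, fun w hw => h (0, w) rfl hw⟩

lemma fib_supp (hχ : Wt χ) (hM : M.PosDef) (f : Cm n → E) :
    HasCompactSupport fun w => χ (quad M w).re • f w := by
  obtain ⟨R, hR, h⟩ := fib_bound hχ hM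
  refine HasCompactSupport.intro (isCompact_closedBall (0 : Cm n) R) fun w hw => ?_
  rw [h w (by simpa using hw), zero_smul]

lemma fib_int (hχ : Wt χ) (hM : M.PosDef) (hf : Continuous f) :
    Integrable fun w => χ (quad M w).re • f w :=
  (fib_cont hχ hf).integrable_of_hasCompactSupport (fib_supp hχ hM f)

end basic

section change

lemma mulVec_diffC (J : Matrix (Fin n) (Fin n) ℂ) (z : Cm n) :
    DifferentiableAt ℂ (fun w : Cm n => J.mulVec w) z :=
  (Matrix.mulVecLin J).toContinuousLinearMap.differentiableAt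

lemma dz_mulVec (J : Matrix (Fin n) (Fin n) ℂ) (z : Cm n) (p i : Fin n) :
    dz i (fun w => J.mulVec w p) z = J p i := by
  have h : DifferentiableAt ℂ (fun w : Cm n => J.mulVec w p) z :=
    differentiableAt_pi.1 (mulVec_diffC J z) p
  rw [dz_of_holo h]
  have h1 : fderiv ℂ (fun w : Cm n => J.mulVec w p) z =
      (ContinuousLinearMap.proj p).comp (Matrix.mulVecLin J).toContinuousLinearMap :=
    ((ContinuousLinearMap.proj (R := ℂ) (φ := fun _ : Fin n => ℂ) p).comp
      (Matrix.mulVecLin J).toContinuousLinearMap).hasFDerivAt.fderiv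
  rw [h1]
  simp

/-- linear change of variables in the fibre -/
lemma integral_comp_mulVec {J : Matrix (Fin n) (Fin n) ℂ} (hJ : IsUnit J.det) (φ : Cm n → E) :
    ‖J.det‖ ^ 2 • ∫ w, φ (J.mulVec w) = ∫ w, φ w := by
  have h1 : (fun w : Cm n => J.mulVec w) '' univ = univ := by
    rw [image_univ, range_eq_univ]
    intro y
    exact ⟨J⁻¹.mulVec y, by simp [Matrix.mulVec_mulVec, Matrix.mul_nonsing_inv _ hJ]⟩
  have hinj : Function.Injective (fun w : Cm n => J.mulVec w) := by
    intro a b hab
    have : J⁻¹.mulVec (J.mulVec a) = J⁻¹.mulVec (J.mulVec b) := by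
      simp only at hab; rw [hab]
    simpa [Matrix.mulVec_mulVec, Matrix.nonsing_inv_mul _ hJ] using this
  have h2 := integral_image_eq_integral_abs_det_fderiv_smul (volume : Measure (Cm n))
    (s := univ) (f := fun w : Cm n => J.mulVec w)
    (f' := fun z => fderiv ℝ (fun w : Cm n => J.mulVec w) z) MeasurableSet.univ
    (fun z _ => ((mulVec_diffC J z).restrictScalars ℝ).hasFDerivAt.hasFDerivWithinAt)
    hinj.injOn φ
  rw [h1, setIntegral_univ, setIntegral_univ] at h2
  rw [h2, ← integral_smul]
  congr 1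
  funext z
  rw [INT.det_fderiv_real (mulVec_diffC J z)]
  have : (Matrix.of fun p i => dz i (fun w => J.mulVec w p) z : Matrix (Fin n) (Fin n) ℂ) = J := by
    ext p i; exact dz_mulVec J z p i
  rw [this, abs_of_nonneg (by positivity)]

/-- averages are invariant under linear changes of coordinates -/
theorem fib_form {χ : ℝ → ℝ} {M J : Matrix (Fin n) (Fin n) ℂ} (hJ : IsUnit J.det) (f : Cm n → E) :
    ‖J.det‖ ^ 2 • ∫ w, χ (quad (J.transpose * M * J.map (starRingEnd ℂ)) w).re • f (J.mulVec w) =
      ∫ w, χ (quad M w).re • f w := by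
  have h2 := integral_comp_mulVec hJ (fun w => χ (quad M w).re • f w)
  simp only [quad_pull]
  exact h2

end change

section param
variable {χ : ℝ → ℝ} {U : Set (Cm n)} {g : Cm n → Matrix (Fin n) (Fin n) ℂ} {F : Cm n × Cm n → E}

lemma cont_quad2 {p : Cm n × Cm n} (hg : ∀ i j, ContinuousAt (fun y => g y i j) p.1) :
    ContinuousAt (fun q : Cm n × Cm n => (quad (g q.1) q.2).re) p := by
  have h1 : ContinuousAt (fun q : Cm n × Cm n => quad (g q.1) q.2) p := by
    unfold quad
    refine tendsto_finset_sum _ fun i _ => tendsto_finset_sum _ fun j _ => ?_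
    have h2 : ContinuousAt (fun q : Cm n × Cm n => g q.1 i j) p :=
      ContinuousAt.comp (f := fun q : Cm n × Cm n => q.1) (g := fun y => g y i j) (hg i j)
        continuousAt_fst
    have h3 : ∀ k, ContinuousAt (fun q : Cm n × Cm n => q.2 k) p := fun k =>
      ((continuous_apply k).comp continuous_snd).continuousAt
    exact h2.mul ((h3 i).mul (Complex.continuous_conj.continuousAt.comp (h3 j)))
  exact Complex.continuous_re.continuousAt.comp h1

/-- the weighted function is continuous on the whole tangent space -/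
lemma fib_cont2 (hχ : Wt χ) {p : Cm n × Cm n} (hg : ∀ i j, ContinuousAt (fun y => g y i j) p.1)
    (hF : ContinuousAt F p) :
    ContinuousAt (fun q : Cm n × Cm n => χ (quad (g q.1) q.2).re • F q) p :=
  (hχ.smooth.continuous.continuousAt.comp (cont_quad2 (p := p) hg)).smul hF

/-- a function continuous at the points of a fibre is continuous on the fibre -/
lemma cont_fibre {z : Cm n} (hF : ∀ w : Cm n, ContinuousAt F (z, w)) :
    Continuous (fun w => F (z, w)) := by
  rw [continuous_iff_continuousAt]
  intro w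
  exact ContinuousAt.comp (f := fun y : Cm n => (z, y)) (g := F) (hF w)
    (Continuous.prodMk continuous_const continuous_id).continuousAt

theorem fib_cont_param (hχ : Wt χ) (hU : IsOpen U)
    (hg : ∀ z ∈ U, ∀ i j, ContinuousAt (fun y => g y i j) z) (hpos : ∀ z ∈ U, (g z).PosDef)
    (hF : ∀ z ∈ U, ∀ w : Cm n, ContinuousAt F (z, w)) {z₀ : Cm n} (hz₀ : z₀ ∈ U) :
    ContinuousAt (fun z => ∫ w, χ (quad (g z) w).re • F (z, w)) z₀ := by
  obtain ⟨K, hKc, hK0, hKU⟩ : ∃ K : Set (Cm n), IsCompact K ∧ K ∈ 𝓝 z₀ ∧ K ⊆ U := by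
    obtain ⟨K, h1, h2, h3⟩ := local_compact_nhds (hU.mem_nhds hz₀)
    exact ⟨K, h3, h1, h2⟩
  have hKn : ∀ᶠ z in 𝓝 z₀, z ∈ K := hK0
  obtain ⟨R, hR, hb⟩ := wt_bound hχ hKc
    (fun i j z hz => (hg z (hKU hz) i j).continuousWithinAt) (fun z hz => hpos z (hKU hz))
  have hcont : ContinuousOn (fun q : Cm n × Cm n => χ (quad (g q.1) q.2).re • F q)
      (K ×ˢ Metric.closedBall 0 R) := by
    rintro ⟨z, w⟩ ⟨hz, _⟩
    exact (fib_cont2 (p := (z, w)) hχ (hg z (hKU hz)) (hF z (hKU hz) w)).continuousWithinAt
  obtain ⟨C, hC⟩ := (hKc.prod (isCompact_closedBall (0 : Cm n) R)).exists_bound_of_continuousOn hcont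
  refine continuousAt_of_dominated (bound := fun w => (Metric.closedBall (0 : Cm n) R).indicator
    (fun _ => C) w) ?_ ?_ ?_ ?_
  · filter_upwards [hKn] with z hz
    exact (cont_fibre fun w => fib_cont2 (p := (z, w)) hχ (hg z (hKU hz))
      (hF z (hKU hz) w)).aestronglyMeasurable
  · filter_upwards [hKn] with z hz
    refine Eventually.of_forall fun w => ?_
    by_cases hw : w ∈ Metric.closedBall (0 : Cm n) R
    · rw [indicator_of_mem hw]
      exact hC (z, w) ⟨hz, hw⟩
    · rw [indicator_of_notMem hw, hb (z, w) hz (by simpa using hw), zero_smul, norm_zero]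
  · exact (integrableOn_const (hs := (isCompact_closedBall (0 : Cm n) R).measure_lt_top.ne)
      (hC := by simp)).integrable_indicator Metric.isClosed_closedBall.measurableSet
  · refine Eventually.of_forall fun w => ?_
    have h := fib_cont2 (p := (z₀, w)) hχ (hg z₀ hz₀) (hF z₀ hz₀ w)
    exact ContinuousAt.comp (f := fun y : Cm n => (y, w))
      (g := fun q : Cm n × Cm n => χ (quad (g q.1) q.2).re • F q) h
      (Continuous.prodMk continuous_id continuous_const).continuousAt

lemma det_contAt {z : Cm n} (hg : ∀ i j, ContinuousAt (fun y => g y i j) z) :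
    ContinuousAt (fun y => (g y).det.re) z := by
  have : ContinuousAt (fun y => (g y).det) z := by
    simp only [Matrix.det_apply]
    refine tendsto_finset_sum _ fun σ _ => ?_
    exact Tendsto.const_smul (tendsto_finset_prod _ fun i _ => hg (σ i) i) _
  exact Complex.continuous_re.continuousAt.comp this

end param

end Vale.Agent.P272.K.T4
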