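import Vale.Agent.P272.K.T4.All
import Vale.Agent.P272.K.T4.L5Done

/-!
# T4: the main theorem
-/

noncomputable section

namespace Vale.Agent.P272.K.T4

theorem hyp : HypStatement := hypStatement_of_local localL5

end Vale.Agent.P272.K.T4
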