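import Mathlib.Analysis.LocallyConvex.Separation
import Mathlib.Topology.ContinuousMap.Compact
import Mathlib.Topology.ContinuousMap.Ordered
import Mathlib.Analysis.SpecialFunctions.SmoothTransition
import Mathlib.Analysis.InnerProductSpace.Calculus
import Mathlib.Analysis.Normed.Module.FiniteDimension

/-! Invariant supports from the Hahn-Banach theorem. -/

open Set Filter Topology
open scoped RealInnerProductSpace ContDiff

noncomputable section

set_option linter.unusedSectionVars false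

namespace Vale.Agent.P272.K.T4

section functional

variable {Z : Type*} [TopologicalSpace Z] [CompactSpace Z]

/-- A subspace of `C(Z)` without positive element is annihilated by a positive functional. -/
theorem exists_functional [Nonempty Z] (W : Submodule ℝ C(Z, ℝ))
    (hW : ∀ f ∈ W, ∃ z, f z ≤ 0) :
    ∃ μ : C(Z, ℝ) →L[ℝ] ℝ, (∀ f ∈ W, μ f = 0) ∧ (∀ f : C(Z, ℝ), (∀ z, 0 < f z) → 0 < μ f) ∧
      ∀ f : C(Z, ℝ), (∀ z, 0 ≤ f z) → 0 ≤ μ f := by
  set P : Set C(Z, ℝ) := {f | ∀ z, 0 < f z} with hP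
  have hconv : Convex ℝ P := by
    intro f hf g hg a b ha hb hab z
    have h1 := hf z
    have h2 := hg z
    simp only [ContinuousMap.add_apply, ContinuousMap.smul_apply, smul_eq_mul]
    rcases ha.eq_or_lt with rfl | ha'
    · have : b = 1 := by linarith
      subst this; simpa using h2
    · have : 0 < a * f z := mul_pos ha' h1
      have : 0 ≤ b * g z := mul_nonneg hb h2.le
      linarith
  have hopen : IsOpen P := by
    have : P = {f : C(Z, ℝ) | MapsTo f univ (Ioi 0)} := by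
      ext f; simp [hP, MapsTo]
    rw [this]
    exact ContinuousMap.isOpen_setOfPred_mapsTo isCompact_univ isOpen_Ioi
  have hdisj : Disjoint P (W : Set C(Z, ℝ)) := by
    rw [Set.disjoint_left]
    intro f hf hfW
    obtain ⟨z, hz⟩ := hW f hfW
    exact absurd (hf z) (not_lt.2 hz)
  obtain ⟨φ, u, h1, h2⟩ := geometric_hahn_banach_open hconv hopen W.convex hdisj
  have hu : u ≤ 0 := by simpa using h2 0 W.zero_mem
  have hφW : ∀ f ∈ W, φ f = 0 := by
    intro f hf
    by_contra hne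
    set c : ℝ := (u - 1) / φ f with hc
    have := h2 (c • f) (W.smul_mem c hf)
    rw [map_smul, smul_eq_mul, hc, div_mul_cancel₀ _ hne] at this
    linarith
  have hpos : ∀ f : C(Z, ℝ), (∀ z, 0 < f z) → 0 < (-φ) f := by
    intro f hf
    have := h1 f hf
    have h3 : (-φ) f = -φ f := rfl
    rw [h3]; linarith
  refine ⟨-φ, ?_, hpos, ?_⟩
  · intro f hf
    have h3 : (-φ) f = -φ f := rfl
    rw [h3, hφW f hf, neg_zero]
  · intro f hf
    have h4 : ∀ ε : ℝ, 0 < ε → 0 ≤ (-φ) f + ε * (-φ) 1 := by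
      intro ε hε
      have h5 := hpos (f + ε • (1 : C(Z, ℝ))) (fun z => by
        have := hf z
        simp only [ContinuousMap.add_apply, ContinuousMap.smul_apply, ContinuousMap.one_apply,
          smul_eq_mul, mul_one]
        linarith)
      rw [map_add, map_smul, smul_eq_mul] at h5
      exact h5.le
    have hlim : Tendsto (fun ε : ℝ => (-φ) f + ε * (-φ) 1) (𝓝[>] 0) (𝓝 ((-φ) f + 0 * (-φ) 1)) :=
      Tendsto.mono_left (Continuous.tendsto (by fun_prop) 0) nhdsWithin_le_nhds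
    rw [zero_mul, add_zero] at hlim
    exact ge_of_tendsto hlim (eventually_nhdsWithin_of_forall fun ε hε => h4 ε hε)

/-- The support of a functional. -/
def supp (μ : C(Z, ℝ) →L[ℝ] ℝ) : Set Z :=
  {z | ∀ f : C(Z, ℝ), (∀ y, 0 ≤ f y) → 0 < f z → 0 < μ f}

variable {μ : C(Z, ℝ) →L[ℝ] ℝ}

theorem isClosed_supp : IsClosed (supp μ) := by
  rw [← isOpen_compl_iff, isOpen_iff_mem_nhds]
  intro z hz
  simp only [supp, mem_compl_iff, Set.mem_ofPred_eq, not_forall] at hz
  obtain ⟨f, hf, hfz, hμf⟩ := hz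
  have h1 : {y | 0 < f y} ∈ 𝓝 z := (isOpen_lt continuous_const f.continuous).mem_nhds hfz
  filter_upwards [h1] with y hy hys
  exact hμf (hys f hf hy)

theorem apply_eq_zero_of_nonneg (hμ : ∀ f : C(Z, ℝ), (∀ z, 0 ≤ f z) → 0 ≤ μ f) {g : C(Z, ℝ)}
    (hg : ∀ z, 0 ≤ g z) (hgs : ∀ z ∈ supp μ, g z = 0) : μ g = 0 := by
  -- local null functions
  have hloc : ∀ z, z ∉ supp μ → ∃ f : C(Z, ℝ), (∀ y, 0 ≤ f y) ∧ 0 < f z ∧ μ f = 0 := by
    intro z hz
    simp only [supp, Set.mem_ofPred_eq, not_forall] at hz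
    obtain ⟨f, hf, hfz, hμf⟩ := hz
    exact ⟨f, hf, hfz, le_antisymm (not_lt.1 hμf) (hμ f hf)⟩
  have hmono : ∀ f f' : C(Z, ℝ), (∀ z, f z ≤ f' z) → μ f ≤ μ f' := by
    intro f f' h
    have := hμ (f' - f) (fun z => by
      simp only [ContinuousMap.sub_apply]
      linarith [h z])
    rw [map_sub] at this
    linarith
  have key : ∀ ε : ℝ, 0 < ε → μ g ≤ ε * μ 1 := by
    intro ε hε
    set S : Set Z := {z | ε ≤ g z} with hS
    have hSc : IsCompact S := (isClosed_le continuous_const g.continuous).isCompact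
    have hSs : ∀ z ∈ S, z ∉ supp μ := by
      intro z hz hzs
      have := hgs z hzs
      have : ε ≤ g z := hz
      linarith
    choose! f hf hfz hμf using hloc
    obtain ⟨t, htS, hcov⟩ := hSc.elim_nhds_subcover (fun z => {y | 0 < f z y}) (fun z hz =>
      (isOpen_lt continuous_const (f z).continuous).mem_nhds (hfz z (hSs z hz)))
    set Fs : C(Z, ℝ) := ∑ z ∈ t, f z with hFs
    have hFs_apply : ∀ y, Fs y = ∑ z ∈ t, f z y := by
      intro y; simp [hFs, ContinuousMap.coe_sum]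
    have hFs0 : ∀ y, 0 ≤ Fs y := by
      intro y
      rw [hFs_apply]
      exact Finset.sum_nonneg fun z hz => hf z (hSs z (htS z hz)) y
    have hFsμ : μ Fs = 0 := by
      rw [hFs, map_sum]
      exact Finset.sum_eq_zero fun z hz => hμf z (hSs z (htS z hz))
    have hFspos : ∀ y ∈ S, 0 < Fs y := by
      intro y hy
      obtain ⟨z, hz, hyz⟩ := mem_iUnion₂.1 (hcov hy)
      rw [hFs_apply]
      exact Finset.sum_pos' (fun z hz => hf z (hSs z (htS z hz)) y) ⟨z, hz, hyz⟩
    obtain ⟨C, hC⟩ : ∃ C : ℝ, 0 ≤ C ∧ ∀ y ∈ S, g y ≤ C * Fs y := by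
      rcases S.eq_empty_or_nonempty with hemp | hne
      · exact ⟨0, le_rfl, fun y hy => by rw [hemp] at hy; exact absurd hy (notMem_empty _)⟩
      · obtain ⟨y0, hy0, hmin⟩ := hSc.exists_isMinOn hne Fs.continuous.continuousOn
        obtain ⟨y1, hy1, hmax⟩ := hSc.exists_isMaxOn hne g.continuous.continuousOn
        have h0 := hFspos y0 hy0
        refine ⟨g y1 / Fs y0, div_nonneg (hg y1) h0.le, fun y hy => ?_⟩
        have h2 : g y ≤ g y1 := hmax hy
        have h3 : Fs y0 ≤ Fs y := hmin hy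
        calc g y ≤ g y1 := h2
          _ = g y1 / Fs y0 * Fs y0 := by field_simp
          _ ≤ g y1 / Fs y0 * Fs y := mul_le_mul_of_nonneg_left h3 (div_nonneg (hg y1) h0.le)
    have h1 : μ g ≤ μ (ε • (1 : C(Z, ℝ)) + C • Fs) := by
      refine hmono _ _ fun z => ?_
      simp only [ContinuousMap.add_apply, ContinuousMap.smul_apply, ContinuousMap.one_apply,
        smul_eq_mul, mul_one]
      by_cases hz : z ∈ S
      · have := hC.2 z hz
        linarith
      · have h2 : g z < ε := not_le.1 hz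
        have := mul_nonneg hC.1 (hFs0 z)
        linarith
    rw [map_add, map_smul, map_smul, hFsμ, smul_zero, add_zero, smul_eq_mul] at h1
    exact h1
  have hle : μ g ≤ 0 := by
    have hlim : Tendsto (fun ε : ℝ => ε * μ 1) (𝓝[>] 0) (𝓝 (0 * μ 1)) :=
      Tendsto.mono_left (Continuous.tendsto (by fun_prop) 0) nhdsWithin_le_nhds
    rw [zero_mul] at hlim
    exact ge_of_tendsto hlim (eventually_nhdsWithin_of_forall fun ε hε => key ε hε)
  exact le_antisymm hle (hμ g hg)

/-- A function nonnegative on the support and positive at one of its points has positive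
value. -/
theorem apply_pos (hμ : ∀ f : C(Z, ℝ), (∀ z, 0 ≤ f z) → 0 ≤ μ f) {f : C(Z, ℝ)}
    (hf : ∀ z ∈ supp μ, 0 ≤ f z) {k : Z} (hk : k ∈ supp μ) (hfk : 0 < f k) : 0 < μ f := by
  set fp : C(Z, ℝ) := ⟨fun z => max (f z) 0, by fun_prop⟩ with hfp
  set fm : C(Z, ℝ) := ⟨fun z => max (-f z) 0, by fun_prop⟩ with hfm
  have hdec : f = fp - fm := by
    ext z
    simp only [hfp, hfm, ContinuousMap.sub_apply, ContinuousMap.coe_mk]
    rcases le_total 0 (f z) with h | h
    · rw [max_eq_left h, max_eq_right (by linarith)]; ring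
    · rw [max_eq_right h, max_eq_left (by linarith)]; ring
  have h1 : μ fm = 0 := by
    refine apply_eq_zero_of_nonneg hμ (fun z => le_max_right _ _) fun z hz => ?_
    exact max_eq_right (by linarith [hf z hz])
  have h2 : 0 < μ fp := hk fp (fun z => le_max_right _ _) (lt_max_of_lt_left hfk)
  rw [hdec, map_sub, h1, sub_zero]
  exact h2

theorem supp_nonempty [Nonempty Z] (hμ : ∀ f : C(Z, ℝ), (∀ z, 0 ≤ f z) → 0 ≤ μ f)
    (hμ1 : 0 < μ 1) : (supp μ).Nonempty := by
  by_contra hne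
  rw [not_nonempty_iff_eq_empty] at hne
  have := apply_eq_zero_of_nonneg hμ (g := 1) (fun z => by simp)
    (fun z hz => by rw [hne] at hz; exact absurd hz (notMem_empty _))
  linarith

end functional

section fields

variable {V : Type*} [NormedAddCommGroup V] [InnerProductSpace ℝ V]

/-- The test function at `c`. -/
def bump (c : V) (ρ : ℝ) (y : V) : ℝ := expNegInvGlue (ρ - ‖y - c‖ ^ 2)

theorem contDiff_bump (c : V) (ρ : ℝ) : ContDiff ℝ ∞ (bump c ρ) := by
  unfold bump
  have h : ContDiff ℝ ∞ expNegInvGlue := expNegInvGlue.contDiff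
  exact h.comp (contDiff_const.sub ((contDiff_id.sub contDiff_const).norm_sq ℝ))

theorem hasDerivAt_glue (x : ℝ) :
    HasDerivAt expNegInvGlue (x⁻¹ ^ 2 * expNegInvGlue x) x := by
  have := expNegInvGlue.hasDerivAt_polynomial_eval_inv_mul 1 x
  simpa using this

theorem fderiv_bump (c : V) (ρ : ℝ) (y v : V) :
    fderiv ℝ (bump c ρ) y v = -(2 * ((ρ - ‖y - c‖ ^ 2)⁻¹ ^ 2 *
      expNegInvGlue (ρ - ‖y - c‖ ^ 2))) * ⟪y - c, v⟫ := by
  have h1 : HasFDerivAt (fun y : V => ‖y - c‖ ^ 2) (2 • (innerSL ℝ (y - c))) y := by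
    have h2 := (hasStrictFDerivAt_norm_sq (y - c)).hasFDerivAt
    have h3 : HasFDerivAt (fun y : V => y - c) (ContinuousLinearMap.id ℝ V) y :=
      (hasFDerivAt_id y).sub_const c
    exact h2.comp y h3
  have h4 : HasFDerivAt (fun y : V => ρ - ‖y - c‖ ^ 2) (-(2 • (innerSL ℝ (y - c)))) y :=
    h1.const_sub ρ
  have h5 := (hasDerivAt_glue (ρ - ‖y - c‖ ^ 2)).comp_hasFDerivAt y h4
  have h6 : fderiv ℝ (bump c ρ) y = _ := h5.fderiv
  rw [h6]
  have h7 : (((ρ - ‖y - c‖ ^ 2)⁻¹ ^ 2 * expNegInvGlue (ρ - ‖y - c‖ ^ 2)) •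
      -(2 • (innerSL ℝ (y - c)))) v = ((ρ - ‖y - c‖ ^ 2)⁻¹ ^ 2 *
        expNegInvGlue (ρ - ‖y - c‖ ^ 2)) * -(2 • ⟪y - c, v⟫) := rfl
  rw [h7, two_nsmul]
  ring

/-- **Lemma C.** Either a sum of derivatives of smooth functions along the vector fields is
positive on `Z`, or `Z` contains a compact set with all proximal normals orthogonal to the
vector fields. -/
theorem exists_proximal {ι : Type*} [Fintype ι] {Z : Set V} (hZ : IsCompact Z)
    (hne : Z.Nonempty) (Y : ι → V → V) (hY : ∀ a, Continuous (Y a))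
    (hH : ∀ Ψ : ι → V → ℝ, (∀ a, ContDiff ℝ ∞ (Ψ a)) →
      ∃ z ∈ Z, ∑ a, fderiv ℝ (Ψ a) z (Y a z) ≤ 0) :
    ∃ K ⊆ Z, IsCompact K ∧ K.Nonempty ∧
      ∀ c : V, ∀ k ∈ K, (∀ y ∈ K, ‖k - c‖ ≤ ‖y - c‖) → ∀ a, ⟪k - c, Y a k⟫ = 0 := by
  classical
  have : CompactSpace Z := isCompact_iff_compactSpace.1 hZ
  have : Nonempty Z := hne.to_subtype
  -- the subspace
  have hcont : ∀ (Ψ : V → ℝ) (_ : ContDiff ℝ ∞ Ψ) (a : ι),
      Continuous fun z : Z => fderiv ℝ Ψ z (Y a z) := by
    intro Ψ hΨ a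
    have h1 : Continuous (fderiv ℝ Ψ) := hΨ.continuous_fderiv (by simp)
    exact (h1.comp continuous_subtype_val).clm_apply ((hY a).comp continuous_subtype_val)
  let L : (Ψ : ι → V → ℝ) → (∀ a, ContDiff ℝ ∞ (Ψ a)) → C(Z, ℝ) := fun Ψ hΨ =>
    ⟨fun z => ∑ a, fderiv ℝ (Ψ a) z (Y a z), continuous_finsetSum _ fun a _ => hcont _ (hΨ a) a⟩
  let W : Submodule ℝ C(Z, ℝ) :=
    { carrier := {f | ∃ (Ψ : ι → V → ℝ) (hΨ : ∀ a, ContDiff ℝ ∞ (Ψ a)), f = L Ψ hΨ}
      zero_mem' := ⟨fun _ _ => 0, fun _ => contDiff_const, by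
        ext z; simp [L]⟩
      add_mem' := by
        rintro f g ⟨Ψ, hΨ, rfl⟩ ⟨Ψ', hΨ', rfl⟩
        refine ⟨fun a y => Ψ a y + Ψ' a y, fun a => (hΨ a).add (hΨ' a), ?_⟩
        ext z
        simp only [L, ContinuousMap.add_apply, ContinuousMap.coe_mk]
        rw [← Finset.sum_add_distrib]
        refine Finset.sum_congr rfl fun a _ => ?_
        have h1 : DifferentiableAt ℝ (Ψ a) z := ((hΨ a).differentiable (by simp)) z
        have h2 : DifferentiableAt ℝ (Ψ' a) z := ((hΨ' a).differentiable (by simp)) z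
        rw [fderiv_fun_add h1 h2]
        rfl
      smul_mem' := by
        rintro t f ⟨Ψ, hΨ, rfl⟩
        refine ⟨fun a y => t * Ψ a y, fun a => contDiff_const.mul (hΨ a), ?_⟩
        ext z
        simp only [L, ContinuousMap.smul_apply, ContinuousMap.coe_mk, smul_eq_mul]
        rw [Finset.mul_sum]
        refine Finset.sum_congr rfl fun a _ => ?_
        have h1 : DifferentiableAt ℝ (Ψ a) z := ((hΨ a).differentiable (by simp)) z
        rw [fderiv_const_mul h1]
        rfl }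
  obtain ⟨μ, hμW, hμpos, hμ0⟩ := exists_functional W (by
    rintro f ⟨Ψ, hΨ, rfl⟩
    obtain ⟨z, hz, hle⟩ := hH Ψ hΨ
    exact ⟨⟨z, hz⟩, hle⟩)
  have hμ1 : 0 < μ 1 := hμpos 1 fun z => by simp
  refine ⟨Subtype.val '' supp μ, ?_, ?_, ?_, ?_⟩
  · rintro _ ⟨z, _, rfl⟩; exact z.2
  · exact (isClosed_supp).isCompact.image continuous_subtype_val
  · exact (supp_nonempty hμ0 hμ1).image _
  · rintro c _ ⟨k, hk, rfl⟩ hmin a
    by_contra hne0
    -- the sign
    obtain ⟨σ, hσ, hσpos⟩ : ∃ σ : ℝ, (σ = 1 ∨ σ = -1) ∧ 0 < σ * ⟪(k : V) - c, Y a k⟫ := by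
      rcases lt_or_gt_of_ne hne0 with h | h
      · exact ⟨-1, Or.inr rfl, by linarith⟩
      · exact ⟨1, Or.inl rfl, by linarith⟩
    set u : V := (k : V) - c with hu
    set c' : V := c + (1 / 2 : ℝ) • u with hc'
    have hkc' : (k : V) - c' = (1 / 2 : ℝ) • u := by
      rw [hc', hu]; module
    have hquad : ∀ y ∈ supp μ, ‖(k : V) - c'‖ ^ 2 + 1 / 2 * ‖(y : V) - k‖ ^ 2 ≤
        ‖(y : V) - c'‖ ^ 2 := by
      intro y hy
      have h1 := hmin y ⟨y, hy, rfl⟩
      set v : V := (y : V) - k with hv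
      have e1 : (y : V) - c = u + v := by rw [hu, hv]; abel
      have e2 : (y : V) - c' = (1 / 2 : ℝ) • u + v := by rw [← hkc', hv]; abel
      rw [e1] at h1
      have h2 : ‖u‖ ^ 2 ≤ ‖u + v‖ ^ 2 := pow_le_pow_left₀ (norm_nonneg _) h1 2
      rw [norm_add_sq_real] at h2
      rw [hkc', e2, norm_add_sq_real, inner_smul_left]
      simp only [conj_trivial]
      linarith
    -- continuity of the scalar product at `k`
    have hcontin : Continuous fun y : V => σ * ⟪y - c', Y a y⟫ := by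
      have := hY a
      fun_prop
    have hk0 : 0 < σ * ⟪(k : V) - c', Y a k⟫ := by
      rw [hkc', inner_smul_left]
      simp only [conj_trivial]
      linarith
    obtain ⟨r, hr, hball⟩ := Metric.mem_nhds_iff.1
      ((isOpen_lt continuous_const hcontin).mem_nhds hk0)
    set s : ℝ := r ^ 2 / 4 with hs
    have hspos : 0 < s := by positivity
    set ρ : ℝ := ‖(k : V) - c'‖ ^ 2 + s with hρ
    set Ψ : ι → V → ℝ := fun b y => if b = a then -σ * bump c' ρ y else 0 with hΨ
    have hΨc : ∀ b, ContDiff ℝ ∞ (Ψ b) := by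
      intro b
      by_cases hb : b = a
      · simp only [hΨ, hb, if_true]
        exact contDiff_const.mul (contDiff_bump c' ρ)
      · simp only [hΨ, hb, if_false]
        exact contDiff_const
    have hval : ∀ z : Z, L Ψ hΨc z = 2 * ((ρ - ‖(z : V) - c'‖ ^ 2)⁻¹ ^ 2 *
        expNegInvGlue (ρ - ‖(z : V) - c'‖ ^ 2)) * (σ * ⟪(z : V) - c', Y a z⟫) := by
      intro z
      simp only [L, ContinuousMap.coe_mk]
      rw [Finset.sum_eq_single a]
      · have h1 : Ψ a = fun y => -σ * bump c' ρ y := by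
          funext y; simp [hΨ]
        have h2 : DifferentiableAt ℝ (bump c' ρ) (z : V) :=
          (contDiff_bump c' ρ).differentiable (by simp) _
        rw [h1, fderiv_const_mul h2]
        have h3 : (-σ • fderiv ℝ (bump c' ρ) (z : V)) (Y a z) =
          -σ * fderiv ℝ (bump c' ρ) (z : V) (Y a z) := rfl
        rw [h3, fderiv_bump]
        ring
      · intro b _ hb
        have h1 : Ψ b = fun _ => 0 := by
          funext y; simp [hΨ, hb]
        rw [h1]
        simp
      · intro h; exact absurd (Finset.mem_univ a) h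
    have hzero : μ (L Ψ hΨc) = 0 := hμW _ ⟨Ψ, hΨc, rfl⟩
    have hpos : 0 < μ (L Ψ hΨc) := by
      refine apply_pos hμ0 ?_ hk ?_
      · intro z hz
        rw [hval]
        rcases le_or_gt (ρ - ‖(z : V) - c'‖ ^ 2) 0 with h | h
        · rw [expNegInvGlue.zero_of_nonpos h]; simp
        · have h1 := hquad z hz
          have h2 : ‖(z : V) - k‖ ^ 2 < r ^ 2 := by
            rw [hρ, hs] at h
            nlinarith
          have h3 : ‖(z : V) - k‖ < r := lt_of_pow_lt_pow_left₀ 2 hr.le h2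
          have h4 : (z : V) ∈ Metric.ball (k : V) r := by
            rwa [Metric.mem_ball, dist_eq_norm]
          have h5 : 0 < σ * ⟪(z : V) - c', Y a z⟫ := hball h4
          have h6 := expNegInvGlue.nonneg (ρ - ‖(z : V) - c'‖ ^ 2)
          positivity
      · rw [hval]
        have h1 : ρ - ‖(k : V) - c'‖ ^ 2 = s := by rw [hρ]; ring
        rw [h1]
        have h2 := expNegInvGlue.pos_of_pos hspos
        positivity
    linarith

end fields

end Vale.Agent.P272.K.T4
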