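import Vale.Agent.P272.K.T4.FibF
import Vale.Agent.P272.K.T4.Fun
import Vale.Agent.P272.K.T4.L5Iface
import Vale.Agent.P272.K.Asm.Weak

/-! # The identity L2 -/

open scoped Manifold ContDiff ComplexOrder Topology
open Complex Set Filter MeasureTheory

set_option linter.all false

noncomputable section

namespace Vale.Agent.P272.K.T4

open INT (IsDensity intX Part part)

variable {n : ℕ}

/-- the fourth moment formula for the weight `χ` -/
def Mom4 (n : ℕ) (χ : ℝ → ℝ) (c₀ : ℝ) : Prop :=
  ∀ M : Matrix (Fin n) (Fin n) ℂ, M.PosDef → ∀ B : Fin n → Fin n → Matrix (Fin n) (Fin n) ℂ,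
    ∫ w : Cm n, P1.quart B w w w w * ((χ (quad M w).re : ℝ) : ℂ) * ((M.det.re : ℝ) : ℂ) =
      c₀ * (∑ i, ∑ j, M⁻¹ j i * (M⁻¹ * B i j).trace + ∑ i, ∑ j, (M⁻¹ * B i j * M⁻¹) j i)

variable {X : Type*} [TopologicalSpace X] [ChartedSpace (Cm n) X]

/-- `⟨Ric_g, h⟩_g` in one chart -/
def Rl2 (g h : Cm n → Matrix (Fin n) (Fin n) ℂ) (z : Cm n) : ℝ :=
  ((g z)⁻¹ * h z * (g z)⁻¹ * -cHess (fun y => Real.log (g y).det.re) z).trace.re

section cont
variable [T2Space X] [CompactSpace X] [IsManifold 𝓘(ℂ, Cm n) ω X]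

/-- continuity in the charts -/
def ContD (D : Chart n X → Cm n → ℝ) : Prop := ∀ e x, At e x → ContinuousAt (D e) (e x)

omit [T2Space X] [CompactSpace X] [IsManifold 𝓘(ℂ, Cm n) ω X] in
lemma ContD.const_mul {D : Chart n X → Cm n → ℝ} (c : ℝ) (hD : ContD D) :
    ContD fun e z => c * D e z := fun e x hx => continuousAt_const.mul (hD e x hx)

omit [T2Space X] [CompactSpace X] [IsManifold 𝓘(ℂ, Cm n) ω X] in
lemma ContD.mul {D D' : Chart n X → Cm n → ℝ} (hD : ContD D) (hD' : ContD D') :
    ContD fun e z => D e z * D' e z := fun e x hx => (hD e x hx).mul (hD' e x hx)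

omit [T2Space X] [CompactSpace X] [IsManifold 𝓘(ℂ, Cm n) ω X] in
lemma ContD.add {D D' : Chart n X → Cm n → ℝ} (hD : ContD D) (hD' : ContD D') :
    ContD fun e z => D e z + D' e z := fun e x hx => (hD e x hx).add (hD' e x hx)

omit [T2Space X] [IsManifold 𝓘(ℂ, Cm n) ω X] in
lemma integrableOn_cont (P : Part n X) {D : Chart n X → Cm n → ℝ} (hD : ContD D) (i : Fin P.N) :
    IntegrableOn (fun z => P.ρ i ((P.e i).symm z) * D (P.e i) z) (P.e i).target := by
  have hc : ContinuousOn (D (P.e i)) (P.e i).target := by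
    intro z hz
    have := hD (P.e i) ((P.e i).symm z) ⟨P.mem i, (P.e i).map_target hz⟩
    rw [(P.e i).right_inv hz] at this
    exact this.continuousWithinAt
  refine INT.integrableOn_chart ?_ (isClosed_tsupport (P.ρ i)) (P.supp i) ?_
  · exact ((P.cont i).comp_continuousOn (P.e i).continuousOn_symm).mul hc
  · intro z _ h
    rw [image_eq_zero_of_notMem_tsupport h, zero_mul]

theorem intX_add' {D D' : Chart n X → Cm n → ℝ} (hD : ContD D) (hD' : ContD D') :
    intX (fun e z => D e z + D' e z) = intX D + intX D' := by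
  unfold INT.intX
  rw [← Finset.sum_add_distrib]
  refine Finset.sum_congr rfl fun i _ => ?_
  rw [← integral_add (integrableOn_cont _ hD i) (integrableOn_cont _ hD' i)]
  congr 1; ext z; ring

theorem intX_mono' {D D' : Chart n X → Cm n → ℝ} (hD : ContD D) (hD' : ContD D')
    (h : ∀ e x, At e x → D e (e x) ≤ D' e (e x)) : intX D ≤ intX D' := by
  have h1 := INT.intX_nonneg (D := fun e z => D' e z + (-1) * D e z) fun e x hx => by
    have := h e x hx
    show 0 ≤ D' e (e x) + (-1) * D e (e x)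
    linarith
  rw [intX_add' hD' (hD.const_mul (-1)),
    INT.intX_const_mul] at h1
  linarith

end cont

section
variable {g h : Chart n X → Cm n → Matrix (Fin n) (Fin n) ℂ} {e : Chart n X} {x : X}
  {χ : ℝ → ℝ} {c₀ : ℝ}

lemma contD_dt (hg : IsHermitian g) : ContD (dt g) := fun e x hx =>
  det_contAt fun i j => (hg.smooth e x hx i j).continuousAt

lemma inv_contDiffAt (hg : IsHermitian g) (hx : At e x) (i j : Fin n) :
    ContDiffAt ℝ ∞ (fun y => (g e y)⁻¹ i j) (e x) :=
  contDiffAt_inv (hg.smooth e x hx) (hg.det_ne_zero hx) i j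

lemma contD_Tr (hg : IsHermitian g) (hh : IsHermitian h) : ContD (Tr g h) := fun e x hx =>
  (contDiffAt_re (contDiffAt_trace_mul (inv_contDiffAt hg hx) (hh.smooth e x hx))).continuousAt

lemma logdet_contDiffAt (hg : IsHermitian g) (hx : At e x) :
    ContDiffAt ℝ ∞ (fun y => Real.log (g e y).det.re) (e x) := by
  have h1 : ContDiffAt ℝ ∞ (fun y => (g e y).det.re) (e x) :=
    contDiffAt_re (contDiffAt_det (hg.smooth e x hx))
  exact h1.log (INT.posDef_det_re (hg.posDef e x hx)).1.ne'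

lemma contD_Rl2 (hg : IsHermitian g) (hh : IsHermitian h) :
    ContD fun e z => Rl2 (g e) (h e) z := fun e x hx => by
  have h1 := inv_contDiffAt hg hx
  have h2 := contDiffAt_mul_entry (contDiffAt_mul_entry h1 (hh.smooth e x hx)) h1
  have h3 : ∀ i j, ContDiffAt ℝ ∞ (fun y => (-cHess (fun y => Real.log (g e y).det.re) y) i j)
      (e x) := fun i j => (contDiffAt_cHess (logdet_contDiffAt hg hx) (le_of_eq rfl) i j).neg
  exact (contDiffAt_re (contDiffAt_trace_mul h2 h3)).continuousAt

/-- the moment formula applied to the curvature identity -/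
lemma Eg_Q2 (hχ : Wt χ) (hm : Mom4 n χ c₀) (hg : IsHermitian g) (hh : IsHermitian h)
    (hx : At e x) : Eg χ g (fun e z w => Pq g h e z w + Rq h e z w) e (e x) =
      c₀ * P1.Q2 (g e) (h e) (e x) := by
  have hm1 := hm (g e (e x)) (hg.posDef e x hx) (P1.Ef (g e) (h e) (e x))
  have hq : ∀ w, P1.quart (P1.Ef (g e) (h e) (e x)) w w w w =
      quad (h e (e x)) (P1.dGam (g e) (h e) (e x) w) - K.quart (curv (h e) (e x)) w := by
    intro w
    have hH : P1.Met ⟨e.target, e.open_target⟩ (h e) :=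
      ⟨fun z hz i j => hh.smooth_target hx.1 hz i j, fun z hz => hh.posDef_target hx.1 hz⟩
    exact P1.quart_Ef hH (by exact hx.mem_target) w
  have hc : Continuous fun w : Cm n => P1.quart (P1.Ef (g e) (h e) (e x)) w w w w := by
    unfold P1.quart
    fun_prop
  have hi : Integrable fun w : Cm n => P1.quart (P1.Ef (g e) (h e) (e x)) w w w w *
      ((χ (quad (g e (e x)) w).re : ℝ) : ℂ) * (((g e (e x)).det.re : ℝ) : ℂ) := by
    have := (fib_int hχ (hg.posDef e x hx) hc).mul_const (((g e (e x)).det.re : ℝ) : ℂ)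
    refine this.congr (Eventually.of_forall fun w => ?_)
    simp only [Complex.real_smul]; ring
  have h1 := congrArg Complex.re hm1
  rw [Complex.re_ofReal_mul] at h1
  have h2 : (∫ w : Cm n, P1.quart (P1.Ef (g e) (h e) (e x)) w w w w *
      ((χ (quad (g e (e x)) w).re : ℝ) : ℂ) * (((g e (e x)).det.re : ℝ) : ℂ)).re =
      ∫ w : Cm n, (P1.quart (P1.Ef (g e) (h e) (e x)) w w w w *
      ((χ (quad (g e (e x)) w).re : ℝ) : ℂ) * (((g e (e x)).det.re : ℝ) : ℂ)).re :=
    (integral_re hi).symm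
  rw [h2] at h1
  rw [P1.Q2, ← h1]
  unfold Eg
  congr 1
  funext w
  rw [Complex.re_mul_ofReal, Complex.re_mul_ofReal, hq, Complex.sub_re]
  simp only [Pq, Rq]
  ring

/-- `tr_g h` and the Ricci term -/
lemma Rl2_ge (hg : IsHermitian g) (hh : IsHermitian h) (hr : RicGe g) (hx : At e x) :
    -Tr g h e (e x) ≤ Rl2 (g e) (h e) (e x) :=
  P1.ric_ge (hg.posDef e x hx) (hh.posDef e x hx) (hr e x hx)

lemma trace_swap (A H R : Matrix (Fin n) (Fin n) ℂ) :
    (A * R * A * H).trace = (A * H * A * R).trace := by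
  rw [Matrix.mul_assoc (A * R), Matrix.trace_mul_comm, Matrix.mul_assoc (A * H)]

lemma trace_Ml (A G H R : Matrix (Fin n) (Fin n) ℂ) (hA : A * G = 1) :
    (A * (R + G) * A * H).trace = (A * H * A * R).trace + (A * H).trace := by
  rw [Matrix.mul_add, hA, Matrix.add_mul, Matrix.add_mul, Matrix.trace_add, Matrix.one_mul,
    trace_swap]

lemma Ml_eq (hg : IsHermitian g) (hx : At e x) :
    Ml (g e) (h e) (e x) = Rl2 (g e) (h e) (e x) + Tr g h e (e x) := by
  have hu : IsUnit (g e (e x)).det := isUnit_iff_ne_zero.2 (hg.det_ne_zero hx)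
  have h1 := congrArg Complex.re (trace_Ml (g e (e x))⁻¹ (g e (e x)) (h e (e x))
    (-cHess (fun y => Real.log (g e y).det.re) (e x)) (Matrix.nonsing_inv_mul _ hu))
  rw [Complex.add_re] at h1
  exact h1

end

section
variable [T2Space X] [CompactSpace X] [IsManifold 𝓘(ℂ, Cm n) ω X]
  {g h : Chart n X → Cm n → Matrix (Fin n) (Fin n) ℂ} {χ : ℝ → ℝ} {c₀ : ℝ}

/-- global form of the weak identity -/
theorem intX_weak_eq (hg : IsKahler g) (hh : IsHermitian h) :
    intX (fun e z => (P1.Q2 (g e) (h e) z + 2 * Rl2 (g e) (h e) z) * (g e z).det.re) = 0 := by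
  set P := part n X with hP
  have hgH : IsHermitian g := hg.toIsHermitian
  have hsum : intX (fun e z => ∑ i : Fin P.N, Qd g h (P.ρ i) e z) = 0 := by
    rw [← INT.intX_zero (n := n) (X := X)]
    refine INT.intX_congr fun e x hx => ?_
    have h0 : ∑ i : Fin P.N, cHess (fun y => P.ρ i (e.symm y)) (e x) = 0 := by
      rw [← cHess_sum]
      · have : (fun y => ∑ i : Fin P.N, P.ρ i (e.symm y)) = fun _ => 1 := by
          funext y; exact P.sum _
        rw [this, cHess_const]
      · intro i _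
        exact (P.smooth i e x hx).of_le (by exact WithTop.coe_le_coe.2 le_top)
    unfold Qd
    rw [← Finset.sum_mul, Finset.sum_add_distrib, ← Finset.mul_sum]
    have h1 : ∑ i : Fin P.N, ((g e (e x))⁻¹ * cHess (fun y => P.ρ i (e.symm y)) (e x)).trace.re
        = 0 := by
      rw [← Complex.re_sum, ← Matrix.trace_sum, ← Matrix.mul_sum, h0]; simp
    have h2 : ∑ i : Fin P.N, ((g e (e x))⁻¹ * h e (e x) *
        ((g e (e x))⁻¹ * cHess (fun y => P.ρ i (e.symm y)) (e x))).trace.re = 0 := by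
      rw [← Complex.re_sum, ← Matrix.trace_sum, ← Matrix.mul_sum, ← Matrix.mul_sum, h0]; simp
    rw [h1, h2]; ring
  have hi : ∀ i : Fin P.N, intX (Qd g h (P.ρ i)) =
      ∫ z in (P.e i).target, Qd g h (P.ρ i) (P.e i) z := by
    intro i
    refine INT.intX_of_support (isDensity_Qd hgH hh (P.smooth i)) (P.mem i)
      (isClosed_tsupport (P.ρ i)) (P.supp i) ?_
    intro e' x hx hxK
    have h1 : (fun y => P.ρ i (e'.symm y)) =ᶠ[𝓝 (e' x)] fun _ => 0 := by
      have h2 : ∀ᶠ y in 𝓝 x, P.ρ i y = 0 := by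
        filter_upwards [(isClosed_tsupport (P.ρ i)).isOpen_compl.mem_nhds hxK] with y hy
        exact image_eq_zero_of_notMem_tsupport hy
      have h3 : Tendsto e'.symm (𝓝 (e' x)) (𝓝 x) := by
        have := e'.continuousAt_symm (e'.map_source hx.2)
        rw [ContinuousAt, e'.left_inv hx.2] at this
        exact this
      exact h3.eventually h2
    unfold Qd
    rw [cHess_congr h1, cHess_const]
    simp
  have hchart : ∀ i : Fin P.N,
      ∫ z in (P.e i).target, P.ρ i ((P.e i).symm z) *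
        ((P1.Q2 (g (P.e i)) (h (P.e i)) z + 2 * Rl2 (g (P.e i)) (h (P.e i)) z) *
          (g (P.e i) z).det.re)
      = ∫ z in (P.e i).target, Qd g h (P.ρ i) (P.e i) z := by
    intro i
    have hmem := P.mem i
    have hsm : ∀ z ∈ (P.e i).target, At (P.e i) ((P.e i).symm z) := fun z hz => At.of_target hmem hz
    have key := P1.weak_eq (P.e i).open_target (g := g (P.e i)) (h := h (P.e i))
      (ψ := cutZ (P.e i) (P.ρ i)) (fun z hz a b => hgH.smooth_target hmem hz a b)
      (fun z hz a b => hh.smooth_target hmem hz a b)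
      (fun z hz => hgH.posDef_target hmem hz) (fun z hz => hh.posDef_target hmem hz)
      (fun z hz a b l => by
        have := hg.closed (P.e i) _ (hsm z hz) a b l
        rwa [(P.e i).right_inv hz] at this)
      (contDiff_cutZ hmem (P.smooth i) (P.supp i)) (hasCompactSupport_cutZ (P.supp i))
      ((tsupport_cutZ (P.supp i)).trans (image_tsupport_subset (P.supp i)))
    have e1 : ∫ z in (P.e i).target, P.ρ i ((P.e i).symm z) *
        ((P1.Q2 (g (P.e i)) (h (P.e i)) z + 2 * Rl2 (g (P.e i)) (h (P.e i)) z) *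
          (g (P.e i) z).det.re) =
        ∫ z in (P.e i).target, cutZ (P.e i) (P.ρ i) z *
        ((P1.Q2 (g (P.e i)) (h (P.e i)) z + 2 * Rl2 (g (P.e i)) (h (P.e i)) z) *
          (g (P.e i) z).det.re) := by
      refine setIntegral_congr_fun (P.e i).open_target.measurableSet fun z hz => ?_
      simp only [cutZ_of_mem hz]
    have e2 : ∫ z in (P.e i).target, Qd g h (P.ρ i) (P.e i) z =
        ∫ z in (P.e i).target, (((g (P.e i) z)⁻¹ * h (P.e i) z).trace.re *
          ((g (P.e i) z)⁻¹ * cHess (cutZ (P.e i) (P.ρ i)) z).trace.re +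
          ((g (P.e i) z)⁻¹ * h (P.e i) z *
            ((g (P.e i) z)⁻¹ * cHess (cutZ (P.e i) (P.ρ i)) z)).trace.re) *
          (g (P.e i) z).det.re := by
      refine setIntegral_congr_fun (P.e i).open_target.measurableSet fun z hz => ?_
      simp only [Qd, cHess_congr (cutZ_eventuallyEq (ρ := P.ρ i) hz)]
    rw [e1, e2]
    exact key
  calc intX (fun e z => (P1.Q2 (g e) (h e) z + 2 * Rl2 (g e) (h e) z) * (g e z).det.re)
      = ∑ i : Fin P.N, ∫ z in (P.e i).target, Qd g h (P.ρ i) (P.e i) z :=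
        Finset.sum_congr rfl fun i _ => hchart i
    _ = ∑ i : Fin P.N, intX (Qd g h (P.ρ i)) := Finset.sum_congr rfl fun i _ => (hi i).symm
    _ = intX (fun e z => ∑ i : Fin P.N, Qd g h (P.ρ i) e z) :=
        (INT.intX_sum Finset.univ fun i _ => isDensity_Qd hgH hh (P.smooth i)).symm
    _ = 0 := hsum

/-- **L2 as an equality** -/
theorem L2_eq (hχ : Wt χ) (hc : 0 < c₀) (hm : Mom4 n χ c₀) (hg : IsKahler g) (hh : IsHermitian h) :
    intX (fun e z => Eg χ g (fun e z w => Pq g h e z w + Rq h e z w) e z * dt g e z) =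
      -(2 * c₀) * intX (fun e z => Rl2 (g e) (h e) z * dt g e z) := by
  have hgH : IsHermitian g := hg.toIsHermitian
  have hPR : CTFun fun e z w => Pq g h e z w + Rq h e z w :=
    ((Pq_smTFun hgH hh).add (Rq_smTFun hh)).ctfun
  have h1 := intX_weak_eq hg hh
  have h2 : intX (fun e z => (P1.Q2 (g e) (h e) z + 2 * Rl2 (g e) (h e) z) * (g e z).det.re) =
      intX (fun e z => c₀⁻¹ * (Eg χ g (fun e z w => Pq g h e z w + Rq h e z w) e z * dt g e z) +
        2 * (Rl2 (g e) (h e) z * dt g e z)) := by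
    refine INT.intX_congr fun e x hx => ?_
    rw [Eg_Q2 hχ hm hgH hh hx]
    unfold dt
    field_simp
  have k1 : ContD fun e z => Eg χ g (fun e z w => Pq g h e z w + Rq h e z w) e z * dt g e z :=
    (Eg_isDensity hχ hgH hPR).cont
  rw [h2, intX_add' (k1.const_mul c₀⁻¹) (((contD_Rl2 hgH hh).mul (contD_dt hgH)).const_mul 2),
    INT.intX_const_mul, INT.intX_const_mul] at h1
  have h3 : c₀ ≠ 0 := hc.ne'
  field_simp at h1
  linarith

/-- **L2** -/
theorem L2_global (hχ : Wt χ) (hc : 0 < c₀) (hm : Mom4 n χ c₀) (hg : IsKahler g)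
    (hh : IsHermitian h) (hr : RicGe g) :
    intX (fun e z => Eg χ g (fun e z w => Pq g h e z w + Rq h e z w) e z * dt g e z) ≤
      (2 * c₀) * intX (fun e z => Tr g h e z * dt g e z) := by
  have hgH : IsHermitian g := hg.toIsHermitian
  rw [L2_eq hχ hc hm hg hh]
  have h1 : intX (fun e z => (-1) * (Tr g h e z * dt g e z)) ≤
      intX (fun e z => Rl2 (g e) (h e) z * dt g e z) := by
    refine intX_mono' (((contD_Tr hgH hh).mul (contD_dt hgH)).const_mul (-1))
      ((contD_Rl2 hgH hh).mul (contD_dt hgH)) fun e x hx => ?_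
    have h2 := Rl2_ge hgH hh hr hx
    have h3 : 0 < dt g e (e x) := (INT.posDef_det_re (hgH.posDef e x hx)).1
    nlinarith [mul_le_mul_of_nonneg_right h2 h3.le]
  rw [INT.intX_const_mul] at h1
  nlinarith [mul_le_mul_of_nonneg_left h1 (by positivity : (0 : ℝ) ≤ 2 * c₀)]

/-- (G2) -/
theorem intX_Ml_le (hχ : Wt χ) (hc : 0 < c₀) (hm : Mom4 n χ c₀) (hg : IsKahler g)
    (hh : IsHermitian h) (hneg : NonposHSC h) :
    intX (fun e z => Ml (g e) (h e) z * dt g e z) ≤ intX (fun e z => Tr g h e z * dt g e z) := by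
  have hgH : IsHermitian g := hg.toIsHermitian
  have hPR : CTFun fun e z w => Pq g h e z w + Rq h e z w :=
    ((Pq_smTFun hgH hh).add (Rq_smTFun hh)).ctfun
  have h1 := L2_eq hχ hc hm hg hh
  have h2 : 0 ≤ intX (fun e z => Eg χ g (fun e z w => Pq g h e z w + Rq h e z w) e z *
      dt g e z) := by
    refine INT.intX_nonneg fun e x hx => ?_
    have h3 : 0 < dt g e (e x) := (INT.posDef_det_re (hgH.posDef e x hx)).1
    refine mul_nonneg (integral_nonneg fun w => ?_) h3.le
    exact mul_nonneg (mul_nonneg (add_nonneg (Pq_nonneg g hh hx w) (Rq_nonneg hneg hx w))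
      (hχ.nonneg _)) h3.le
  have h4 : intX (fun e z => Ml (g e) (h e) z * dt g e z) =
      intX (fun e z => Rl2 (g e) (h e) z * dt g e z + Tr g h e z * dt g e z) := by
    refine INT.intX_congr fun e x hx => ?_
    rw [Ml_eq hgH hx]; ring
  rw [h4, intX_add' ((contD_Rl2 hgH hh).mul (contD_dt hgH)) ((contD_Tr hgH hh).mul (contD_dt hgH))]
  have h5 : intX (fun e z => Rl2 (g e) (h e) z * dt g e z) ≤ 0 := by
    by_contra hcon
    push Not at hcon
    have : 0 < (2 * c₀) * intX (fun e z => Rl2 (g e) (h e) z * dt g e z) := by positivity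
    linarith
  linarith

end

end Vale.Agent.P272.K.T4
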