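import Mathlib.Analysis.Complex.Basic
import Mathlib.Analysis.Normed.Group.Constructions
import Mathlib.Algebra.Order.Chebyshev
import Mathlib.Algebra.BigOperators.Field

/-!
# T4, block L5: pointwise algebra of curvature-like tensors with nonpositive quartic form
-/

open scoped ComplexConjugate

noncomputable section

namespace Vale.Agent.P272.K.T4.L5

variable {n : ℕ}

/-- `Σ R_{i j̄ k l̄} a_i b̄_j c_k d̄_l` -/
def qf (R : Fin n → Fin n → Fin n → Fin n → ℂ) (a b c d : Fin n → ℂ) : ℂ :=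
  ∑ i, ∑ j, ∑ k, ∑ l, R i j k l * (a i * conj (b j) * c k * conj (d l))

/-- `(R(w,w̄)w)` lowered: `Σ R_{i j̄ k l̄} w_i w̄_j w_k` -/
def rv (R : Fin n → Fin n → Fin n → Fin n → ℂ) (w : Fin n → ℂ) (l : Fin n) : ℂ :=
  ∑ i, ∑ j, ∑ k, R i j k l * (w i * conj (w j) * w k)

/-- `Σ R_{i j̄ q l̄} w_i w̄_j w̄_l` -/
def bz (R : Fin n → Fin n → Fin n → Fin n → ℂ) (w : Fin n → ℂ) (q : Fin n) : ℂ :=
  ∑ i, ∑ j, ∑ l, R i j q l * (w i * conj (w j) * conj (w l))

/-- `Σ R_{q j̄ i l̄} w_i w̄_j w̄_l` -/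
def bz' (R : Fin n → Fin n → Fin n → Fin n → ℂ) (w : Fin n → ℂ) (q : Fin n) : ℂ :=
  ∑ i, ∑ j, ∑ l, R q j i l * (w i * conj (w j) * conj (w l))

/-- the antisymmetric part -/
def beta (R : Fin n → Fin n → Fin n → Fin n → ℂ) (w : Fin n → ℂ) (q : Fin n) : ℂ :=
  (bz R w q - bz' R w q) / 2

/-- the derivative `∂_q` of the quartic form -/
def dq (R : Fin n → Fin n → Fin n → Fin n → ℂ) (w : Fin n → ℂ) (q : Fin n) : ℂ :=
  bz R w q + bz' R w q

variable {R : Fin n → Fin n → Fin n → Fin n → ℂ} {w : Fin n → ℂ}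

theorem bz_eq (R : Fin n → Fin n → Fin n → Fin n → ℂ) (w : Fin n → ℂ) (q : Fin n) :
    bz R w q = beta R w q + dq R w q / 2 := by
  rw [beta, dq]; ring

theorem bz_eq_conj (hR : ∀ i j k l, conj (R i j k l) = R j i l k) (q : Fin n) :
    bz R w q = conj (rv R w q) := by
  rw [bz, rv, map_sum, Finset.sum_comm]
  refine Finset.sum_congr rfl fun i _ => ?_
  rw [map_sum]
  refine Finset.sum_congr rfl fun j _ => ?_
  rw [map_sum]
  refine Finset.sum_congr rfl fun k _ => ?_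
  rw [map_mul, hR]
  simp only [map_mul, Complex.conj_conj]
  ring

theorem sum_beta_mul (R : Fin n → Fin n → Fin n → Fin n → ℂ) (w : Fin n → ℂ) :
    ∑ q, beta R w q * w q = 0 := by
  have h : ∑ q, bz R w q * w q = ∑ q, bz' R w q * w q := by
    simp only [bz, bz', Finset.sum_mul]
    rw [Finset.sum_comm]
    refine Finset.sum_congr rfl fun i _ => Finset.sum_congr rfl fun q _ => ?_
    refine Finset.sum_congr rfl fun j _ => Finset.sum_congr rfl fun l _ => ?_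
    ring
  have h2 : ∑ q, beta R w q * w q = (∑ q, bz R w q * w q - ∑ q, bz' R w q * w q) / 2 := by
    rw [← Finset.sum_sub_distrib, Finset.sum_div]
    exact Finset.sum_congr rfl fun q _ => by rw [beta]; ring
  rw [h2, h]; simp

theorem qf_add₁ (a a' b c d : Fin n → ℂ) :
    qf R (a + a') b c d = qf R a b c d + qf R a' b c d := by
  simp only [qf, ← Finset.sum_add_distrib, Pi.add_apply]
  refine Finset.sum_congr rfl fun i _ => Finset.sum_congr rfl fun j _ =>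
    Finset.sum_congr rfl fun k _ => Finset.sum_congr rfl fun l _ => ?_
  ring

theorem qf_add₂ (a b b' c d : Fin n → ℂ) :
    qf R a (b + b') c d = qf R a b c d + qf R a b' c d := by
  simp only [qf, ← Finset.sum_add_distrib, Pi.add_apply, map_add]
  refine Finset.sum_congr rfl fun i _ => Finset.sum_congr rfl fun j _ =>
    Finset.sum_congr rfl fun k _ => Finset.sum_congr rfl fun l _ => ?_
  ring

theorem qf_add₃ (a b c c' d : Fin n → ℂ) :
    qf R a b (c + c') d = qf R a b c d + qf R a b c' d := by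
  simp only [qf, ← Finset.sum_add_distrib, Pi.add_apply]
  refine Finset.sum_congr rfl fun i _ => Finset.sum_congr rfl fun j _ =>
    Finset.sum_congr rfl fun k _ => Finset.sum_congr rfl fun l _ => ?_
  ring

theorem qf_add₄ (a b c d d' : Fin n → ℂ) :
    qf R a b c (d + d') = qf R a b c d + qf R a b c d' := by
  simp only [qf, ← Finset.sum_add_distrib, Pi.add_apply, map_add]
  refine Finset.sum_congr rfl fun i _ => Finset.sum_congr rfl fun j _ =>
    Finset.sum_congr rfl fun k _ => Finset.sum_congr rfl fun l _ => ?_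
  ring

theorem qf_conj (hR : ∀ i j k l, conj (R i j k l) = R j i l k) (a b c d : Fin n → ℂ) :
    conj (qf R a b c d) = qf R b a d c := by
  simp only [qf, map_sum, map_mul, hR, Complex.conj_conj]
  rw [Finset.sum_comm]
  refine Finset.sum_congr rfl fun i _ => Finset.sum_congr rfl fun j _ => ?_
  rw [Finset.sum_comm]
  refine Finset.sum_congr rfl fun k _ => Finset.sum_congr rfl fun l _ => ?_
  ring

theorem qf_third (v : Fin n → ℂ) : qf R w w v w = ∑ q, bz R w q * v q := by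
  simp only [qf, bz, Finset.sum_mul]
  rw [Finset.sum_comm (γ := Fin n)]
  refine Eq.trans (b := ∑ i, ∑ q, ∑ j, ∑ l, R i j q l * (w i * conj (w j) * conj (w l)) * v q) ?_ ?_
  · rw [Finset.sum_comm]
    refine Finset.sum_congr rfl fun i _ => ?_
    rw [Finset.sum_comm]
    refine Finset.sum_congr rfl fun q _ => Finset.sum_congr rfl fun j _ =>
      Finset.sum_congr rfl fun l _ => ?_
    ring
  · rw [Finset.sum_comm]

theorem qf_first (v : Fin n → ℂ) : qf R v w w w = ∑ q, bz' R w q * v q := by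
  simp only [qf, bz', Finset.sum_mul]
  refine Finset.sum_congr rfl fun q _ => ?_
  rw [Finset.sum_comm]
  refine Eq.trans (b := ∑ k, ∑ j, ∑ l, R q j k l * (v q * conj (w j) * w k * conj (w l))) ?_ ?_
  · rfl
  · refine Finset.sum_congr rfl fun i _ => Finset.sum_congr rfl fun j _ =>
      Finset.sum_congr rfl fun l _ => ?_
    ring

theorem norm_qf_le {M : ℝ} (hM : ∀ i j k l, ‖R i j k l‖ ≤ M) (a b c d : Fin n → ℂ) :
    ‖qf R a b c d‖ ≤ n ^ 4 * M * (‖a‖ * ‖b‖ * ‖c‖ * ‖d‖) := by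
  have h : ∀ i j k l, ‖R i j k l * (a i * conj (b j) * c k * conj (d l))‖ ≤
      M * (‖a‖ * ‖b‖ * ‖c‖ * ‖d‖) := by
    intro i j k l
    have hM0 : 0 ≤ M := (norm_nonneg _).trans (hM i j k l)
    rw [norm_mul, norm_mul, norm_mul, norm_mul, Complex.norm_conj, Complex.norm_conj]
    refine mul_le_mul (hM i j k l) ?_ (by positivity) hM0
    gcongr
    · exact norm_le_pi_norm a i
    · exact norm_le_pi_norm b j
    · exact norm_le_pi_norm c k
    · exact norm_le_pi_norm d l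
  calc ‖qf R a b c d‖ ≤ ∑ i, ‖∑ j, ∑ k, ∑ l, R i j k l * (a i * conj (b j) * c k * conj (d l))‖ :=
        norm_sum_le _ _
    _ ≤ ∑ _i : Fin n, ∑ _j : Fin n, ∑ _k : Fin n, ∑ _l : Fin n, M * (‖a‖ * ‖b‖ * ‖c‖ * ‖d‖) := by
        refine Finset.sum_le_sum fun i _ => (norm_sum_le _ _).trans (Finset.sum_le_sum fun j _ =>
          (norm_sum_le _ _).trans (Finset.sum_le_sum fun k _ => (norm_sum_le _ _).trans
            (Finset.sum_le_sum fun l _ => h i j k l)))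
    _ = _ := by
        simp only [Finset.sum_const, Finset.card_univ, Fintype.card_fin, nsmul_eq_mul]; ring

theorem norm_sum3_le {M : ℝ} {f : Fin n → Fin n → Fin n → ℂ} (hf : ∀ i j k, ‖f i j k‖ ≤ M) :
    ‖∑ i, ∑ j, ∑ k, f i j k‖ ≤ n ^ 3 * M := by
  calc ‖∑ i, ∑ j, ∑ k, f i j k‖ ≤ ∑ _i : Fin n, ∑ _j : Fin n, ∑ _k : Fin n, M :=
        (norm_sum_le _ _).trans (Finset.sum_le_sum fun i _ => (norm_sum_le _ _).trans
          (Finset.sum_le_sum fun j _ => (norm_sum_le _ _).trans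
            (Finset.sum_le_sum fun k _ => hf i j k)))
    _ = _ := by
        simp only [Finset.sum_const, Finset.card_univ, Fintype.card_fin, nsmul_eq_mul]; ring

theorem norm_bz_le {M : ℝ} (hM : ∀ i j k l, ‖R i j k l‖ ≤ M) (q : Fin n) :
    ‖bz R w q‖ ≤ n ^ 3 * (M * ‖w‖ ^ 3) := by
  refine norm_sum3_le fun i j l => ?_
  have hM0 : 0 ≤ M := (norm_nonneg _).trans (hM i j q l)
  rw [norm_mul, norm_mul, norm_mul, Complex.norm_conj, Complex.norm_conj]
  have : ‖w i‖ * ‖w j‖ * ‖w l‖ ≤ ‖w‖ ^ 3 := by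
    calc ‖w i‖ * ‖w j‖ * ‖w l‖ ≤ ‖w‖ * ‖w‖ * ‖w‖ := by
          gcongr <;> exact norm_le_pi_norm w _
      _ = _ := by ring
  exact mul_le_mul (hM i j q l) this (by positivity) hM0

theorem norm_bz'_le {M : ℝ} (hM : ∀ i j k l, ‖R i j k l‖ ≤ M) (q : Fin n) :
    ‖bz' R w q‖ ≤ n ^ 3 * (M * ‖w‖ ^ 3) := by
  refine norm_sum3_le fun i j l => ?_
  have hM0 : 0 ≤ M := (norm_nonneg _).trans (hM q j i l)
  rw [norm_mul, norm_mul, norm_mul, Complex.norm_conj, Complex.norm_conj]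
  have : ‖w i‖ * ‖w j‖ * ‖w l‖ ≤ ‖w‖ ^ 3 := by
    calc ‖w i‖ * ‖w j‖ * ‖w l‖ ≤ ‖w‖ * ‖w‖ * ‖w‖ := by
          gcongr <;> exact norm_le_pi_norm w _
      _ = _ := by ring
  exact mul_le_mul (hM q j i l) this (by positivity) hM0

theorem norm_beta_le {M : ℝ} (hM : ∀ i j k l, ‖R i j k l‖ ≤ M) (q : Fin n) :
    ‖beta R w q‖ ≤ n ^ 3 * (M * ‖w‖ ^ 3) := by
  rw [beta, norm_div]
  have h1 := norm_bz_le (w := w) hM q
  have h2 := norm_bz'_le (w := w) hM q
  have h3 := norm_sub_le (bz R w q) (bz' R w q)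
  have : ‖(2 : ℂ)‖ = 2 := by norm_num
  rw [this]
  linarith

/-- the gradient of a nonpositive quartic form is controlled by the form -/
theorem dq_sq_le {M : ℝ} (hM0 : 0 ≤ M) (hR : ∀ i j k l, conj (R i j k l) = R j i l k)
    (hM : ∀ i j k l, ‖R i j k l‖ ≤ M) (hneg : ∀ w, (qf R w w w w).re ≤ 0) (w : Fin n → ℂ) :
    ∑ q, ‖dq R w q‖ ^ 2 ≤
      (11 * n ^ 4 * M + 2 * n ^ 3 * M + 1) * (‖w‖ ^ 2 * (-(qf R w w w w).re)) := by
  set Λ : ℝ := 11 * n ^ 4 * M + 2 * n ^ 3 * M + 1 with hΛ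
  have hΛ0 : 0 < Λ := by positivity
  have hdq : ∀ q, ‖dq R w q‖ ≤ 2 * n ^ 3 * M * ‖w‖ ^ 3 := fun q => by
    have h1 := norm_bz_le (w := w) hM q
    have h2 := norm_bz'_le (w := w) hM q
    have h3 := norm_add_le (bz R w q) (bz' R w q)
    rw [dq]
    calc _ ≤ _ := h3
      _ ≤ n ^ 3 * (M * ‖w‖ ^ 3) + n ^ 3 * (M * ‖w‖ ^ 3) := add_le_add h1 h2
      _ = _ := by ring
  rcases eq_or_ne ‖w‖ 0 with hw | hw
  · have : ∀ q, dq R w q = 0 := fun q => by
      have := hdq q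
      rw [hw] at this
      simpa using this
    simp [this, hw]
  have hw0 : 0 < ‖w‖ := lt_of_le_of_ne (norm_nonneg _) (Ne.symm hw)
  set D : ℝ := ∑ q, ‖dq R w q‖ ^ 2 with hD
  have hD0 : 0 ≤ D := Finset.sum_nonneg fun q _ => sq_nonneg _
  set s : ℝ := (Λ * ‖w‖ ^ 2)⁻¹ with hs
  have hs0 : 0 < s := by positivity
  set v : Fin n → ℂ := fun q => (s : ℂ) * conj (dq R w q) with hv
  have hvq : ∀ q, ‖v q‖ = s * ‖dq R w q‖ := fun q => by
    rw [hv]
    simp only [norm_mul, Complex.norm_conj, Complex.norm_real, Real.norm_of_nonneg hs0.le]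
  have hvw : ‖v‖ ≤ ‖w‖ := by
    refine (pi_norm_le_iff_of_nonneg hw0.le).2 fun q => ?_
    rw [hvq]
    have h1 := hdq q
    have h2 : s * (2 * n ^ 3 * M * ‖w‖ ^ 3) ≤ ‖w‖ := by
      rw [hs, inv_mul_le_iff₀ (by positivity)]
      have : 2 * n ^ 3 * M ≤ Λ := by
        rw [hΛ]
        have : 0 ≤ 11 * (n : ℝ) ^ 4 * M := by positivity
        linarith
      calc 2 * n ^ 3 * M * ‖w‖ ^ 3 ≤ Λ * ‖w‖ ^ 3 := by gcongr
        _ = _ := by ring
    calc s * ‖dq R w q‖ ≤ s * (2 * n ^ 3 * M * ‖w‖ ^ 3) := by gcongr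
      _ ≤ _ := h2
  have hv2 : ‖v‖ ^ 2 ≤ s ^ 2 * D := by
    have h0 : ∀ q, ‖v q‖ ≤ Real.sqrt (s ^ 2 * D) := fun q => by
      rw [hvq]
      refine Real.le_sqrt_of_sq_le ?_
      rw [mul_pow]
      exact mul_le_mul_of_nonneg_left
        (Finset.single_le_sum (f := fun q => ‖dq R w q‖ ^ 2) (fun q _ => sq_nonneg _)
          (Finset.mem_univ q)) (sq_nonneg s)
    have h1 : ‖v‖ ≤ Real.sqrt (s ^ 2 * D) :=
      (pi_norm_le_iff_of_nonneg (Real.sqrt_nonneg _)).2 h0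
    calc ‖v‖ ^ 2 ≤ Real.sqrt (s ^ 2 * D) ^ 2 := by gcongr
      _ = _ := Real.sq_sqrt (by positivity)
  -- expansion
  have hexp : qf R (w + v) (w + v) (w + v) (w + v) = qf R w w w w +
      (qf R v w w w + qf R w v w w + qf R w w v w + qf R w w w v) +
      (qf R v v w w + qf R v w v w + qf R v w w v + qf R w v v w + qf R w v w v + qf R w w v v +
        qf R v v v w + qf R v v w v + qf R v w v v + qf R w v v v + qf R v v v v) := by
    simp only [qf_add₁, qf_add₂, qf_add₃, qf_add₄]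
    ring
  have hlin : (qf R v w w w + qf R w v w w + qf R w w v w + qf R w w w v).re = 2 * (s * D) := by
    have e1 : qf R w v w w = conj (qf R v w w w) := by rw [qf_conj hR]
    have e2 : qf R w w w v = conj (qf R w w v w) := by rw [qf_conj hR]
    rw [e1, e2]
    simp only [Complex.add_re, Complex.conj_re]
    have e3 : qf R v w w w + qf R w w v w = ((s * D : ℝ) : ℂ) := by
      rw [qf_first, qf_third, ← Finset.sum_add_distrib, hD, Finset.mul_sum]
      push_cast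
      refine Finset.sum_congr rfl fun q _ => ?_
      rw [← add_mul, add_comm (bz' R w q)]
      show dq R w q * ((s : ℂ) * conj (dq R w q)) = _
      rw [mul_left_comm, Complex.mul_conj, Complex.normSq_eq_norm_sq]
      push_cast; ring
    have e4 : (qf R v w w w).re + (qf R w w v w).re = s * D := by
      have := congrArg Complex.re e3
      rwa [Complex.add_re, Complex.ofReal_re] at this
    linarith
  have hb : ∀ a b c d : Fin n → ℂ, ‖a‖ * ‖b‖ * ‖c‖ * ‖d‖ ≤ ‖w‖ ^ 2 * ‖v‖ ^ 2 →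
      ‖qf R a b c d‖ ≤ n ^ 4 * M * (‖w‖ ^ 2 * ‖v‖ ^ 2) := fun a b c d h =>
    (norm_qf_le hM a b c d).trans (mul_le_mul_of_nonneg_left h (by positivity))
  have hv0 : 0 ≤ ‖v‖ := norm_nonneg _
  have m2 : ∀ x : ℝ, x = ‖w‖ ^ 2 * ‖v‖ ^ 2 → x ≤ ‖w‖ ^ 2 * ‖v‖ ^ 2 := fun x hx => hx.le
  have m3 : ∀ x : ℝ, x = ‖w‖ * ‖v‖ ^ 3 → x ≤ ‖w‖ ^ 2 * ‖v‖ ^ 2 := fun x hx => by
    rw [hx]
    calc ‖w‖ * ‖v‖ ^ 3 = (‖w‖ * ‖v‖ ^ 2) * ‖v‖ := by ring
      _ ≤ (‖w‖ * ‖v‖ ^ 2) * ‖w‖ := by gcongr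
      _ = _ := by ring
  have m4 : ∀ x : ℝ, x = ‖v‖ ^ 4 → x ≤ ‖w‖ ^ 2 * ‖v‖ ^ 2 := fun x hx => by
    rw [hx]
    calc ‖v‖ ^ 4 = (‖v‖ ^ 2) * ‖v‖ ^ 2 := by ring
      _ ≤ (‖w‖ ^ 2) * ‖v‖ ^ 2 := by gcongr
  have hrest : ‖qf R v v w w + qf R v w v w + qf R v w w v + qf R w v v w + qf R w v w v +
      qf R w w v v + qf R v v v w + qf R v v w v + qf R v w v v + qf R w v v v + qf R v v v v‖ ≤
      11 * (n ^ 4 * M * (‖w‖ ^ 2 * ‖v‖ ^ 2)) := by
    have t1 := hb v v w w (m2 _ (by ring))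
    have t2 := hb v w v w (m2 _ (by ring))
    have t3 := hb v w w v (m2 _ (by ring))
    have t4 := hb w v v w (m2 _ (by ring))
    have t5 := hb w v w v (m2 _ (by ring))
    have t6 := hb w w v v (m2 _ (by ring))
    have t7 := hb v v v w (m3 _ (by ring))
    have t8 := hb v v w v (m3 _ (by ring))
    have t9 := hb v w v v (m3 _ (by ring))
    have t10 := hb w v v v (m3 _ (by ring))
    have t11 := hb v v v v (m4 _ (by ring))
    refine (norm_add_le_of_le (norm_add_le_of_le (norm_add_le_of_le (norm_add_le_of_le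
      (norm_add_le_of_le (norm_add_le_of_le (norm_add_le_of_le (norm_add_le_of_le
      (norm_add_le_of_le (norm_add_le_of_le t1 t2) t3) t4) t5) t6) t7) t8) t9) t10) t11).trans
      (le_of_eq (by ring))
  have hneg' := hneg (w + v)
  rw [hexp, Complex.add_re, Complex.add_re, hlin] at hneg'
  have hre := Complex.abs_re_le_norm (qf R v v w w + qf R v w v w + qf R v w w v + qf R w v v w +
    qf R w v w v + qf R w w v v + qf R v v v w + qf R v v w v + qf R v w v v + qf R w v v v +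
    qf R v v v v)
  have hre' := neg_abs_le (qf R v v w w + qf R v w v w + qf R v w w v + qf R w v v w +
    qf R w v w v + qf R w w v v + qf R v v v w + qf R v v w v + qf R v w v v + qf R w v v v +
    qf R v v v v).re
  have h5 : 2 * (s * D) ≤ -(qf R w w w w).re + 11 * (n ^ 4 * M * (‖w‖ ^ 2 * ‖v‖ ^ 2)) := by
    linarith
  have h6 : 11 * (n ^ 4 * M * (‖w‖ ^ 2 * ‖v‖ ^ 2)) ≤ s * D := by
    have h7 : 11 * (n ^ 4 * M) ≤ Λ := by
      rw [hΛ]
      have : 0 ≤ 2 * (n : ℝ) ^ 3 * M := by positivity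
      linarith
    calc 11 * (n ^ 4 * M * (‖w‖ ^ 2 * ‖v‖ ^ 2)) = (11 * (n ^ 4 * M)) * (‖w‖ ^ 2 * ‖v‖ ^ 2) := by
          ring
      _ ≤ Λ * (‖w‖ ^ 2 * (s ^ 2 * D)) := by gcongr
      _ = (Λ * ‖w‖ ^ 2 * s) * (s * D) := by ring
      _ = s * D := by rw [hs, mul_inv_cancel₀ (by positivity), one_mul]
  have h8 : s * D ≤ -(qf R w w w w).re := by linarith
  have h9 : D ≤ Λ * ‖w‖ ^ 2 * (-(qf R w w w w).re) := by
    have := mul_le_mul_of_nonneg_left h8 (by positivity : 0 ≤ Λ * ‖w‖ ^ 2)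
    calc D = Λ * ‖w‖ ^ 2 * (s * D) := by
          rw [hs, ← mul_assoc, mul_inv_cancel₀ (by positivity), one_mul]
      _ ≤ _ := this
  calc D ≤ Λ * ‖w‖ ^ 2 * (-(qf R w w w w).re) := h9
    _ = _ := by ring

/-- the pairing `⟨β, b⁰⟩` -/
def pr (N : Matrix (Fin n) (Fin n) ℂ) (R : Fin n → Fin n → Fin n → Fin n → ℂ) (w : Fin n → ℂ) :
    ℂ := ∑ p, ∑ q, beta R w p * N q p * rv R w q

/-- the main pointwise inequality -/
theorem rv_sq_le {M c M' : ℝ} (hM0 : 0 ≤ M) (hc : 0 < c)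
    (hR : ∀ i j k l, conj (R i j k l) = R j i l k)
    (hM : ∀ i j k l, ‖R i j k l‖ ≤ M) (hneg : ∀ w, (qf R w w w w).re ≤ 0)
    {N : Matrix (Fin n) (Fin n) ℂ}
    (hN : ∀ ξ : Fin n → ℂ, c * ∑ p, ‖ξ p‖ ^ 2 ≤ (∑ p, ∑ q, ξ p * N q p * conj (ξ q)).re)
    (hNM : ∀ p q, ‖N p q‖ ≤ M') (w : Fin n → ℂ) :
    ∑ q, ‖rv R w q‖ ^ 2 ≤ 4 / c * (pr N R w).re +
      ((M' ^ 2 * n ^ 2 / (2 * c ^ 2) + 1 / 2) * (11 * n ^ 4 * M + 2 * n ^ 3 * M + 1)) *
        (‖w‖ ^ 2 * (-(qf R w w w w).re)) := by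
  set A : ℝ := ∑ p, ‖beta R w p‖ ^ 2 with hA
  set B : ℝ := ∑ p, ‖dq R w p‖ ^ 2 with hB
  have hA0 : 0 ≤ A := Finset.sum_nonneg fun q _ => sq_nonneg _
  have hB0 : 0 ≤ B := Finset.sum_nonneg fun q _ => sq_nonneg _
  have hdq := dq_sq_le hM0 hR hM hneg w
  -- splitting of `pr`
  have hrv : ∀ q, rv R w q = conj (beta R w q) + conj (dq R w q) / 2 := fun q => by
    have h1 := bz_eq_conj (w := w) hR q
    have h2 := congrArg conj h1
    rw [Complex.conj_conj] at h2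
    rw [← h2, bz_eq, map_add, map_div₀]
    congr 2
    exact map_ofNat _ 2
  have hpr : pr N R w = (∑ p, ∑ q, beta R w p * N q p * conj (beta R w q)) +
      (∑ p, ∑ q, beta R w p * N q p * conj (dq R w q)) / 2 := by
    rw [pr, Finset.sum_div, ← Finset.sum_add_distrib]
    refine Finset.sum_congr rfl fun p _ => ?_
    rw [Finset.sum_div, ← Finset.sum_add_distrib]
    refine Finset.sum_congr rfl fun q _ => ?_
    rw [hrv]; ring
  have hcross : ‖∑ p, ∑ q, beta R w p * N q p * conj (dq R w q)‖ ≤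
      M' * ((∑ p, ‖beta R w p‖) * ∑ q, ‖dq R w q‖) := by
    rw [Finset.sum_mul_sum, Finset.mul_sum]
    refine (norm_sum_le _ _).trans (Finset.sum_le_sum fun p _ => ?_)
    rw [Finset.mul_sum]
    refine (norm_sum_le _ _).trans (Finset.sum_le_sum fun q _ => ?_)
    rw [norm_mul, norm_mul, Complex.norm_conj]
    calc ‖beta R w p‖ * ‖N q p‖ * ‖dq R w q‖ ≤ ‖beta R w p‖ * M' * ‖dq R w q‖ := by
          gcongr; exact hNM q p
      _ = _ := by ring
  have hCS : ∀ f : Fin n → ℂ, (∑ p, ‖f p‖) ^ 2 ≤ n * ∑ p, ‖f p‖ ^ 2 := fun f => by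
    have := sq_sum_le_card_mul_sum_sq (s := (Finset.univ : Finset (Fin n))) (f := fun p => ‖f p‖)
    simpa using this
  set x := ∑ p, ‖beta R w p‖ with hx
  set y := ∑ q, ‖dq R w q‖ with hy
  have hx2 : x ^ 2 ≤ n * A := hCS _
  have hy2 : y ^ 2 ≤ n * B := hCS _
  have hx0 : 0 ≤ x := Finset.sum_nonneg fun q _ => norm_nonneg _
  have hy0 : 0 ≤ y := Finset.sum_nonneg fun q _ => norm_nonneg _
  have hNb := hN (beta R w)
  have hre := Complex.abs_re_le_norm (∑ p, ∑ q, beta R w p * N q p * conj (dq R w q))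
  have hre' := neg_abs_le (∑ p, ∑ q, beta R w p * N q p * conj (dq R w q)).re
  have h1 : c * A - M' * (x * y) / 2 ≤ (pr N R w).re := by
    rw [hpr, Complex.add_re]
    have : ((∑ p, ∑ q, beta R w p * N q p * conj (dq R w q)) / 2 : ℂ).re =
        (∑ p, ∑ q, beta R w p * N q p * conj (dq R w q)).re / 2 := by
      simp
    rw [this]
    linarith
  -- AM-GM: M' x y / 2 ≤ c A / 2 + (M'^2 n^2 / (8 c)) B
  have h2 : M' * (x * y) / 2 ≤ c * A / 2 + M' ^ 2 * n ^ 2 / (8 * c) * B := by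
    have hn : (0 : ℝ) ≤ n := Nat.cast_nonneg n
    rcases eq_or_lt_of_le hn with hn0 | hn0
    · have : n = 0 := by exact_mod_cast hn0.symm
      subst this
      simp [hx, hy, hA, hB]
    have h3 : M' * (x * y) / 2 ≤ c / (2 * n) * x ^ 2 + M' ^ 2 * n / (8 * c) * y ^ 2 := by
      have h4 : 0 ≤ (c * x / n - M' * y / 2) ^ 2 := sq_nonneg _
      have h5 : c / (2 * n) * x ^ 2 + M' ^ 2 * n / (8 * c) * y ^ 2 - M' * (x * y) / 2 =
          n / (2 * c) * (c * x / n - M' * y / 2) ^ 2 := by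
        field_simp
        ring
      have h6 : 0 ≤ n / (2 * c) * (c * x / n - M' * y / 2) ^ 2 := by positivity
      linarith
    have h7 : c / (2 * n) * x ^ 2 ≤ c / (2 * n) * (n * A) := by gcongr
    have h8 : M' ^ 2 * n / (8 * c) * y ^ 2 ≤ M' ^ 2 * n / (8 * c) * (n * B) := by gcongr
    have h9 : c / (2 * n) * (n * A) = c * A / 2 := by field_simp
    have h10 : M' ^ 2 * n / (8 * c) * (n * B) = M' ^ 2 * n ^ 2 / (8 * c) * B := by ring
    linarith
  have h3 : c * A / 2 ≤ (pr N R w).re + M' ^ 2 * n ^ 2 / (8 * c) * B := by linarith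
  have h4 : 2 * A ≤ 4 / c * (pr N R w).re + M' ^ 2 * n ^ 2 / (2 * c ^ 2) * B := by
    have := mul_le_mul_of_nonneg_left h3 (by positivity : 0 ≤ 4 / c)
    calc 2 * A = 4 / c * (c * A / 2) := by field_simp; ring
      _ ≤ _ := this
      _ = _ := by field_simp; ring
  have h5 : ∑ q, ‖rv R w q‖ ^ 2 ≤ 2 * A + 1 / 2 * B := by
    rw [hA, hB, Finset.mul_sum, Finset.mul_sum, ← Finset.sum_add_distrib]
    refine Finset.sum_le_sum fun q _ => ?_
    rw [hrv]
    have h6 := norm_add_le (conj (beta R w q)) (conj (dq R w q) / 2)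
    rw [norm_div, Complex.norm_conj, Complex.norm_conj] at h6
    have h7 : ‖(2 : ℂ)‖ = 2 := by norm_num
    rw [h7] at h6
    have h8 : ‖conj (beta R w q) + conj (dq R w q) / 2‖ ^ 2 ≤
        (‖beta R w q‖ + ‖dq R w q‖ / 2) ^ 2 := by gcongr
    nlinarith [sq_nonneg (‖beta R w q‖ - ‖dq R w q‖ / 2)]
  have h6 : (M' ^ 2 * n ^ 2 / (2 * c ^ 2) + 1 / 2) * B ≤
      (M' ^ 2 * n ^ 2 / (2 * c ^ 2) + 1 / 2) *
        ((11 * n ^ 4 * M + 2 * n ^ 3 * M + 1) * (‖w‖ ^ 2 * (-(qf R w w w w).re))) := by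
    gcongr
  calc ∑ q, ‖rv R w q‖ ^ 2 ≤ 2 * A + 1 / 2 * B := h5
    _ ≤ 4 / c * (pr N R w).re + (M' ^ 2 * n ^ 2 / (2 * c ^ 2) + 1 / 2) * B := by
        rw [add_mul]; linarith
    _ ≤ _ := by
        rw [mul_assoc (M' ^ 2 * n ^ 2 / (2 * c ^ 2) + 1 / 2)]
        linarith

end Vale.Agent.P272.K.T4.L5
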