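import Vale.Agent.P272.K.T4.Defs
import Vale.Agent.P272.K.T4.FibC
import Vale.Agent.P272.K.INT.Wirt

/-!
# T4, block L5: fibre integration by parts
-/

open scoped Manifold ContDiff ComplexOrder Topology
open Complex Set Filter MeasureTheory

noncomputable section

namespace Vale.Agent.P272.K.T4.L5

variable {n : ℕ}

/-! ### primitives of the weight -/

/-- `∫_s^1 χ` -/
def prim (χ : ℝ → ℝ) (s : ℝ) : ℝ := ∫ t in s..1, χ t

theorem prim_hasDerivAt {χ : ℝ → ℝ} (hχ : Continuous χ) (s : ℝ) :
    HasDerivAt (prim χ) (-χ s) s := by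
  have h := intervalIntegral.integral_hasDerivAt_right (hχ.intervalIntegrable 1 s)
    (hχ.stronglyMeasurableAtFilter _ _) hχ.continuousAt
  have h2 : prim χ = fun u => -∫ t in (1 : ℝ)..u, χ t := by
    funext u; rw [prim, intervalIntegral.integral_symm]
  rw [h2]
  exact h.neg

theorem deriv_prim {χ : ℝ → ℝ} (hχ : Continuous χ) (s : ℝ) : deriv (prim χ) s = -χ s :=
  (prim_hasDerivAt hχ s).deriv

theorem prim_smooth {χ : ℝ → ℝ} (hχ : ContDiff ℝ ∞ χ) : ContDiff ℝ ∞ (prim χ) := by
  rw [contDiff_infty_iff_deriv]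
  refine ⟨fun s => (prim_hasDerivAt hχ.continuous s).differentiableAt, ?_⟩
  have : deriv (prim χ) = fun s => -χ s := funext fun s => deriv_prim hχ.continuous s
  rw [this]
  exact hχ.neg

theorem wt_prim {χ : ℝ → ℝ} (hχ : Wt χ) : Wt (prim χ) := by
  have hz : ∀ s, 1 ≤ s → L5.prim χ s = 0 := by
    intro s hs
    rw [L5.prim, intervalIntegral.integral_symm]
    have : ∫ t in (1 : ℝ)..s, χ t = ∫ t in (1 : ℝ)..s, (0 : ℝ) := by
      refine intervalIntegral.integral_congr fun t ht => ?_
      rw [uIcc_of_le hs] at ht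
      exact hχ.zero t ht.1
    rw [this]; simp
  refine ⟨prim_smooth hχ.smooth, ?_, ?_, hz⟩
  · intro s
    rcases le_total s 1 with hs | hs
    · exact intervalIntegral.integral_nonneg hs fun t _ => hχ.nonneg t
    · rw [hz s hs]
  · exact intervalIntegral.integral_pos one_pos hχ.smooth.continuous.continuousOn
      (fun t _ => hχ.nonneg t) ⟨0, by simp, hχ.pos⟩

/-! ### smooth functions of the fibre variable -/

section fib
variable {χ : ℝ → ℝ} {M : Matrix (Fin n) (Fin n) ℂ}

theorem contDiff_coord (i : Fin n) : ContDiff ℝ ∞ fun w : Cm n => w i :=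
  contDiff_apply ℝ ℂ i

theorem contDiff_cj_coord (i : Fin n) : ContDiff ℝ ∞ fun w : Cm n => cj (w i) :=
  Complex.conjCLE.contDiff.comp (contDiff_coord i)

theorem contDiff_quad (M : Matrix (Fin n) (Fin n) ℂ) : ContDiff ℝ ∞ fun w : Cm n => quad M w := by
  unfold quad
  exact ContDiff.sum fun i _ => ContDiff.sum fun j _ =>
    contDiff_const.mul ((contDiff_coord i).mul (contDiff_cj_coord j))

theorem contDiff_re_quad (M : Matrix (Fin n) (Fin n) ℂ) :
    ContDiff ℝ ∞ fun w : Cm n => (quad M w).re :=
  Complex.reCLM.contDiff.comp (contDiff_quad M)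

theorem contDiff_wq (hχ : ContDiff ℝ ∞ χ) (M : Matrix (Fin n) (Fin n) ℂ) :
    ContDiff ℝ ∞ fun w : Cm n => ((χ (quad M w).re : ℝ) : ℂ) :=
  Complex.ofRealCLM.contDiff.comp (hχ.comp (contDiff_re_quad M))

/-- bound for the support of the weight -/
theorem exists_norm_sq_le (hM : M.PosDef) : ∃ C : ℝ, 0 < C ∧
    ∀ w : Cm n, ‖w‖ ^ 2 ≤ C * (quad M w).re := by
  obtain ⟨C, hC, h⟩ := exists_lower (K := {(0 : Cm n)}) isCompact_singleton (g := fun _ => M)
    (fun i j => continuousOn_const) (fun _ _ => hM)
  exact ⟨C, hC, fun w => h 0 (mem_singleton _) w⟩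

theorem hasCompactSupport_wq (hχ : Wt χ) (hM : M.PosDef) :
    HasCompactSupport fun w : Cm n => ((χ (quad M w).re : ℝ) : ℂ) := by
  obtain ⟨C, hC, h⟩ := exists_norm_sq_le hM
  refine HasCompactSupport.intro (isCompact_closedBall (0 : Cm n) (Real.sqrt C)) fun w hw => ?_
  have h1 : Real.sqrt C < ‖w‖ := by simpa using hw
  have h2 : C < ‖w‖ ^ 2 := Real.lt_sq_of_sqrt_lt h1
  have h3 : 1 ≤ (quad M w).re := by
    have := h w
    nlinarith
  rw [hχ.zero _ h3]; simp

/-- integrability of continuous functions against the weight -/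
theorem integrable_wq (hχ : Wt χ) (hM : M.PosDef) {F : Cm n → ℂ} (hF : Continuous F) :
    Integrable fun w : Cm n => F w * ((χ (quad M w).re : ℝ) : ℂ) :=
  (hF.mul (contDiff_wq hχ.smooth M).continuous).integrable_of_hasCompactSupport
    (hasCompactSupport_wq hχ hM).mul_left

theorem integrable_wq_real (hχ : Wt χ) (hM : M.PosDef) {F : Cm n → ℝ} (hF : Continuous F) :
    Integrable fun w : Cm n => F w * χ (quad M w).re := by
  have h1 := (integrable_wq hχ hM (F := fun w => (F w : ℂ))
    (Complex.continuous_ofReal.comp hF)).re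
  refine h1.congr (Eventually.of_forall fun w => ?_)
  simp only [RCLike.re_to_complex, ← Complex.ofReal_mul, Complex.ofReal_re]

theorem dz_wq (hχ : Wt χ) (hM : M.PosDef) (m : Fin n) (w : Cm n) :
    dz m (fun y => ((prim χ (quad M y).re : ℝ) : ℂ)) w =
      -(((χ (quad M w).re : ℝ) : ℂ) * ∑ j, M m j * cj (w j)) := by
  have hq : DifferentiableAt ℝ (fun y : Cm n => (quad M y).re) w :=
    (contDiff_re_quad M).differentiable (by simp) w
  rw [dz_real_comp ((prim_hasDerivAt hχ.smooth.continuous _).differentiableAt) hq,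
    deriv_prim hχ.smooth.continuous, dz_re_quad_snd hM.1]
  push_cast; ring

theorem dzb_wq (hχ : Wt χ) (hM : M.PosDef) (m : Fin n) (w : Cm n) :
    dzb m (fun y => ((prim χ (quad M y).re : ℝ) : ℂ)) w =
      -(((χ (quad M w).re : ℝ) : ℂ) * ∑ i, M i m * w i) := by
  have h0 : (fun y : Cm n => ((prim χ (quad M y).re : ℝ) : ℂ)) =
      fun y => cj ((prim χ (quad M y).re : ℝ) : ℂ) := by
    funext y; exact (Complex.conj_ofReal _).symm
  have hd : DifferentiableAt ℝ (fun y : Cm n => ((prim χ (quad M y).re : ℝ) : ℂ)) w :=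
    (contDiff_wq (prim_smooth hχ.smooth) M).differentiable (by simp) w
  rw [h0, dzb_cj hd, dz_wq hχ hM]
  simp only [cj, map_neg, map_mul, Complex.conj_ofReal, map_sum, Complex.conj_conj]
  congr 2
  refine Finset.sum_congr rfl fun i _ => ?_
  congr 1
  exact hM.1.apply i m

/-- **fibre integration by parts** -/
theorem fib_dz (hχ : Wt χ) (hM : M.PosDef) {F : Cm n → ℂ} (hF : ContDiff ℝ 1 F) (j : Fin n) :
    ∫ w : Cm n, F w * cj (w j) * ((χ (quad M w).re : ℝ) : ℂ) =
      ∑ m, M⁻¹ j m * ∫ w : Cm n, dz m F w * ((prim χ (quad M w).re : ℝ) : ℂ) := by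
  have hdet : IsUnit M.det := isUnit_iff_ne_zero.2 hM.det_pos.ne'
  have hX := wt_prim hχ
  set X : Cm n → ℂ := fun w => ((prim χ (quad M w).re : ℝ) : ℂ) with hXdef
  have hXs : ContDiff ℝ 1 X := (contDiff_wq hX.smooth M).of_le (by norm_cast)
  have hFd : ∀ w, DifferentiableAt ℝ F w := fun w => hF.differentiable (by norm_num) w
  have hXd : ∀ w, DifferentiableAt ℝ X w := fun w => hXs.differentiable (by norm_num) w
  have hdF : ∀ m, Continuous fun w => dz m F w := fun m => by
    simp only [INT.dz_fun_eq]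
    exact continuous_const.mul ((((hF.continuous_fderiv (by norm_num)).clm_apply
      continuous_const)).sub (continuous_const.mul ((hF.continuous_fderiv (by norm_num)).clm_apply
      continuous_const)))
  have key : ∀ m, ∫ w, dz m F w * X w =
      ∫ w, F w * (((χ (quad M w).re : ℝ) : ℂ) * ∑ l, M m l * cj (w l)) := by
    intro m
    have h0 : ∫ w, dz m (fun y => F y * X y) w = 0 :=
      INT.integral_dz_eq_zero (hF.mul hXs) (hasCompactSupport_wq hX hM).mul_left m
    have h1 : (fun w => dz m (fun y => F y * X y) w) = fun w => dz m F w * X w -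
        F w * (((χ (quad M w).re : ℝ) : ℂ) * ∑ l, M m l * cj (w l)) := by
      funext w
      rw [dz_mul (hFd w) (hXd w), hXdef, dz_wq hχ hM]
      ring
    rw [h1, integral_sub (integrable_wq hX hM (hdF m)) ?_] at h0
    · exact sub_eq_zero.1 h0
    · have := integrable_wq hχ hM (F := fun w => F w * ∑ l, M m l * cj (w l))
        (hF.continuous.mul (continuous_finsetSum _ fun l _ => continuous_const.mul
          (contDiff_cj_coord l).continuous))
      refine this.congr (Eventually.of_forall fun w => ?_)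
      simp only []; ring
  have hcm : ∑ m, M⁻¹ j m * ∫ w : Cm n, dz m F w * X w =
      ∑ m, ∫ w, M⁻¹ j m * (F w * (((χ (quad M w).re : ℝ) : ℂ) * ∑ l, M m l * cj (w l))) :=
    Finset.sum_congr rfl fun m _ => by rw [key m, integral_const_mul]
  rw [hcm, ← integral_finsetSum]
  · refine integral_congr_ae (Eventually.of_forall fun w => ?_)
    simp only []
    have h2 : ∑ m, M⁻¹ j m * ∑ l, M m l * cj (w l) = cj (w j) := by
      simp only [Finset.mul_sum]
      rw [Finset.sum_comm]
      have h3 : ∀ l, ∑ m, M⁻¹ j m * (M m l * cj (w l)) = (M⁻¹ * M) j l * cj (w l) := fun l => by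
        rw [Matrix.mul_apply, Finset.sum_mul]
        exact Finset.sum_congr rfl fun m _ => by ring
      simp only [h3, Matrix.nonsing_inv_mul _ hdet]
      rw [Finset.sum_eq_single j]
      · simp
      · intro l _ hl; rw [Matrix.one_apply_ne' hl]; simp
      · simp
    conv_lhs => rw [← h2]
    rw [Finset.mul_sum, Finset.sum_mul]
    exact Finset.sum_congr rfl fun m _ => by ring
  · intro m _
    have := integrable_wq hχ hM (F := fun w => M⁻¹ j m * (F w * ∑ l, M m l * cj (w l)))
      (continuous_const.mul (hF.continuous.mul (continuous_finsetSum _ fun l _ =>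
        continuous_const.mul (contDiff_cj_coord l).continuous)))
    refine this.congr (Eventually.of_forall fun w => ?_)
    simp only []; ring

/-- fibre integration by parts, conjugate form -/
theorem fib_dzb (hχ : Wt χ) (hM : M.PosDef) {F : Cm n → ℂ} (hF : ContDiff ℝ 1 F) (k : Fin n) :
    ∫ w : Cm n, F w * w k * ((χ (quad M w).re : ℝ) : ℂ) =
      ∑ j, M⁻¹ j k * ∫ w : Cm n, dzb j F w * ((prim χ (quad M w).re : ℝ) : ℂ) := by
  have hdet : IsUnit M.det := isUnit_iff_ne_zero.2 hM.det_pos.ne'
  have hX := wt_prim hχ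
  set X : Cm n → ℂ := fun w => ((prim χ (quad M w).re : ℝ) : ℂ) with hXdef
  have hXs : ContDiff ℝ 1 X := (contDiff_wq hX.smooth M).of_le (by norm_cast)
  have hFd : ∀ w, DifferentiableAt ℝ F w := fun w => hF.differentiable (by norm_num) w
  have hXd : ∀ w, DifferentiableAt ℝ X w := fun w => hXs.differentiable (by norm_num) w
  have hdF : ∀ m, Continuous fun w => dzb m F w := fun m => by
    simp only [INT.dzb_fun_eq]
    exact continuous_const.mul ((((hF.continuous_fderiv (by norm_num)).clm_apply
      continuous_const)).add (continuous_const.mul ((hF.continuous_fderiv (by norm_num)).clm_apply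
      continuous_const)))
  have key : ∀ m, ∫ w, dzb m F w * X w =
      ∫ w, F w * (((χ (quad M w).re : ℝ) : ℂ) * ∑ l, M l m * w l) := by
    intro m
    have h0 : ∫ w, dzb m (fun y => F y * X y) w = 0 :=
      INT.integral_dzb_eq_zero (hF.mul hXs) (hasCompactSupport_wq hX hM).mul_left m
    have h1 : (fun w => dzb m (fun y => F y * X y) w) = fun w => dzb m F w * X w -
        F w * (((χ (quad M w).re : ℝ) : ℂ) * ∑ l, M l m * w l) := by
      funext w
      rw [dzb_mul (hFd w) (hXd w), hXdef, dzb_wq hχ hM]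
      ring
    rw [h1, integral_sub (integrable_wq hX hM (hdF m)) ?_] at h0
    · exact sub_eq_zero.1 h0
    · have := integrable_wq hχ hM (F := fun w => F w * ∑ l, M l m * w l)
        (hF.continuous.mul (continuous_finsetSum _ fun l _ => continuous_const.mul
          (contDiff_coord l).continuous))
      refine this.congr (Eventually.of_forall fun w => ?_)
      simp only []; ring
  have hcm : ∑ m, M⁻¹ m k * ∫ w : Cm n, dzb m F w * X w =
      ∑ m, ∫ w, M⁻¹ m k * (F w * (((χ (quad M w).re : ℝ) : ℂ) * ∑ l, M l m * w l)) :=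
    Finset.sum_congr rfl fun m _ => by rw [key m, integral_const_mul]
  rw [hcm, ← integral_finsetSum]
  · refine integral_congr_ae (Eventually.of_forall fun w => ?_)
    simp only []
    have h2 : ∑ m, M⁻¹ m k * ∑ l, M l m * w l = w k := by
      simp only [Finset.mul_sum]
      rw [Finset.sum_comm]
      have h3 : ∀ l, ∑ m, M⁻¹ m k * (M l m * w l) = (M * M⁻¹) l k * w l := fun l => by
        rw [Matrix.mul_apply, Finset.sum_mul]
        exact Finset.sum_congr rfl fun m _ => by ring
      simp only [h3, Matrix.mul_nonsing_inv _ hdet]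
      rw [Finset.sum_eq_single k]
      · simp
      · intro l _ hl; rw [Matrix.one_apply_ne hl]; simp
      · simp
    conv_lhs => rw [← h2]
    rw [Finset.mul_sum, Finset.sum_mul]
    exact Finset.sum_congr rfl fun m _ => by ring
  · intro m _
    have := integrable_wq hχ hM (F := fun w => M⁻¹ m k * (F w * ∑ l, M l m * w l))
      (continuous_const.mul (hF.continuous.mul (continuous_finsetSum _ fun l _ =>
        continuous_const.mul (contDiff_coord l).continuous)))
    refine this.congr (Eventually.of_forall fun w => ?_)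
    simp only []; ring

end fib

end Vale.Agent.P272.K.T4.L5
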