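import Vale.Agent.P272.K.T4.L5GlobA
import Vale.Agent.P272.K.T4.FibE
import Vale.Agent.P272.K.T4.Fun
import Vale.Agent.P272.K.T4.Comp

/-! P272/T4, block L5, global half: `LocalL5` implies `L5Statement`. -/

open scoped Manifold ContDiff ComplexOrder Topology
open Set Metric MeasureTheory Filter

set_option linter.all false

noncomputable section

namespace Vale.Agent.P272.K.T4

open INT (IsDensity intX part Part)

variable {n : ℕ}

/-! ### homogeneity -/

lemma xiL_smul (H : Cm n → Matrix (Fin n) (Fin n) ℂ) (z w : Cm n) (r : ℝ) (l : Fin n) :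
    xiL H z (fun i => (r : ℂ) * w i) l = ((r ^ 3 : ℝ) : ℂ) * xiL H z w l := by
  unfold xiL
  rw [Finset.mul_sum]
  refine Finset.sum_congr rfl fun i _ => ?_
  rw [Finset.mul_sum]
  refine Finset.sum_congr rfl fun j _ => ?_
  rw [Finset.mul_sum]
  refine Finset.sum_congr rfl fun k _ => ?_
  simp only [cj, map_mul, Complex.conj_ofReal]
  push_cast; ring

lemma xiV_smul (H : Cm n → Matrix (Fin n) (Fin n) ℂ) (z w : Cm n) (r : ℝ) :
    xiV H z (fun i => (r : ℂ) * w i) = fun m => ((r ^ 3 : ℝ) : ℂ) * xiV H z w m := by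
  funext m
  unfold xiV
  rw [Finset.mul_sum]
  refine Finset.sum_congr rfl fun l _ => ?_
  rw [xiL_smul]
  ring

lemma quad_xiV_smul (H : Cm n → Matrix (Fin n) (Fin n) ℂ) (z w : Cm n) (r : ℝ) :
    (quad (H z) (xiV H z (fun i => (r : ℂ) * w i))).re = r ^ 6 * (quad (H z) (xiV H z w)).re := by
  rw [xiV_smul, quad_smul, Complex.re_ofReal_mul]
  ring

section
variable {X : Type} [TopologicalSpace X] [T2Space X] [CompactSpace X] [ChartedSpace (Cm n) X]
  [IsManifold 𝓘(ℂ, Cm n) ω X]

/-- the bound `|R(w,w̄)w|_h² ≤ C |w|_h⁶` -/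
theorem exists_xi_bound {h : Chart n X → Cm n → Matrix (Fin n) (Fin n) ℂ} (hh : IsHermitian h) :
    ∃ C : ℝ, 0 ≤ C ∧ ∀ e x w, At e x →
      (quad (h e (e x)) (xiV (h e) (e x) w)).re ≤ C * nq h e (e x) w ^ 3 := by
  set P := part n X with hP
  have hF := xiq_smTFun hh
  -- bound in each chart of the partition
  have h1 : ∀ i, ∃ A : ℝ, 0 ≤ A ∧ ∀ z ∈ P.e i '' tsupport (P.ρ i), ∀ w : Cm n,
      (quad (h (P.e i) z) w).re = 1 →
        (quad (h (P.e i) z) (xiV (h (P.e i)) z w)).re ≤ A := by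
    intro i
    have hKc : IsCompact (P.e i '' tsupport (P.ρ i)) := isCompact_image_tsupport (P.supp i)
    have hK := image_tsupport_subset (P.supp i)
    have hc := isCompact_unit hh (P.mem i) hK hKc
    have hcont : ContinuousOn (fun p : Cm n × Cm n =>
        (quad (h (P.e i) p.1) (xiV (h (P.e i)) p.1 p.2)).re)
        {p : Cm n × Cm n | p.1 ∈ P.e i '' tsupport (P.ρ i) ∧
          (quad (h (P.e i) p.1) p.2).re = 1} := by
      rintro ⟨z, w⟩ ⟨hz, -⟩
      obtain ⟨x1, x2⟩ := at_target (P.mem i) (hK hz)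
      have := (hF.smooth _ _ w x1).continuousAt
      rw [x2] at this
      exact this.continuousWithinAt
    obtain ⟨A, hA⟩ := (hc.image_of_continuousOn hcont).bddAbove
    refine ⟨max A 0, le_max_right _ _, fun z hz w hw => le_max_of_le_left ?_⟩
    exact hA ⟨(z, w), ⟨hz, hw⟩, rfl⟩
  choose A hA0 hA using h1
  refine ⟨∑ i, A i, Finset.sum_nonneg fun i _ => hA0 i, fun e x w hx => ?_⟩
  -- choose a chart of the partition
  have h2 : ∃ i, P.ρ i x ≠ 0 := by
    by_contra hcon
    push Not at hcon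
    have := P.sum x
    simp [hcon] at this
  obtain ⟨i, hi⟩ := h2
  have hxi : x ∈ tsupport (P.ρ i) := subset_tsupport _ hi
  have hx' : At (P.e i) x := ⟨P.mem i, P.supp i hxi⟩
  have hch : (quad (h e (e x)) (xiV (h e) (e x) w)).re = (quad (h (P.e i) (P.e i x))
      (xiV (h (P.e i)) (P.e i x) ((jacM e (P.e i) x).mulVec w))).re :=
    hF.change e (P.e i) x w hx hx'
  rw [hch, (nq_smTFun hh).change e (P.e i) x w hx hx']
  set v := (jacM e (P.e i) x).mulVec w with hv
  have hq : 0 ≤ nq h (P.e i) (P.e i x) v := nq_nonneg hh hx' v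
  rcases hq.eq_or_lt with h0 | hpos
  · have hv0 : v = 0 := by
      by_contra hv0
      have := quad_pos (hh.posDef _ _ hx') hv0
      unfold nq at h0
      linarith
    have h3 : xiV (h (P.e i)) (P.e i x) v = 0 := by
      funext m
      simp [xiV, xiL, hv0]
    rw [h3, ← h0]
    simp [quad]
  · set q := nq h (P.e i) (P.e i x) v with hqdef
    set r := Real.sqrt q with hr
    have hrpos : 0 < r := Real.sqrt_pos.2 hpos
    have hr2 : r ^ 2 = q := Real.sq_sqrt hq
    set u : Cm n := fun j => ((r⁻¹ : ℝ) : ℂ) * v j with hu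
    have hvu : v = fun j => (r : ℂ) * u j := by
      funext j
      rw [hu]
      simp only
      rw [← mul_assoc, ← Complex.ofReal_mul, mul_inv_cancel₀ hrpos.ne']
      simp
    have hqu : (quad (h (P.e i) (P.e i x)) u).re = 1 := by
      rw [hu, quad_smul, Complex.re_ofReal_mul]
      have : (quad (h (P.e i) (P.e i x)) v).re = q := rfl
      rw [this, ← hr2]
      field_simp
    have h3 := hA i _ (mem_image_of_mem _ hxi) u hqu
    have h4 : (quad (h (P.e i) (P.e i x)) (xiV (h (P.e i)) (P.e i x) v)).re =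
        r ^ 6 * (quad (h (P.e i) (P.e i x)) (xiV (h (P.e i)) (P.e i x) u)).re := by
      rw [hvu, quad_xiV_smul]
    rw [h4]
    have h5 : r ^ 6 = q ^ 3 := by rw [← hr2]; ring
    rw [h5, mul_comm]
    refine mul_le_mul_of_nonneg_right (h3.trans ?_) (by positivity)
    exact Finset.single_le_sum (f := A) (fun i _ => hA0 i) (Finset.mem_univ i)

/-! ### fibre averages -/

lemma Eg_le {χ : ℝ → ℝ} (hχ : Wt χ) {g : Chart n X → Cm n → Matrix (Fin n) (Fin n) ℂ}
    (hg : IsHermitian g) {F G H : Chart n X → Cm n → Cm n → ℝ} (hF : CTFun F) (hG : CTFun G)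
    (hH : CTFun H) {e : Chart n X} {x : X} (hx : At e x) {a b : ℝ}
    (h : ∀ w, F e (e x) w ≤ a * G e (e x) w + b * H e (e x) w) :
    Eg χ g F e (e x) ≤ a * Eg χ g G e (e x) + b * Eg χ g H e (e x) := by
  unfold Eg
  rw [← integral_const_mul, ← integral_const_mul, ← integral_add
    ((Eg_int hχ hg hG hx).const_mul a) ((Eg_int hχ hg hH hx).const_mul b)]
  refine integral_mono (Eg_int hχ hg hF hx)
    (((Eg_int hχ hg hG hx).const_mul a).add ((Eg_int hχ hg hH hx).const_mul b)) fun w => ?_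
  have h1 : 0 ≤ χ (quad (g e (e x)) w).re * (g e (e x)).det.re :=
    mul_nonneg (hχ.nonneg _) (hg.det_re_pos hx).le
  have h2 := mul_le_mul_of_nonneg_right (h w) h1
  simp only
  calc F e (e x) w * χ (quad (g e (e x)) w).re * (g e (e x)).det.re
      = F e (e x) w * (χ (quad (g e (e x)) w).re * (g e (e x)).det.re) := by ring
    _ ≤ _ := h2
    _ = _ := by ring

lemma Eg_nonneg {χ : ℝ → ℝ} (hχ : Wt χ) {g : Chart n X → Cm n → Matrix (Fin n) (Fin n) ℂ}
    (hg : IsHermitian g) {F : Chart n X → Cm n → Cm n → ℝ} {e : Chart n X} {x : X} (hx : At e x)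
    (h : ∀ w, 0 ≤ F e (e x) w) : 0 ≤ Eg χ g F e (e x) := by
  unfold Eg
  exact integral_nonneg fun w => mul_nonneg (mul_nonneg (h w) (hχ.nonneg _)) (hg.det_re_pos hx).le

/-- pointwise: `D ≤ |ξ|² / (δ T) + C δ² T²` -/
lemma D_split {X q T C δ : ℝ} (hX : 0 ≤ X) (hq : 0 ≤ q) (hT : 0 < T) (hC : 0 ≤ C) (hδ : 0 < δ)
    (hXq : X ≤ C * q ^ 3) : X / (1 + q) ≤ (1 / (δ * T)) * X + C * δ ^ 2 * T ^ 2 * 1 := by
  have hδT : 0 < δ * T := mul_pos hδ hT
  rcases le_or_gt (δ * T) q with h | h
  · have h1 : X / (1 + q) ≤ X / (δ * T) := by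
      apply div_le_div_of_nonneg_left hX hδT
      linarith
    have h2 : 0 ≤ C * δ ^ 2 * T ^ 2 := by positivity
    have h3 : (1 / (δ * T)) * X = X / (δ * T) := by ring
    rw [h3]; linarith
  · have h1 : X / (1 + q) ≤ C * q ^ 2 := by
      rw [div_le_iff₀ (by linarith)]
      have : C * q ^ 3 ≤ C * q ^ 2 * (1 + q) := by
        have : 0 ≤ C * q ^ 2 := by positivity
        nlinarith
      linarith
    have h2 : C * q ^ 2 ≤ C * (δ * T) ^ 2 :=
      mul_le_mul_of_nonneg_left (pow_le_pow_left₀ hq h.le 2) hC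
    have h3 : 0 ≤ (1 / (δ * T)) * X := by positivity
    have h4 : C * (δ * T) ^ 2 = C * δ ^ 2 * T ^ 2 * 1 := by ring
    linarith

/-! ### the statement -/

lemma smPos_of {g : Chart n X → Cm n → Matrix (Fin n) (Fin n) ℂ} (hg : IsHermitian g)
    {e : Chart n X} (he : e ∈ atlas (Cm n) X) : SmPos e.target (g e) where
  smooth z hz i j := hg.smooth_target he hz i j
  pos z hz := hg.posDef_target he hz

lemma tr_pos [NeZero n] {g h : Chart n X → Cm n → Matrix (Fin n) (Fin n) ℂ} (hg : IsHermitian g)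
    (hh : IsHermitian h) {e : Chart n X} {x : X} (hx : At e x) : 0 < Tr g h e (e x) :=
  C2.trace_re_pos (hg.posDef e x hx) (hh.posDef e x hx)

/-- the density `E_g(|ξ|²) / tr_g h` -/
lemma isDensity_quot [NeZero n] {χ : ℝ → ℝ} (hχ : Wt χ)
    {g h : Chart n X → Cm n → Matrix (Fin n) (Fin n) ℂ} (hg : IsHermitian g)
    (hh : IsHermitian h) {F : Chart n X → Cm n → Cm n → ℝ} (hF : CTFun F) :
    IsDensity fun e z => Eg χ g F e z / Tr g h e z * dt g e z where
  cont e x hx := by
    have hgi : ∀ i j, ContDiffAt ℝ ∞ (fun y => (g e y)⁻¹ i j) (e x) :=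
      fun i j => contDiffAt_inv (hg.smooth e x hx) (hg.det_ne_zero hx) i j
    have h1 := contDiffAt_re (contDiffAt_trace_mul hgi (hh.smooth e x hx))
    have h4 := contDiffAt_re (contDiffAt_det (hg.smooth e x hx))
    exact ((Eg_cont hχ hg hF hx).div h1.continuousAt (tr_pos hg hh hx).ne').mul h4.continuousAt
  change e e' x hx hx' := by
    have h1 : Tr g h e (e x) = Tr g h e' (e' x) := by
      unfold Tr
      rw [trace_inv hg.isForm hh.isForm hx hx']
    show Eg χ g F e (e x) / Tr g h e (e x) * dt g e (e x) =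
      Eg χ g F e' (e' x) / Tr g h e' (e' x) * dt g e' (e' x) * _
    rw [Eg_change hg hF.change hx hx', h1, dt_change hg hx hx']; ring

/-- `(G2)` -/
def G2Statement (n : ℕ) (X : Type) [TopologicalSpace X] [T2Space X] [CompactSpace X]
    [ChartedSpace (Cm n) X] [IsManifold 𝓘(ℂ, Cm n) ω X] : Prop :=
  ∀ (h : Chart n X → Cm n → Matrix (Fin n) (Fin n) ℂ) (_ : IsHermitian h) (_ : NonposHSC h)
    (g : Chart n X → Cm n → Matrix (Fin n) (Fin n) ℂ) (_ : IsKahler g) (_ : RicGe g),
    intX (fun e z => Ml (g e) (h e) z * dt g e z) ≤ intX (fun e z => Tr g h e z * dt g e z)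

lemma SmTFun.ct {F : Chart n X → Cm n → Cm n → ℝ} (hF : SmTFun F) : CTFun F :=
  ⟨hF.change, fun e x w hx => (hF.smooth e x w hx).continuousAt⟩

/-- the key step: the integral of `E_g |ξ|² / tr_g h` -/
theorem quot_le [NeZero n] (hL : LocalL5 n) {χ : ℝ → ℝ} (hχ : Wt χ)
    {h : Chart n X → Cm n → Matrix (Fin n) (Fin n) ℂ} (hh : IsHermitian h) (hneg : NonposHSC h)
    {ε : ℝ} (hε : 0 < ε) : ∃ C : ℝ, 0 ≤ C ∧
      ∀ (g : Chart n X → Cm n → Matrix (Fin n) (Fin n) ℂ) (_ : IsKahler g) (_ : RicGe g),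
        intX (fun e z => Eg χ g (fun e z w => (quad (h e z) (xiV (h e) z w)).re) e z /
            Tr g h e z * dt g e z) ≤
          ε * intX (fun e z => Tr g h e z ^ 2 * dt g e z) +
            C * (intX (fun e z => Eg χ g (fun e z w => Pq g h e z w + Rq h e z w) e z * dt g e z) +
              intX (fun e z => Ml (g e) (h e) z * dt g e z)) := by
  set P := part n X with hP
  set ε' := ε / ((P.N : ℝ) + 1) with hε'
  have hN : (0 : ℝ) < (P.N : ℝ) + 1 := by positivity
  have hε'0 : 0 < ε' := div_pos hε hN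
  have h1 : ∀ i, ∃ C : ℝ, 0 ≤ C ∧
    ∀ (g : Cm n → Matrix (Fin n) (Fin n) ℂ) (_ : SmPos (P.e i).target g)
      (_ : ∀ z ∈ (P.e i).target, ∀ a b k, dz k (fun y => g y a b) z = dz a (fun y => g y k b) z)
      (_ : ∀ z ∈ (P.e i).target,
        (-cHess (fun y => Real.log (g y).det.re) z + g z).PosSemidef),
      ∫ z in (P.e i).target, cutZ (P.e i) (P.ρ i) z *
          (El χ g (Xl (h (P.e i))) z / Tl g (h (P.e i)) z * (g z).det.re) ≤
        ∫ z in tsupport (cutZ (P.e i) (P.ρ i)), (ε' * Tl g (h (P.e i)) z ^ 2 +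
          C * (El χ g (fun z w => Pl g (h (P.e i)) z w + Rl (h (P.e i)) z w) z +
            Ml g (h (P.e i)) z)) * (g z).det.re := fun i =>
    hL χ hχ (P.e i).target (P.e i).open_target (h (P.e i)) (smPos_of hh (P.mem i))
      (fun z hz ξ => by
        obtain ⟨x1, x2⟩ := at_target (P.mem i) hz
        have := hneg (P.e i) _ x1 ξ
        rw [x2] at this
        exact this)
      (cutZ (P.e i) (P.ρ i)) (contDiff_cutZ (P.mem i) (P.smooth i) (P.supp i))
      (hasCompactSupport_cutZ (P.supp i))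
      ((tsupport_cutZ (P.supp i)).trans (image_tsupport_subset (P.supp i)))
      (cutZ_nonneg (P.nonneg i)) ε' hε'0
  choose C hC0 hC using h1
  refine ⟨∑ i, C i, Finset.sum_nonneg fun i _ => hC0 i, fun g hg hric => ?_⟩
  have hgh := hg.toIsHermitian
  set I2 := intX (fun e z => Tr g h e z ^ 2 * dt g e z) with hI2
  set IP := intX (fun e z => Eg χ g (fun e z w => Pq g h e z w + Rq h e z w) e z * dt g e z)
    with hIP
  set IM := intX (fun e z => Ml (g e) (h e) z * dt g e z) with hIM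
  have dT : IsDensity fun e z => Tr g h e z ^ 2 * dt g e z :=
    isDensity_trace hgh hh (F := fun t => t ^ 2) (continuous_pow 2)
  have hPR : CTFun fun e z w => Pq g h e z w + Rq h e z w :=
    ((Pq_smTFun hgh hh).add (Rq_smTFun hh)).ct
  have dP := Eg_isDensity hχ hgh hPR
  have dM : IsDensity fun e z => Ml (g e) (h e) z * dt g e z := isDensity_Ml hgh hh
  have key : ∀ i, ∫ z in (P.e i).target, P.ρ i ((P.e i).symm z) *
      (Eg χ g (fun e z w => (quad (h e z) (xiV (h e) z w)).re) (P.e i) z /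
            Tr g h (P.e i) z * dt g (P.e i) z) ≤ ε' * I2 + C i * (IP + IM) := by
    intro i
    have h2 := hC i (g (P.e i)) (smPos_of hgh (P.mem i))
      (fun z hz a b k => by
        obtain ⟨x1, x2⟩ := at_target (P.mem i) hz
        have := hg.closed (P.e i) _ x1 a b k
        rw [x2] at this
        exact this)
      (fun z hz => by
        obtain ⟨x1, x2⟩ := at_target (P.mem i) hz
        have := hric (P.e i) _ x1
        rw [x2] at this
        exact this)
    have h3 : ∫ z in (P.e i).target, P.ρ i ((P.e i).symm z) *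
        (Eg χ g (fun e z w => (quad (h e z) (xiV (h e) z w)).re) (P.e i) z /
            Tr g h (P.e i) z * dt g (P.e i) z) =
        ∫ z in (P.e i).target, cutZ (P.e i) (P.ρ i) z *
          (El χ (g (P.e i)) (Xl (h (P.e i))) z / Tl (g (P.e i)) (h (P.e i)) z *
            (g (P.e i) z).det.re) := by
      refine setIntegral_congr_fun (P.e i).open_target.measurableSet fun z hz => ?_
      simp only [cutZ_of_mem hz]
      rfl
    rw [h3]
    refine h2.trans ?_
    -- the density on the right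
    have dR : IsDensity fun e z => ε' * (Tr g h e z ^ 2 * dt g e z) +
        C i * (Eg χ g (fun e z w => Pq g h e z w + Rq h e z w) e z * dt g e z +
          Ml (g e) (h e) z * dt g e z) :=
      (dT.const_mul ε').add ((dP.add dM).const_mul (C i))
    have h0 : ∀ e x, At e x → 0 ≤ ε' * (Tr g h e (e x) ^ 2 * dt g e (e x)) +
        C i * (Eg χ g (fun e z w => Pq g h e z w + Rq h e z w) e (e x) * dt g e (e x) +
          Ml (g e) (h e) (e x) * dt g e (e x)) := by
      intro e x hx
      have a1 : 0 < dt g e (e x) := hgh.det_re_pos hx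
      have a2 : 0 ≤ Eg χ g (fun e z w => Pq g h e z w + Rq h e z w) e (e x) :=
        Eg_nonneg hχ hgh hx fun w => add_nonneg (Pq_nonneg g hh hx w) (Rq_nonneg hneg hx w)
      have a3 := Ml_nonneg hgh hh hric hx
      have := hC0 i
      positivity
    have h4 := setIntegral_le_intX dR h0 (P.mem i)
      (hasCompactSupport_cutZ (P.supp i) : IsCompact (tsupport (cutZ (P.e i) (P.ρ i))))
      ((tsupport_cutZ (P.supp i)).trans (image_tsupport_subset (P.supp i)))
    have h5 : intX (fun e z => ε' * (Tr g h e z ^ 2 * dt g e z) +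
        C i * (Eg χ g (fun e z w => Pq g h e z w + Rq h e z w) e z * dt g e z +
          Ml (g e) (h e) z * dt g e z)) = ε' * I2 + C i * (IP + IM) := by
      rw [INT.intX_add (dT.const_mul ε') ((dP.add dM).const_mul (C i)), INT.intX_const_mul,
        INT.intX_const_mul, INT.intX_add dP dM]
    rw [← h5]
    refine le_trans (le_of_eq ?_) h4
    refine setIntegral_congr_fun (isClosed_tsupport _).measurableSet fun z hz => ?_
    show _ = ε' * (Tr g h (P.e i) z ^ 2 * dt g (P.e i) z) +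
        C i * (Eg χ g (fun e z w => Pq g h e z w + Rq h e z w) (P.e i) z * dt g (P.e i) z +
          Ml (g (P.e i)) (h (P.e i)) z * dt g (P.e i) z)
    have b1 : El χ (g (P.e i)) (fun z w => Pl (g (P.e i)) (h (P.e i)) z w + Rl (h (P.e i)) z w) z
        = Eg χ g (fun e z w => Pq g h e z w + Rq h e z w) (P.e i) z := rfl
    have b2 : Tl (g (P.e i)) (h (P.e i)) z = Tr g h (P.e i) z := rfl
    have b3 : (g (P.e i) z).det.re = dt g (P.e i) z := rfl
    simp only [b1, b2, b3]
    ring
  have hsum : intX (fun e z => Eg χ g (fun e z w => (quad (h e z) (xiV (h e) z w)).re) e z /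
            Tr g h e z * dt g e z) ≤ ∑ i : Fin P.N, (ε' * I2 + C i * (IP + IM)) := by
    unfold intX
    exact Finset.sum_le_sum fun i _ => key i
  refine hsum.trans ?_
  rw [Finset.sum_add_distrib, Finset.sum_const, Finset.card_univ, Fintype.card_fin,
    ← Finset.sum_mul, nsmul_eq_mul]
  have hI20 : 0 ≤ I2 := INT.intX_nonneg fun e x hx =>
    mul_nonneg (sq_nonneg _) (hgh.det_re_pos hx).le
  have h6 : (P.N : ℝ) * ε' ≤ ε := by
    rw [hε', mul_div_assoc', div_le_iff₀ hN]
    nlinarith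
  have h7 := mul_le_mul_of_nonneg_right h6 hI20
  linarith

theorem l5_of (hL : LocalL5 n) (h2 : L2Statement n X) (hM : MomStatement n X)
    (hG2 : G2Statement n X) : L5Statement n X := by
  rcases Nat.eq_zero_or_pos n with hn | hn
  · -- dimension zero
    subst hn
    intro χ hχ h hh hneg ε hε
    refine ⟨0, le_rfl, fun g hg hric => ?_⟩
    have hgh := hg.toIsHermitian
    have h1 : intX (fun e z => Eg χ g (Dq h) e z * dt g e z) = 0 := by
      rw [← INT.intX_zero (n := 0) (X := X)]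
      refine INT.intX_congr fun e x hx => ?_
      have : Eg χ g (Dq h) e (e x) = 0 := by
        unfold Eg
        have : ∀ w : Cm 0, Dq h e (e x) w = 0 := by
          intro w
          simp [Dq, quad]
        simp [this]
      rw [this, zero_mul]
    rw [h1]
    have h3 : 0 ≤ intX (fun e z => Tr g h e z ^ 2 * dt g e z) := INT.intX_nonneg fun e x hx =>
      mul_nonneg (sq_nonneg _) (hgh.det_re_pos hx).le
    have : 0 ≤ ε * intX (fun e z => Tr g h e z ^ 2 * dt g e z) := by positivity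
    linarith
  have : NeZero n := ⟨hn.ne'⟩
  intro χ hχ h hh hneg ε hε
  obtain ⟨C0, hC0, hxi⟩ := exists_xi_bound hh
  obtain ⟨c1, C1, hc1, hC1, hmom⟩ := hM χ hχ
  obtain ⟨C2, hC2, hl2⟩ := h2 χ hχ
  -- the choice of `δ`
  set δ : ℝ := min 1 (ε / (2 * (C0 * C1 + 1))) with hδdef
  have hA : 0 < 2 * (C0 * C1 + 1) := by positivity
  have hδ : 0 < δ := lt_min one_pos (div_pos hε hA)
  have hδ1 : δ ≤ 1 := min_le_left _ _
  have hδ2 : C0 * C1 * δ ^ 2 ≤ ε / 2 := by
    have h3 : δ ^ 2 ≤ δ := by nlinarith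
    have h4 : δ ≤ ε / (2 * (C0 * C1 + 1)) := min_le_right _ _
    have h5 : (C0 * C1 + 1) * δ ≤ ε / 2 := by
      rw [le_div_iff₀ hA] at h4
      linarith
    have h6 : 0 ≤ C0 * C1 := by positivity
    nlinarith
  obtain ⟨C3, hC3, hq⟩ := quot_le hL hχ hh hneg (ε := ε * δ / 2) (by positivity)
  refine ⟨(1 / δ) * (C3 * (C2 + 1)), by positivity, fun g hg hric => ?_⟩
  have hgh := hg.toIsHermitian
  have hF : CTFun fun e z w => (quad (h e z) (xiV (h e) z w)).re := (xiq_smTFun hh).ct
  have hD : CTFun (Dq h) := (Dq_smTFun hh).ct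
  have h1c : CTFun (fun (_ : Chart n X) (_ _ : Cm n) => (1 : ℝ)) := CTFun.const 1
  have dD := Eg_isDensity hχ hgh hD
  have dQ := isDensity_quot hχ hgh hh hF
  have dT : IsDensity fun e z => Tr g h e z ^ 2 * dt g e z :=
    isDensity_trace hgh hh (F := fun t => t ^ 2) (continuous_pow 2)
  have dT1 : IsDensity fun e z => Tr g h e z * dt g e z :=
    isDensity_trace hgh hh (F := fun t => t) continuous_id
  have dT2 : IsDensity fun e z => (Tr g h e z + 1) * dt g e z :=
    isDensity_trace hgh hh (F := fun t => t + 1) (by fun_prop)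
  -- pointwise estimate
  have hpt : ∀ e x, At e x → Eg χ g (Dq h) e (e x) * dt g e (e x) ≤
      (1 / δ) * (Eg χ g (fun e z w => (quad (h e z) (xiV (h e) z w)).re) e (e x) /
        Tr g h e (e x) * dt g e (e x)) + (ε / 2) * (Tr g h e (e x) ^ 2 * dt g e (e x)) := by
    intro e x hx
    have hT := tr_pos hgh hh hx
    have hd : 0 < dt g e (e x) := hgh.det_re_pos hx
    have h3 := Eg_le hχ hgh hD hF h1c hx (a := 1 / (δ * Tr g h e (e x)))
      (b := C0 * δ ^ 2 * Tr g h e (e x) ^ 2) fun w =>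
        D_split (quad_nonneg (hh.posDef e x hx).posSemidef _) (nq_nonneg hh hx w) hT hC0 hδ
          (hxi e x w hx)
    have h4 := (hmom h hh g hgh e x hx).2
    have h5 : C0 * δ ^ 2 * Tr g h e (e x) ^ 2 * Eg χ g (fun _ _ _ => 1) e (e x) ≤
        (ε / 2) * Tr g h e (e x) ^ 2 := by
      have h6 : C0 * δ ^ 2 * Tr g h e (e x) ^ 2 * Eg χ g (fun _ _ _ => 1) e (e x) ≤
          C0 * δ ^ 2 * Tr g h e (e x) ^ 2 * C1 :=
        mul_le_mul_of_nonneg_left h4 (by positivity)
      have h7 := mul_le_mul_of_nonneg_right hδ2 (sq_nonneg (Tr g h e (e x)))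
      nlinarith
    have h6 := mul_le_mul_of_nonneg_right (h3.trans (add_le_add_right h5 _)) hd.le
    refine h6.trans (le_of_eq ?_)
    field_simp
  have h3 : intX (fun e z => Eg χ g (Dq h) e z * dt g e z) ≤
      intX (fun e z => (1 / δ) * (Eg χ g (fun e z w => (quad (h e z) (xiV (h e) z w)).re) e z /
        Tr g h e z * dt g e z) + (ε / 2) * (Tr g h e z ^ 2 * dt g e z)) :=
    INT.intX_mono dD ((dQ.const_mul (1 / δ)).add (dT.const_mul (ε / 2))) hpt
  rw [INT.intX_add (dQ.const_mul (1 / δ)) (dT.const_mul (ε / 2)), INT.intX_const_mul,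
    INT.intX_const_mul] at h3
  have h4 := hq g hg hric
  have h5 := hl2 h hh g hg hric
  have h6 := hG2 h hh hneg g hg hric
  set I2 := intX (fun e z => Tr g h e z ^ 2 * dt g e z) with hI2
  set I1 := intX (fun e z => Tr g h e z * dt g e z) with hI1
  set IP := intX (fun e z => Eg χ g (fun e z w => Pq g h e z w + Rq h e z w) e z * dt g e z)
    with hIP
  set IM := intX (fun e z => Ml (g e) (h e) z * dt g e z) with hIM
  have h7 : I1 ≤ intX (fun e z => (Tr g h e z + 1) * dt g e z) :=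
    INT.intX_mono dT1 dT2 fun e x hx =>
      mul_le_mul_of_nonneg_right (by linarith) (hgh.det_re_pos hx).le
  have hI20 : 0 ≤ I2 := INT.intX_nonneg fun e x hx =>
    mul_nonneg (sq_nonneg _) (hgh.det_re_pos hx).le
  have h8 : C3 * (IP + IM) ≤ C3 * ((C2 + 1) * I1) :=
    mul_le_mul_of_nonneg_left (by linarith) hC3
  have h9 : C3 * ((C2 + 1) * I1) ≤
      C3 * ((C2 + 1) * intX (fun e z => (Tr g h e z + 1) * dt g e z)) :=
    mul_le_mul_of_nonneg_left (mul_le_mul_of_nonneg_left h7 (by positivity)) hC3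
  have h10 : (1 / δ) * (ε * δ / 2 * I2) = ε / 2 * I2 := by
    field_simp
  have h11 := mul_le_mul_of_nonneg_left (h4.trans (add_le_add_right (h8.trans h9) _))
    (by positivity : 0 ≤ 1 / δ)
  rw [mul_add, h10] at h11
  calc intX (fun e z => Eg χ g (Dq h) e z * dt g e z) ≤ _ := h3
    _ ≤ ε / 2 * I2 + (1 / δ) * (C3 * ((C2 + 1) *
        intX (fun e z => (Tr g h e z + 1) * dt g e z))) + ε / 2 * I2 := by linarith
    _ = _ := by ring

end

end Vale.Agent.P272.K.T4
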