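import Vale.Agent.P272.K.T4.L5If2
import Vale.Agent.P272.K.T4.Bracket
import Vale.Agent.P272.K.T4.Fun
import Vale.Agent.P272.K.Asm.Weak

/-! # T4, block L5: the integrated identity -/

open scoped Manifold ContDiff ComplexOrder Topology
open Complex Set Filter MeasureTheory

set_option linter.all false

noncomputable section

namespace Vale.Agent.P272.K.T4.L5

variable {n : ℕ}

/-- the conjugate of the complex spray -/
def sprb (g : Cm n → Matrix (Fin n) (Fin n) ℂ) (F : Cm n × Cm n → ℂ) (p : Cm n × Cm n) : ℂ :=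
  ∑ k, cj (p.2 k) * dzb k (fun y => F (y, p.2)) p.1 -
    ∑ m, cj (chr g p.1 p.2 m) * dzb m (fun y => F (p.1, y)) p.2

section
variable {g : Cm n → Matrix (Fin n) (Fin n) ℂ} {F : Cm n × Cm n → ℂ} {U K : Set (Cm n)}
  {χ : ℝ → ℝ}

lemma sprb_eq {p : Cm n × Cm n} (hF : DifferentiableAt ℝ F p) :
    sprb g F p = cj (spr g (fun q => cj (F q)) p) := by
  unfold sprb spr
  simp only [cj, map_sub, map_sum, map_mul]
  have h1 := diff_fst (p := p) hF
  have h2 := diff_snd (p := p) hF
  have e1 : ∀ k, (starRingEnd ℂ) (dz k (fun y => (starRingEnd ℂ) (F (y, p.2))) p.1) =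
      dzb k (fun y => F (y, p.2)) p.1 := fun k => by
    have := dz_cj (i := k) h1
    rw [this]; simp [cj]
  have e2 : ∀ k, (starRingEnd ℂ) (dz k (fun y => (starRingEnd ℂ) (F (p.1, y))) p.2) =
      dzb k (fun y => F (p.1, y)) p.2 := fun k => by
    have := dz_cj (i := k) h2
    rw [this]; simp [cj]
  simp only [e1, e2]

lemma sprb_zero (hF0 : ∀ p : Cm n × Cm n, p.1 ∉ K → F p = 0) (hK : IsCompact K)
    {p : Cm n × Cm n} (hp : p.1 ∉ K) : sprb g F p = 0 := by
  unfold sprb
  have h1 : ∀ k, dzb k (fun y => F (y, p.2)) p.1 = 0 := by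
    intro k
    have : (fun y => F (y, p.2)) =ᶠ[𝓝 p.1] fun _ => 0 := by
      filter_upwards [hK.isClosed.isOpen_compl.mem_nhds hp] with y hy
      exact hF0 (y, p.2) hy
    rw [dzb_congr this, dzb_const]
  have h2 : ∀ k, dzb k (fun y => F (p.1, y)) p.2 = 0 := by
    intro k
    have : (fun y => F (p.1, y)) = fun _ => 0 := funext fun y => hF0 (p.1, y) hp
    rw [this, dzb_const]
  simp [h1, h2]

lemma wt_real (hg : LocMet U g) {p : Cm n × Cm n} (hp : p.1 ∈ U) :
    cj (wt χ g p) = wt χ g p := by
  have hdet : (g p.1).det = (((g p.1).det.re : ℝ) : ℂ) := by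
    apply Complex.ext
    · simp
    · simpa using (INT.posDef_det_re (hg.pos p.1 hp)).2
  unfold wt
  rw [hdet]
  simp only [cj, map_mul, map_pow, Complex.conj_ofReal]

/-- L1 in a chart for the conjugate spray -/
theorem local_L1b (hg : LocMet U g) (hχ : Wt χ) (hK : IsCompact K) (hKU : K ⊆ U)
    (hF0 : ∀ p : Cm n × Cm n, p.1 ∉ K → F p = 0)
    (hF1 : ∀ z ∈ U, ∀ w : Cm n, ContDiffAt ℝ 1 F (z, w)) :
    Integrable (fun p => sprb g F p * wt χ g p) ∧ ∫ p, sprb g F p * wt χ g p = 0 := by
  obtain ⟨h1, h2⟩ := local_L1 (F := fun p => cj (F p)) hg hχ hK hKU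
    (fun p hp => by rw [hF0 p hp]; simp [cj])
    (fun z hz w => Complex.conjCLE.contDiff.contDiffAt.comp (z, w) (hF1 z hz w))
  have key : (fun p => sprb g F p * wt χ g p) =
      fun p => (starRingEnd ℂ) (spr g (fun q => cj (F q)) p * wt χ g p) := by
    funext p
    by_cases hp : p.1 ∈ U
    · have := wt_real (χ := χ) hg hp
      rw [map_mul, sprb_eq ((hF1 p.1 hp p.2).differentiableAt (by norm_num))]
      simp only [cj] at this ⊢
      rw [this]
    · have hpK : p.1 ∉ K := fun h => hp (hKU h)
      have hz : spr g (fun q => cj (F q)) p = 0 :=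
        spr_zero (F := fun q => cj (F q)) (fun q hq => by
          show cj (F q) = 0
          rw [hF0 q hq]; simp [cj]) hK hpK
      rw [sprb_zero hF0 hK hpK, hz]; simp
  rw [key]
  refine ⟨?_, ?_⟩
  · exact Complex.conjCLE.toContinuousLinearMap.integrable_comp h1
  · rw [integral_conj, h2, map_zero]

end

section pointwise
variable {g h : Cm n → Matrix (Fin n) (Fin n) ℂ} {z w : Cm n}

lemma dzb_chr_snd (m k : Fin n) : dzb k (fun y => chr h z y m) w = 0 := by
  have hd : DifferentiableAt ℂ (fun y : Cm n => chr h z y m) w := by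
    simp only [chr_dM]
    exact DifferentiableAt.fun_sum fun i _ => (differentiableAt_apply i w).fun_mul
      (DifferentiableAt.fun_sum fun j _ => (differentiableAt_apply j w).mul_const _)
  exact dzb_of_holo hd

lemma diff_chr_fst (hs : C2.MC ∞ h z) (h0 : (h z).det ≠ 0) (m : Fin n) :
    DifferentiableAt ℝ (fun y => chr h y w m) z := by
  have h1 : ∀ i k, DifferentiableAt ℝ (fun y => chrM h i y k m) z := fun i k =>
    (chrM_contDiffAt hs h0 i k m).differentiableAt (by simp)
  simp only [chr_apply]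
  exact DifferentiableAt.fun_sum fun i _ => DifferentiableAt.fun_sum fun k _ =>
    (h1 i k).const_mul _

lemma sum_dzb_chr (hs : C2.MC ∞ h z) (h0 : (h z).det ≠ 0) (m : Fin n) :
    ∑ j, cj (w j) * dzb j (fun y => chr h y w m) z = -xiV h z w m := by
  have h1 : ∀ i k, DifferentiableAt ℝ (fun y => chrM h i y k m) z := fun i k =>
    (chrM_contDiffAt hs h0 i k m).differentiableAt (by simp)
  have h2 : ∀ j, dzb j (fun y => chr h y w m) z =
      ∑ i, ∑ k, w i * w k * (-∑ l, curv h z i j k l * (h z)⁻¹ l m) := by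
    intro j
    simp only [chr_apply]
    rw [dzb_sum _ fun i _ => DifferentiableAt.fun_sum fun k _ => (h1 i k).const_mul _]
    refine Finset.sum_congr rfl fun i _ => ?_
    rw [dzb_sum _ fun k _ => (h1 i k).const_mul _]
    refine Finset.sum_congr rfl fun k _ => ?_
    rw [dzb_const_mul _ (h1 i k), dzb_chrM hs h0]
  simp only [h2]
  unfold xiV xiL
  simp only [Finset.mul_sum, Finset.sum_mul, mul_neg, Finset.sum_neg_distrib]
  congr 1
  -- order of summation: j i k l -> l i j k
  rw [Finset.sum_comm]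
  have e1 : ∀ i, ∑ j, ∑ k, ∑ l, cj (w j) * (w i * w k * (curv h z i j k l * (h z)⁻¹ l m)) =
      ∑ l, ∑ j, ∑ k, curv h z i j k l * (w i * cj (w j) * w k) * (h z)⁻¹ l m := by
    intro i
    have e2 : ∀ j, ∑ k, ∑ l, cj (w j) * (w i * w k * (curv h z i j k l * (h z)⁻¹ l m)) =
        ∑ l, ∑ k, curv h z i j k l * (w i * cj (w j) * w k) * (h z)⁻¹ l m := by
      intro j
      rw [Finset.sum_comm]
      exact Finset.sum_congr rfl fun l _ => Finset.sum_congr rfl fun k _ => by ring
    simp only [e2]
    rw [Finset.sum_comm]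
  simp only [e1]
  rw [Finset.sum_comm]

lemma dzb_bz_fst {f : Cm n → Fin n → Fin n → Fin n → Fin n → ℂ}
    (hf : ∀ i j k l, DifferentiableAt ℝ (fun y => f y i j k l) z) (k p : Fin n) :
    DifferentiableAt ℝ (fun y => beta (f y) w p) z ∧
    dzb k (fun y => beta (f y) w p) z = beta (fun i j a l => dzb k (fun y => f y i j a l) z) w p := by
  have hb : DifferentiableAt ℝ (fun y => bz (f y) w p) z := by
    unfold bz
    exact DifferentiableAt.fun_sum fun i _ => DifferentiableAt.fun_sum fun j _ =>
      DifferentiableAt.fun_sum fun l _ => (hf i j p l).mul_const _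
  have hb' : DifferentiableAt ℝ (fun y => bz' (f y) w p) z := by
    unfold bz'
    exact DifferentiableAt.fun_sum fun i _ => DifferentiableAt.fun_sum fun j _ =>
      DifferentiableAt.fun_sum fun l _ => (hf p j i l).mul_const _
  have e : (fun y => beta (f y) w p) = fun y => (2 : ℂ)⁻¹ * (bz (f y) w p - bz' (f y) w p) := by
    funext y; rw [beta]; ring
  refine ⟨by rw [e]; exact (hb.fun_sub hb').const_mul _, ?_⟩
  rw [e, dzb_const_mul _ (hb.fun_sub hb'), dzb_sub hb hb', beta]
  have h1 : dzb k (fun y => bz (f y) w p) z = bz (fun i j a l => dzb k (fun y => f y i j a l) z) w p := by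
    unfold bz
    rw [dzb_sum _ fun i _ => DifferentiableAt.fun_sum fun j _ =>
      DifferentiableAt.fun_sum fun l _ => (hf i j p l).mul_const _]
    refine Finset.sum_congr rfl fun i _ => ?_
    rw [dzb_sum _ fun j _ => DifferentiableAt.fun_sum fun l _ => (hf i j p l).mul_const _]
    refine Finset.sum_congr rfl fun j _ => ?_
    rw [dzb_sum _ fun l _ => (hf i j p l).mul_const _]
    refine Finset.sum_congr rfl fun l _ => ?_
    rw [dzb_mul (hf i j p l) (differentiableAt_const _), dzb_const, mul_zero, add_zero]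
  have h2 : dzb k (fun y => bz' (f y) w p) z =
      bz' (fun i j a l => dzb k (fun y => f y i j a l) z) w p := by
    unfold bz'
    rw [dzb_sum _ fun i _ => DifferentiableAt.fun_sum fun j _ =>
      DifferentiableAt.fun_sum fun l _ => (hf p j i l).mul_const _]
    refine Finset.sum_congr rfl fun i _ => ?_
    rw [dzb_sum _ fun j _ => DifferentiableAt.fun_sum fun l _ => (hf p j i l).mul_const _]
    refine Finset.sum_congr rfl fun j _ => ?_
    rw [dzb_sum _ fun l _ => (hf p j i l).mul_const _]
    refine Finset.sum_congr rfl fun l _ => ?_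
    rw [dzb_mul (hf p j i l) (differentiableAt_const _), dzb_const, mul_zero, add_zero]
  rw [h1, h2]; ring

end pointwise


section main
variable {g h : Cm n → Matrix (Fin n) (Fin n) ℂ} {U : Set (Cm n)} {ψ : Cm n → ℝ} {χ : ℝ → ℝ}

/-- the test function of the identity -/
def FF (ψ : Cm n → ℝ) (g h : Cm n → Matrix (Fin n) (Fin n) ℂ) (p : Cm n × Cm n) : ℂ :=
  uu ψ g h p.1 * ∑ q, beta (curv h p.1) p.2 q * (chr h p.1 p.2 q - chr g p.1 p.2 q)

lemma uu_smooth (hn : 0 < n) (hg : LocMet U g) (hh : SmPos U h) (hψ : ContDiff ℝ ∞ ψ) {z : Cm n}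
    (hz : z ∈ U) : ContDiffAt ℝ ∞ (uu ψ g h) z := by
  haveI : NeZero n := ⟨hn.ne'⟩
  have h1 : ContDiffAt ℝ ∞ (fun y => Tl g h y) z :=
    contDiffAt_re (contDiffAt_trace_mul (fun i j => contDiffAt_inv (hg.smooth z hz)
      (hg.det_ne hz) i j) (hh.smooth z hz))
  have h2 : Tl g h z ≠ 0 := (C2.trace_re_pos (hg.pos z hz) (hh.pos z hz)).ne'
  exact Complex.ofRealCLM.contDiff.contDiffAt.comp z (hψ.contDiffAt.div h1 h2)

lemma cd_beta {f : Cm n → Fin n → Fin n → Fin n → Fin n → ℂ} {z w : Cm n}
    (hf : ∀ i j k l, ContDiffAt ℝ ∞ (fun y => f y i j k l) z) (q : Fin n) :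
    ContDiffAt ℝ ∞ (fun p : Cm n × Cm n => beta (f p.1) p.2 q) (z, w) := by
  unfold beta bz bz'
  have h1 : ∀ i j k l, ContDiffAt ℝ ∞ (fun p : Cm n × Cm n => f p.1 i j k l) (z, w) :=
    fun i j k l => cd_fst (p := (z, w)) (hf i j k l)
  refine ContDiffAt.div_const (ContDiffAt.sub ?_ ?_) 2 <;>
  exact ContDiffAt.sum fun i _ => ContDiffAt.sum fun j _ => ContDiffAt.sum fun l _ =>
    (h1 _ _ _ _).mul (((cd_coord _ _).mul (cd_cj_coord _ _)).mul (cd_cj_coord _ _))

lemma FF_smooth (hn : 0 < n) (hg : LocMet U g) (hh : SmPos U h) (hψ : ContDiff ℝ ∞ ψ) {z : Cm n}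
    (hz : z ∈ U) (w : Cm n) : ContDiffAt ℝ ∞ (FF ψ g h) (z, w) := by
  have hh0 : (h z).det ≠ 0 := (hh.pos z hz).det_pos.ne'
  unfold FF
  refine (cd_fst (p := (z, w)) (uu_smooth hn hg hh hψ hz)).mul (ContDiffAt.sum fun q _ => ?_)
  exact (cd_beta (fun i j k l => contDiffAt_curv (hh.smooth z hz) hh0 i j k l) q).mul
    ((cd_chr (p := (z, w)) (hh.smooth z hz) hh0 q).sub
      (cd_chr (p := (z, w)) (hg.smooth z hz) (hg.det_ne hz) q))

/-- the conjugate spray of the test function -/
lemma sprb_FF (hn : 0 < n) (hg : LocMet U g) (hh : SmPos U h) (hψ : ContDiff ℝ ∞ ψ) {z : Cm n}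
    (hz : z ∈ U) (w : Cm n) : sprb g (FF ψ g h) (z, w) =
      thr ψ g h z w + uu ψ g h z * ((∑ p, beta (curv h z) w p * xiV g z w p) -
        ∑ p, beta (curv h z) w p * xiV h z w p) := by
  have hh0 : (h z).det ≠ 0 := (hh.pos z hz).det_pos.ne'
  have hg0 : (g z).det ≠ 0 := hg.det_ne hz
  have hu : DifferentiableAt ℝ (uu ψ g h) z :=
    (uu_smooth hn hg hh hψ hz).differentiableAt (by simp)
  have hcur : ∀ i j k l, DifferentiableAt ℝ (fun y => curv h y i j k l) z := fun i j k l =>
    (contDiffAt_curv (hh.smooth z hz) hh0 i j k l).differentiableAt (by simp)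
  have hb : ∀ k q, DifferentiableAt ℝ (fun y => beta (curv h y) w q) z ∧
      dzb k (fun y => beta (curv h y) w q) z = beta (dcv h z k) w q := fun k q =>
    dzb_bz_fst hcur k q
  have hch : ∀ q, DifferentiableAt ℝ (fun y => chr h y w q) z := diff_chr_fst (hh.smooth z hz) hh0
  have hcg : ∀ q, DifferentiableAt ℝ (fun y => chr g y w q) z := diff_chr_fst (hg.smooth z hz) hg0
  have hS : ∀ q, DifferentiableAt ℝ (fun y => chr h y w q - chr g y w q) z := fun q =>
    (hch q).fun_sub (hcg q)
  -- derivatives in the base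
  have e1 : ∀ k, dzb k (fun y => FF ψ g h (y, w)) z =
      dzb k (uu ψ g h) z * (∑ q, beta (curv h z) w q * (chr h z w q - chr g z w q)) +
      uu ψ g h z * ∑ q, (beta (dcv h z k) w q * (chr h z w q - chr g z w q) +
        beta (curv h z) w q * (dzb k (fun y => chr h y w q) z - dzb k (fun y => chr g y w q) z)) := by
    intro k
    have hb1 : ∀ q, DifferentiableAt ℝ (fun y => beta (curv h y) w q *
        (chr h y w q - chr g y w q)) z := fun q => (hb k q).1.fun_mul (hS q)
    show dzb k (fun y => uu ψ g h y * ∑ q, beta (curv h y) w q * (chr h y w q - chr g y w q)) z = _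
    rw [dzb_mul hu (DifferentiableAt.fun_sum fun q _ => hb1 q), dzb_sum _ fun q _ => hb1 q]
    congr 2
    refine Finset.sum_congr rfl fun q _ => ?_
    rw [dzb_mul (hb k q).1 (hS q), (hb k q).2, dzb_sub (hch q) (hcg q)]
  -- derivatives in the fibre
  have e2 : ∀ m, dzb m (fun y => FF ψ g h (z, y)) w =
      uu ψ g h z * ∑ q, tbe (curv h z) w m q * (chr h z w q - chr g z w q) := by
    intro m
    have d1 : ∀ q, DifferentiableAt ℝ (fun y => chr h z y q - chr g z y q) w := fun q =>
      (diff_chr (g := h) (z := z) q).fun_sub (diff_chr (g := g) (z := z) q)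
    have hb1 : ∀ q, DifferentiableAt ℝ (fun y => beta (curv h z) y q *
        (chr h z y q - chr g z y q)) w := fun q => (diff_beta (curv h z) w q).fun_mul (d1 q)
    show dzb m (fun y => uu ψ g h z * ∑ q, beta (curv h z) y q * (chr h z y q - chr g z y q)) w = _
    rw [dzb_const_mul _ (DifferentiableAt.fun_sum fun q _ => hb1 q), dzb_sum _ fun q _ => hb1 q]
    congr 1
    refine Finset.sum_congr rfl fun q _ => ?_
    rw [dzb_mul (diff_beta (curv h z) w q) (d1 q), dzb_beta,
      dzb_sub (diff_chr (g := h) (z := z) q) (diff_chr (g := g) (z := z) q), dzb_chr_snd,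
      dzb_chr_snd]
    ring
  unfold sprb
  simp only [e1, e2]
  have hxh := fun q => sum_dzb_chr (w := w) (hh.smooth z hz) hh0 q
  have hxg := fun q => sum_dzb_chr (w := w) (hg.smooth z hz) hg0 q
  -- the base sum
  have f1 : ∑ k, cj (w k) * (dzb k (uu ψ g h) z *
      (∑ q, beta (curv h z) w q * (chr h z w q - chr g z w q)) +
      uu ψ g h z * ∑ q, (beta (dcv h z k) w q * (chr h z w q - chr g z w q) +
        beta (curv h z) w q *
          (dzb k (fun y => chr h y w q) z - dzb k (fun y => chr g y w q) z))) =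
      ∑ q, ((∑ k, cj (w k) * dzb k (uu ψ g h) z) * beta (curv h z) w q *
          (chr h z w q - chr g z w q) +
        uu ψ g h z * (∑ k, cj (w k) * beta (dcv h z k) w q) * (chr h z w q - chr g z w q) +
        uu ψ g h z * (beta (curv h z) w q * (xiV g z w q - xiV h z w q))) := by
    have f2 : ∀ q, xiV g z w q - xiV h z w q = ∑ k, cj (w k) *
        (dzb k (fun y => chr h y w q) z - dzb k (fun y => chr g y w q) z) := by
      intro q
      simp only [mul_sub, Finset.sum_sub_distrib]
      rw [hxh q, hxg q]; ring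
    simp only [f2, Finset.mul_sum, Finset.sum_mul, mul_add, Finset.sum_add_distrib]
    rw [← add_assoc]
    congr 1
    · congr 1
      · rw [Finset.sum_comm]
        exact Finset.sum_congr rfl fun q _ => Finset.sum_congr rfl fun k _ => by ring
      · rw [Finset.sum_comm]
        exact Finset.sum_congr rfl fun q _ => Finset.sum_congr rfl fun k _ => by ring
    · rw [Finset.sum_comm]
      exact Finset.sum_congr rfl fun q _ => Finset.sum_congr rfl fun k _ => by ring
  rw [f1]
  have f3 : ∑ m, cj (chr g z w m) * (uu ψ g h z * ∑ q, tbe (curv h z) w m q *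
      (chr h z w q - chr g z w q)) =
      ∑ q, uu ψ g h z * (∑ m, cj (chr g z w m) * tbe (curv h z) w m q) *
        (chr h z w q - chr g z w q) := by
    simp only [Finset.mul_sum, Finset.sum_mul]
    rw [Finset.sum_comm]
    exact Finset.sum_congr rfl fun q _ => Finset.sum_congr rfl fun k _ => by ring
  rw [f3]
  unfold thr
  rw [← Finset.sum_sub_distrib, ← Finset.sum_sub_distrib, Finset.mul_sum,
    ← Finset.sum_add_distrib]
  refine Finset.sum_congr rfl fun q _ => ?_
  rw [dGam_eq, Pi.sub_apply]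
  ring

lemma cont_xiV (G : Cm n → Matrix (Fin n) (Fin n) ℂ) (z : Cm n) (p : Fin n) :
    Continuous fun w : Cm n => xiV G z w p := by
  unfold xiV xiL
  refine continuous_finset_sum _ fun l _ => Continuous.mul ?_ continuous_const
  refine continuous_finset_sum _ fun i _ => continuous_finset_sum _ fun j _ =>
    continuous_finset_sum _ fun k _ => ?_
  exact continuous_const.mul (((contDiff_coord i).continuous.mul
    (contDiff_cj_coord j).continuous).mul (contDiff_coord k).continuous)

lemma cont_chr (G : Cm n → Matrix (Fin n) (Fin n) ℂ) (z : Cm n) (p : Fin n) :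
    Continuous fun w : Cm n => chr G z w p := by
  simp only [chr_apply]
  refine continuous_finset_sum _ fun i _ => continuous_finset_sum _ fun k _ => ?_
  exact ((contDiff_coord i).continuous.mul (contDiff_coord k).continuous).mul continuous_const

lemma cont_thr (z : Cm n) : Continuous fun w : Cm n => thr ψ g h z w := by
  unfold thr
  simp only [dGam_eq, Pi.sub_apply]
  have hcj : ∀ k, Continuous fun w : Cm n => cj (w k) := fun k => (contDiff_cj_coord k).continuous
  have hcc : ∀ k, Continuous fun w : Cm n => cj (chr g z w k) := fun k =>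
    Complex.continuous_conj.comp (cont_chr g z k)
  have hb : ∀ R p, Continuous fun w : Cm n => beta R w p := fun R p =>
    (contDiff_beta R p).continuous
  refine continuous_finset_sum _ fun p _ => Continuous.mul (Continuous.sub (Continuous.add
    (Continuous.mul ?_ (hb _ p)) (Continuous.mul continuous_const ?_))
    (Continuous.mul continuous_const ?_)) ((cont_chr h z p).sub (cont_chr g z p))
  · exact continuous_finset_sum _ fun k _ => (hcj k).mul continuous_const
  · exact continuous_finset_sum _ fun k _ => (hcj k).mul (hb _ p)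
  · exact continuous_finset_sum _ fun k _ => (hcc k).mul (continuous_tbe _ k p)

lemma dzb_zero_of {f : Cm n → ℂ} {z : Cm n} (h : f =ᶠ[𝓝 z] fun _ => 0) (k : Fin n) :
    dzb k f z = 0 := by rw [dzb_congr h, dzb_const]

theorem ident (n : ℕ) : Ident n := by
  intro hn χ hχ U g h hg hh ψ hψ
  have hK : IsCompact (tsupport ψ) := hψ.compact
  have hu0 : ∀ z, z ∉ tsupport ψ → uu ψ g h z = 0 := fun z hz => by
    unfold uu; rw [image_eq_zero_of_notMem_tsupport hz]; simp
  have hF0 : ∀ p : Cm n × Cm n, p.1 ∉ tsupport ψ → FF ψ g h p = 0 := fun p hp => by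
    unfold FF; rw [hu0 _ hp, zero_mul]
  obtain ⟨hint, hzero⟩ := local_L1b (F := FF ψ g h) hg hχ hK hψ.supp hF0
    (fun z hz w => (FF_smooth hn hg hh hψ.smooth hz w).of_le (by norm_cast))
  set f : Cm n × Cm n → ℂ := fun p => sprb g (FF ψ g h) p * wt χ g p with hf
  have hfib : ∀ z, ∫ w, f (z, w) =
      (uu ψ g h z * (BI χ g h z - AI χ g h z) + TI χ ψ g h z) * (g z).det ^ 2 := by
    intro z
    by_cases hz : z ∈ tsupport ψ
    · have hzU := hψ.supp hz
      have hG := hg.pos z hzU
      have hB : Integrable fun w : Cm n => (∑ p, beta (curv h z) w p * xiV g z w p) *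
          ((χ (quad (g z) w).re : ℝ) : ℂ) :=
        integrable_wq hχ hG (continuous_finset_sum _ fun p _ =>
          (contDiff_beta _ p).continuous.mul (cont_xiV g z p))
      have hA : Integrable fun w : Cm n => (∑ p, beta (curv h z) w p * xiV h z w p) *
          ((χ (quad (g z) w).re : ℝ) : ℂ) :=
        integrable_wq hχ hG (continuous_finset_sum _ fun p _ =>
          (contDiff_beta _ p).continuous.mul (cont_xiV h z p))
      have hT : Integrable fun w : Cm n => thr ψ g h z w * ((χ (quad (g z) w).re : ℝ) : ℂ) :=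
        integrable_wq hχ hG (cont_thr z)
      have e1 : ∀ w, f (z, w) = (uu ψ g h z * ((∑ p, beta (curv h z) w p * xiV g z w p) *
            ((χ (quad (g z) w).re : ℝ) : ℂ) - (∑ p, beta (curv h z) w p * xiV h z w p) *
            ((χ (quad (g z) w).re : ℝ) : ℂ)) +
          thr ψ g h z w * ((χ (quad (g z) w).re : ℝ) : ℂ)) * (g z).det ^ 2 := by
        intro w
        simp only [hf, sprb_FF hn hg hh hψ.smooth hzU w, wt]
        ring
      simp only [e1]
      have hBA : Integrable fun w : Cm n => uu ψ g h z *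
          ((∑ p, beta (curv h z) w p * xiV g z w p) * ((χ (quad (g z) w).re : ℝ) : ℂ) -
            (∑ p, beta (curv h z) w p * xiV h z w p) * ((χ (quad (g z) w).re : ℝ) : ℂ)) :=
        (hB.sub hA).const_mul _
      rw [integral_mul_const, integral_add hBA hT, integral_const_mul, integral_sub hB hA]
      rfl
    · have e1 : ∀ w, f (z, w) = 0 := fun w => by
        simp only [hf]
        rw [sprb_zero (p := (z, w)) hF0 hK hz, zero_mul]
      have hev : uu ψ g h =ᶠ[𝓝 z] fun _ => 0 := by
        filter_upwards [(isClosed_tsupport ψ).isOpen_compl.mem_nhds hz] with y hy using hu0 y hy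
      have e2 : TI χ ψ g h z = 0 := by
        unfold TI thr
        simp only [hu0 z hz, dzb_zero_of hev, mul_zero, zero_mul, Finset.sum_const_zero, add_zero,
          sub_zero, integral_zero]
      simp only [e1, integral_zero, hu0 z hz, e2]
      ring
  have hprod : Integrable (fun z => ∫ w, f (z, w)) := hint.integral_prod_left
  have hz : ∫ z, ∫ w, f (z, w) = 0 := by
    rw [← integral_prod f hint]; exact hzero
  simp only [hfib] at hprod hz
  exact ⟨hprod, hz⟩

end main

end Vale.Agent.P272.K.T4.L5
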