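import Vale.Agent.P272.K.T4.L5Rg

/-!
# T4, block L5: the term with the curvature of the Kähler metric
-/

open scoped Manifold ContDiff ComplexOrder Topology
open Complex Set Filter MeasureTheory

noncomputable section

namespace Vale.Agent.P272.K.T4.L5

variable {n : ℕ}

section rg
variable {χ : ℝ → ℝ} {G : Matrix (Fin n) (Fin n) ℂ} (R : Fin n → Fin n → Fin n → Fin n → ℂ)
  (Rg : Fin n → Fin n → Fin n → Fin n → ℂ)

/-- `∫ β_p w_k X₁` -/
def bI (χ : ℝ → ℝ) (G : Matrix (Fin n) (Fin n) ℂ) (p k : Fin n) : ℂ :=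
  ∫ w : Cm n, beta R w p * w k * ((χ (quad G w).re : ℝ) : ℂ)

/-- `∫ ∂_mβ_p w_i w_k X₁` -/
def eI (χ : ℝ → ℝ) (G : Matrix (Fin n) (Fin n) ℂ) (m p i k : Fin n) : ℂ :=
  ∫ w : Cm n, dbe R w m p * (w i * w k) * ((χ (quad G w).re : ℝ) : ℂ)

/-- `∫ ∂β_p/∂w̄_j X₂` -/
def tI (χ : ℝ → ℝ) (G : Matrix (Fin n) (Fin n) ℂ) (j p : Fin n) : ℂ :=
  ∫ w : Cm n, tbe R w j p * ((χ (quad G w).re : ℝ) : ℂ)

theorem eI_antisymm (m p i k : Fin n) : eI R χ G m p i k = -eI R χ G p m i k := by
  unfold eI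
  rw [← integral_neg]
  refine integral_congr_ae (Eventually.of_forall fun w => ?_)
  simp only []
  rw [dbe_antisymm R w m p]; ring

theorem continuous_dbe (m p : Fin n) : Continuous fun w : Cm n => dbe R w m p := by
  unfold dbe
  have h : ∀ j l, Continuous fun w : Cm n => cj (w j) * cj (w l) := fun j l =>
    (contDiff_cj_coord j).continuous.mul (contDiff_cj_coord l).continuous
  refine Continuous.div_const (Continuous.sub ?_ ?_) 2 <;>
  exact continuous_finsetSum _ fun j _ => continuous_finsetSum _ fun l _ =>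
    continuous_const.mul (h j l)

theorem continuous_tbe (m p : Fin n) : Continuous fun w : Cm n => tbe R w m p := by
  unfold tbe tbz tbz'
  have h : ∀ j l, Continuous fun w : Cm n => w j * cj (w l) := fun j l =>
    (contDiff_coord j).continuous.mul (contDiff_cj_coord l).continuous
  refine Continuous.div_const (Continuous.sub (Continuous.add ?_ ?_) (Continuous.add ?_ ?_)) 2 <;>
  exact continuous_finsetSum _ fun j _ => continuous_finsetSum _ fun l _ =>
    continuous_const.mul (h j l)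

/-- first integration by parts -/
theorem int_one (hχ : Wt χ) (hG : G.PosDef) (i j k p : Fin n) :
    ∫ w : Cm n, beta R w p * (w i * w k) * cj (w j) * ((χ (quad G w).re : ℝ) : ℂ) =
      ∑ m, G⁻¹ j m * eI R (prim χ) G m p i k + G⁻¹ j i * bI R (prim χ) G p k +
        G⁻¹ j k * bI R (prim χ) G p i := by
  have hF : ContDiff ℝ 1 fun w : Cm n => beta R w p * (w i * w k) :=
    ((contDiff_beta R p).mul ((contDiff_coord i).mul (contDiff_coord k))).of_le (by norm_cast)
  rw [fib_dz hχ hG hF j]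
  have hd : ∀ m w, dz m (fun w : Cm n => beta R w p * (w i * w k)) w =
      dbe R w m p * (w i * w k) + (if m = i then 1 else 0) * (beta R w p * w k) +
        (if m = k then 1 else 0) * (beta R w p * w i) := by
    intro m w
    rw [dz_mul (diff_beta R w p) ((diff_coord i w).fun_mul (diff_coord k w)), dz_beta,
      dz_mul (diff_coord i w) (diff_coord k w), dz_coord, dz_coord]
    ring
  have hX := wt_prim hχ
  have c1 : ∀ m, Continuous fun w : Cm n => dbe R w m p * (w i * w k) := fun m =>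
    (continuous_dbe R m p).mul ((contDiff_coord i).continuous.mul (contDiff_coord k).continuous)
  have c2 : ∀ k : Fin n, Continuous fun w : Cm n => beta R w p * w k := fun k =>
    (contDiff_beta R p).continuous.mul (contDiff_coord k).continuous
  have hint : ∀ m, ∫ w : Cm n, dz m (fun w : Cm n => beta R w p * (w i * w k)) w *
      ((prim χ (quad G w).re : ℝ) : ℂ) = eI R (prim χ) G m p i k +
        (if m = i then 1 else 0) * bI R (prim χ) G p k +
        (if m = k then 1 else 0) * bI R (prim χ) G p i := by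
    intro m
    unfold eI bI
    rw [← integral_const_mul, ← integral_const_mul, ← integral_add, ← integral_add]
    · refine integral_congr_ae (Eventually.of_forall fun w => ?_)
      simp only []
      rw [hd]; ring
    · exact (integrable_wq hX hG (c1 m)).add ((integrable_wq hX hG (c2 k)).const_mul _)
    · exact (integrable_wq hX hG (c2 i)).const_mul _
    · exact integrable_wq hX hG (c1 m)
    · exact (integrable_wq hX hG (c2 k)).const_mul _
  have h3 : ∑ m, G⁻¹ j m * ∫ w : Cm n, dz m (fun w : Cm n => beta R w p * (w i * w k)) w *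
      ((prim χ (quad G w).re : ℝ) : ℂ) = ∑ m, (G⁻¹ j m * eI R (prim χ) G m p i k +
        (if m = i then 1 else 0) * (G⁻¹ j m * bI R (prim χ) G p k) +
        (if m = k then 1 else 0) * (G⁻¹ j m * bI R (prim χ) G p i)) :=
    Finset.sum_congr rfl fun m _ => by rw [hint]; ring
  rw [h3, Finset.sum_add_distrib, Finset.sum_add_distrib]
  congr 1
  · congr 1
    rw [Finset.sum_eq_single i]
    · simp
    · intro m _ hm; simp [hm]
    · simp
  · rw [Finset.sum_eq_single k]
    · simp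
    · intro m _ hm; simp [hm]
    · simp

/-- second integration by parts -/
theorem int_two (hχ : Wt χ) (hG : G.PosDef) (p k : Fin n) :
    bI R χ G p k = ∑ j, G⁻¹ j k * tI R (prim χ) G j p := by
  unfold bI tI
  rw [fib_dzb hχ hG ((contDiff_beta R p).of_le (by norm_cast)) k]
  refine Finset.sum_congr rfl fun j _ => ?_
  congr 1
  refine integral_congr_ae (Eventually.of_forall fun w => ?_)
  simp only []
  rw [dzb_beta]

theorem sum_bI (hχ : Wt χ) (hG : G.PosDef) : ∑ k, bI R χ G k k = 0 := by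
  unfold bI
  rw [← integral_finsetSum]
  · have : (fun w : Cm n => ∑ k, beta R w k * w k * ((χ (quad G w).re : ℝ) : ℂ)) = fun _ => 0 := by
      funext w
      rw [← Finset.sum_mul, sum_beta_mul, zero_mul]
    rw [this, integral_zero]
  · intro k _
    exact integrable_wq hχ hG ((contDiff_beta R k).continuous.mul (contDiff_coord k).continuous)

variable {R Rg}

/-- the symmetric contraction vanishes -/
theorem contr_zero (s2 : ∀ i j k l, Rg i j k l = Rg i l k j) (i k : Fin n) :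
    ∑ j, ∑ l, ∑ m, ∑ p, Rg i j k l * G⁻¹ l p * (G⁻¹ j m * eI R χ G m p i k) = 0 := by
  have h : ∑ j, ∑ l, ∑ m, ∑ p, Rg i j k l * G⁻¹ l p * (G⁻¹ j m * eI R χ G m p i k) =
      -∑ j, ∑ l, ∑ m, ∑ p, Rg i j k l * G⁻¹ l p * (G⁻¹ j m * eI R χ G m p i k) := by
    conv_lhs => rw [Finset.sum_comm]
    rw [← Finset.sum_neg_distrib]
    refine Finset.sum_congr rfl fun l _ => ?_
    rw [← Finset.sum_neg_distrib]
    refine Finset.sum_congr rfl fun j _ => ?_
    rw [Finset.sum_comm, ← Finset.sum_neg_distrib]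
    refine Finset.sum_congr rfl fun p _ => ?_
    rw [← Finset.sum_neg_distrib]
    refine Finset.sum_congr rfl fun m _ => ?_
    rw [eI_antisymm R m p i k, s2 i j k l]; ring
  exact self_eq_neg.1 h

theorem rg_identity (hχ : Wt χ) (hG : G.PosDef) (s1 : ∀ i j k l, Rg i j k l = Rg k j i l)
    (s2 : ∀ i j k l, Rg i j k l = Rg i l k j) {M : Matrix (Fin n) (Fin n) ℂ}
    (hM : ∀ k l, ∑ i, ∑ j, G⁻¹ j i * Rg i j k l = M k l - G k l) :
    ∫ w : Cm n, (∑ p, beta R w p * ∑ l, rv Rg w l * G⁻¹ l p) * ((χ (quad G w).re : ℝ) : ℂ) =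
      2 * ∑ j, ∑ p, (G⁻¹ * M * G⁻¹) j p * tI R (prim (prim χ)) G j p := by
  have hdet : IsUnit G.det := isUnit_iff_ne_zero.2 hG.det_pos.ne'
  have hX := wt_prim hχ
  -- expansion of the integrand
  have e1 : ∀ w : Cm n, (∑ p, beta R w p * ∑ l, rv Rg w l * G⁻¹ l p) *
      ((χ (quad G w).re : ℝ) : ℂ) = ∑ p, ∑ l, ∑ i, ∑ j, ∑ k, Rg i j k l * G⁻¹ l p *
        (beta R w p * (w i * w k) * cj (w j) * ((χ (quad G w).re : ℝ) : ℂ)) := by
    intro w
    rw [Finset.sum_mul]
    refine Finset.sum_congr rfl fun p _ => ?_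
    rw [Finset.mul_sum, Finset.sum_mul]
    refine Finset.sum_congr rfl fun l _ => ?_
    rw [rv]
    simp only [Finset.sum_mul, Finset.mul_sum]
    refine Finset.sum_congr rfl fun i _ => Finset.sum_congr rfl fun j _ =>
      Finset.sum_congr rfl fun k _ => ?_
    simp only [cj]; ring
  have hc : ∀ i j k p, Integrable fun w : Cm n =>
      beta R w p * (w i * w k) * cj (w j) * ((χ (quad G w).re : ℝ) : ℂ) := fun i j k p =>
    integrable_wq hχ hG (((contDiff_beta R p).continuous.mul ((contDiff_coord i).continuous.mul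
      (contDiff_coord k).continuous)).mul (contDiff_cj_coord j).continuous)
  have hI : ∫ w : Cm n, (∑ p, beta R w p * ∑ l, rv Rg w l * G⁻¹ l p) *
      ((χ (quad G w).re : ℝ) : ℂ) = ∑ p, ∑ l, ∑ i, ∑ j, ∑ k, Rg i j k l * G⁻¹ l p *
        (∑ m, G⁻¹ j m * eI R (prim χ) G m p i k + G⁻¹ j i * bI R (prim χ) G p k +
        G⁻¹ j k * bI R (prim χ) G p i) := by
    rw [integral_congr_ae (Eventually.of_forall e1)]
    rw [integral_finsetSum _ fun p _ => integrable_finsetSum _ fun l _ =>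
      integrable_finsetSum _ fun i _ => integrable_finsetSum _ fun j _ =>
      integrable_finsetSum _ fun k _ => (hc i j k p).const_mul _]
    refine Finset.sum_congr rfl fun p _ => ?_
    rw [integral_finsetSum _ fun l _ =>
      integrable_finsetSum _ fun i _ => integrable_finsetSum _ fun j _ =>
      integrable_finsetSum _ fun k _ => (hc i j k p).const_mul _]
    refine Finset.sum_congr rfl fun l _ => ?_
    rw [integral_finsetSum _ fun i _ => integrable_finsetSum _ fun j _ =>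
      integrable_finsetSum _ fun k _ => (hc i j k p).const_mul _]
    refine Finset.sum_congr rfl fun i _ => ?_
    rw [integral_finsetSum _ fun j _ =>
      integrable_finsetSum _ fun k _ => (hc i j k p).const_mul _]
    refine Finset.sum_congr rfl fun j _ => ?_
    rw [integral_finsetSum _ fun k _ => (hc i j k p).const_mul _]
    refine Finset.sum_congr rfl fun k _ => ?_
    rw [integral_const_mul, int_one R hχ hG]
  -- splitting
  have hsplit : ∑ p, ∑ l, ∑ i, ∑ j, ∑ k, Rg i j k l * G⁻¹ l p *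
        (∑ m, G⁻¹ j m * eI R (prim χ) G m p i k + G⁻¹ j i * bI R (prim χ) G p k +
        G⁻¹ j k * bI R (prim χ) G p i) =
      ∑ p, ∑ l, ∑ i, ∑ j, ∑ k, ∑ m, Rg i j k l * G⁻¹ l p * (G⁻¹ j m * eI R (prim χ) G m p i k) +
      ∑ p, ∑ l, ∑ i, ∑ j, ∑ k, Rg i j k l * G⁻¹ l p * (G⁻¹ j i * bI R (prim χ) G p k) +
      ∑ p, ∑ l, ∑ i, ∑ j, ∑ k, Rg i j k l * G⁻¹ l p * (G⁻¹ j k * bI R (prim χ) G p i) := by
    simp only [mul_add, Finset.sum_add_distrib, Finset.mul_sum]
  have hfirst : ∑ p, ∑ l, ∑ i, ∑ j, ∑ k, ∑ m, Rg i j k l * G⁻¹ l p *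
      (G⁻¹ j m * eI R (prim χ) G m p i k) = 0 := by
    have : ∑ p, ∑ l, ∑ i, ∑ j, ∑ k, ∑ m, Rg i j k l * G⁻¹ l p *
        (G⁻¹ j m * eI R (prim χ) G m p i k) =
        ∑ i, ∑ k, ∑ j, ∑ l, ∑ m, ∑ p, Rg i j k l * G⁻¹ l p *
        (G⁻¹ j m * eI R (prim χ) G m p i k) := by
      have a1 : ∀ (f : Fin n → Fin n → Fin n → Fin n → Fin n → Fin n → ℂ),
          ∑ p, ∑ l, ∑ i, ∑ j, ∑ k, ∑ m, f p l i j k m =
          ∑ i, ∑ k, ∑ j, ∑ l, ∑ m, ∑ p, f p l i j k m := by
        intro f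
        calc ∑ p, ∑ l, ∑ i, ∑ j, ∑ k, ∑ m, f p l i j k m
            = ∑ l, ∑ p, ∑ i, ∑ j, ∑ k, ∑ m, f p l i j k m := Finset.sum_comm
          _ = ∑ l, ∑ i, ∑ p, ∑ j, ∑ k, ∑ m, f p l i j k m :=
              Finset.sum_congr rfl fun l _ => Finset.sum_comm
          _ = ∑ i, ∑ l, ∑ p, ∑ j, ∑ k, ∑ m, f p l i j k m := Finset.sum_comm
          _ = ∑ i, ∑ k, ∑ j, ∑ l, ∑ m, ∑ p, f p l i j k m := by
              refine Finset.sum_congr rfl fun i _ => ?_
              calc ∑ l, ∑ p, ∑ j, ∑ k, ∑ m, f p l i j k m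
                  = ∑ l, ∑ j, ∑ p, ∑ k, ∑ m, f p l i j k m :=
                    Finset.sum_congr rfl fun l _ => Finset.sum_comm
                _ = ∑ l, ∑ j, ∑ k, ∑ p, ∑ m, f p l i j k m :=
                    Finset.sum_congr rfl fun l _ => Finset.sum_congr rfl fun j _ =>
                      Finset.sum_comm
                _ = ∑ l, ∑ k, ∑ j, ∑ p, ∑ m, f p l i j k m :=
                    Finset.sum_congr rfl fun l _ => Finset.sum_comm
                _ = ∑ k, ∑ l, ∑ j, ∑ p, ∑ m, f p l i j k m := Finset.sum_comm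
                _ = ∑ k, ∑ j, ∑ l, ∑ p, ∑ m, f p l i j k m :=
                    Finset.sum_congr rfl fun k _ => Finset.sum_comm
                _ = ∑ k, ∑ j, ∑ l, ∑ m, ∑ p, f p l i j k m :=
                    Finset.sum_congr rfl fun k _ => Finset.sum_congr rfl fun j _ =>
                      Finset.sum_congr rfl fun l _ => Finset.sum_comm
      exact a1 fun p l i j k m => Rg i j k l * G⁻¹ l p * (G⁻¹ j m * eI R (prim χ) G m p i k)
    rw [this]
    refine Finset.sum_eq_zero fun i _ => Finset.sum_eq_zero fun k _ => ?_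
    exact contr_zero s2 i k
  have hthird : ∑ p, ∑ l, ∑ i, ∑ j, ∑ k, Rg i j k l * G⁻¹ l p * (G⁻¹ j k * bI R (prim χ) G p i) =
      ∑ p, ∑ l, ∑ i, ∑ j, ∑ k, Rg i j k l * G⁻¹ l p * (G⁻¹ j i * bI R (prim χ) G p k) := by
    refine Finset.sum_congr rfl fun p _ => Finset.sum_congr rfl fun l _ => ?_
    calc ∑ i, ∑ j, ∑ k, Rg i j k l * G⁻¹ l p * (G⁻¹ j k * bI R (prim χ) G p i)
        = ∑ j, ∑ i, ∑ k, Rg i j k l * G⁻¹ l p * (G⁻¹ j k * bI R (prim χ) G p i) :=
          Finset.sum_comm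
      _ = ∑ j, ∑ k, ∑ i, Rg i j k l * G⁻¹ l p * (G⁻¹ j k * bI R (prim χ) G p i) :=
          Finset.sum_congr rfl fun j _ => Finset.sum_comm
      _ = ∑ j, ∑ k, ∑ i, Rg k j i l * G⁻¹ l p * (G⁻¹ j k * bI R (prim χ) G p i) :=
          Finset.sum_congr rfl fun j _ => Finset.sum_congr rfl fun k _ =>
            Finset.sum_congr rfl fun i _ => by rw [s1]
      _ = ∑ i, ∑ j, ∑ k, Rg i j k l * G⁻¹ l p * (G⁻¹ j i * bI R (prim χ) G p k) :=
          Finset.sum_comm
  have hsecond : ∑ p, ∑ l, ∑ i, ∑ j, ∑ k, Rg i j k l * G⁻¹ l p *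
      (G⁻¹ j i * bI R (prim χ) G p k) = ∑ k, ∑ p, (M * G⁻¹) k p * bI R (prim χ) G p k := by
    have b1 : ∑ p, ∑ l, ∑ i, ∑ j, ∑ k, Rg i j k l * G⁻¹ l p *
        (G⁻¹ j i * bI R (prim χ) G p k) =
        ∑ k, ∑ p, ∑ l, (M k l - G k l) * G⁻¹ l p * bI R (prim χ) G p k := by
      calc ∑ p, ∑ l, ∑ i, ∑ j, ∑ k, Rg i j k l * G⁻¹ l p * (G⁻¹ j i * bI R (prim χ) G p k)
          = ∑ p, ∑ l, ∑ k, ∑ i, ∑ j, Rg i j k l * G⁻¹ l p * (G⁻¹ j i * bI R (prim χ) G p k) := by
            refine Finset.sum_congr rfl fun p _ => Finset.sum_congr rfl fun l _ => ?_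
            calc ∑ i, ∑ j, ∑ k, Rg i j k l * G⁻¹ l p * (G⁻¹ j i * bI R (prim χ) G p k)
                = ∑ i, ∑ k, ∑ j, Rg i j k l * G⁻¹ l p * (G⁻¹ j i * bI R (prim χ) G p k) :=
                  Finset.sum_congr rfl fun i _ => Finset.sum_comm
              _ = _ := Finset.sum_comm
        _ = ∑ p, ∑ l, ∑ k, (M k l - G k l) * G⁻¹ l p * bI R (prim χ) G p k := by
            refine Finset.sum_congr rfl fun p _ => Finset.sum_congr rfl fun l _ =>
              Finset.sum_congr rfl fun k _ => ?_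
            rw [← hM, Finset.sum_mul, Finset.sum_mul]
            refine Finset.sum_congr rfl fun i _ => ?_
            rw [Finset.sum_mul, Finset.sum_mul]
            exact Finset.sum_congr rfl fun j _ => by ring
        _ = ∑ p, ∑ k, ∑ l, (M k l - G k l) * G⁻¹ l p * bI R (prim χ) G p k :=
            Finset.sum_congr rfl fun p _ => Finset.sum_comm
        _ = _ := Finset.sum_comm
    rw [b1]
    have b2 : ∀ k p, ∑ l, (M k l - G k l) * G⁻¹ l p * bI R (prim χ) G p k =
        (M * G⁻¹) k p * bI R (prim χ) G p k - (1 : Matrix (Fin n) (Fin n) ℂ) k p *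
          bI R (prim χ) G p k := by
      intro k p
      rw [← Finset.sum_mul, ← sub_mul]
      congr 1
      rw [← Matrix.mul_nonsing_inv _ hdet, Matrix.mul_apply, Matrix.mul_apply,
        ← Finset.sum_sub_distrib]
      exact Finset.sum_congr rfl fun l _ => by ring
    simp only [b2, Finset.sum_sub_distrib]
    have b3 : ∑ k, ∑ p, (1 : Matrix (Fin n) (Fin n) ℂ) k p * bI R (prim χ) G p k = 0 := by
      rw [← sum_bI R hX hG]
      refine Finset.sum_congr rfl fun k _ => ?_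
      rw [Finset.sum_eq_single k]
      · simp
      · intro p _ hp; rw [Matrix.one_apply_ne' hp, zero_mul]
      · simp
    rw [b3, sub_zero]
  rw [hI, hsplit, hfirst, hthird, hsecond]
  have hlast : ∑ k, ∑ p, (M * G⁻¹) k p * bI R (prim χ) G p k =
      ∑ j, ∑ p, (G⁻¹ * M * G⁻¹) j p * tI R (prim (prim χ)) G j p := by
    have c1 : ∀ k p, (M * G⁻¹) k p * bI R (prim χ) G p k =
        ∑ j, G⁻¹ j k * (M * G⁻¹) k p * tI R (prim (prim χ)) G j p := by
      intro k p
      rw [int_two R hX hG, Finset.mul_sum]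
      exact Finset.sum_congr rfl fun j _ => by ring
    simp only [c1]
    calc ∑ k, ∑ p, ∑ j, G⁻¹ j k * (M * G⁻¹) k p * tI R (prim (prim χ)) G j p
        = ∑ k, ∑ j, ∑ p, G⁻¹ j k * (M * G⁻¹) k p * tI R (prim (prim χ)) G j p :=
          Finset.sum_congr rfl fun k _ => Finset.sum_comm
      _ = ∑ j, ∑ k, ∑ p, G⁻¹ j k * (M * G⁻¹) k p * tI R (prim (prim χ)) G j p :=
          Finset.sum_comm
      _ = ∑ j, ∑ p, ∑ k, G⁻¹ j k * (M * G⁻¹) k p * tI R (prim (prim χ)) G j p :=
          Finset.sum_congr rfl fun j _ => Finset.sum_comm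
      _ = _ := by
          refine Finset.sum_congr rfl fun j _ => Finset.sum_congr rfl fun p _ => ?_
          rw [← Finset.sum_mul, Matrix.mul_assoc, Matrix.mul_apply]
  rw [hlast]
  ring

/-- bound for the term with the curvature of `g` -/
theorem rg_bound (hχ : Wt χ) (hG : G.PosDef) (s1 : ∀ i j k l, Rg i j k l = Rg k j i l)
    (s2 : ∀ i j k l, Rg i j k l = Rg i l k j) {M : Matrix (Fin n) (Fin n) ℂ}
    (hM : ∀ k l, ∑ i, ∑ j, G⁻¹ j i * Rg i j k l = M k l - G k l) (hMp : M.PosSemidef)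
    {A L : ℝ} (hA : ∀ i j k l, ‖R i j k l‖ ≤ A) (hA0 : 0 ≤ A)
    (hL : ∀ w : Cm n, ‖w‖ ^ 2 ≤ L * (quad G w).re) (hL0 : 0 ≤ L) :
    ‖∫ w : Cm n, (∑ p, beta R w p * ∑ l, rv Rg w l * G⁻¹ l p) *
      ((χ (quad G w).re : ℝ) : ℂ)‖ ≤
      4 * n ^ 4 * A * L * (G⁻¹ * M * G⁻¹).trace.re *
        ∫ w : Cm n, prim (prim χ) (quad G w).re := by
  have hX := wt_prim (wt_prim hχ)
  set X := prim (prim χ) with hXd
  rw [rg_identity hχ hG s1 s2 hM]
  have hP : (G⁻¹ * M * G⁻¹).PosSemidef := by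
    have h := hMp.mul_mul_conjTranspose_same (G⁻¹)
    rwa [hG.inv.isHermitian.eq] at h
  have hXi : Integrable fun w : Cm n => X (quad G w).re := by
    have := integrable_wq_real hX hG (F := fun _ => 1) continuous_const
    simpa using this
  have ht : ∀ j p, ‖tI R X G j p‖ ≤ 2 * n ^ 2 * (A * L) * ∫ w : Cm n, X (quad G w).re := by
    intro j p
    unfold tI
    rw [← integral_const_mul]
    refine (norm_integral_le_integral_norm _).trans ?_
    refine integral_mono_of_nonneg (Eventually.of_forall fun w => norm_nonneg _)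
      (hXi.const_mul _) (Eventually.of_forall fun w => ?_)
    simp only []
    rw [norm_mul, Complex.norm_real, Real.norm_of_nonneg (hX.nonneg _)]
    rcases le_or_gt 1 (quad G w).re with h1 | h1
    · rw [hX.zero _ h1]; simp
    · refine mul_le_mul_of_nonneg_right ?_ (hX.nonneg _)
      have h2 : ‖w‖ ^ 2 ≤ L := (hL w).trans (by
        calc L * (quad G w).re ≤ L * 1 := by gcongr
          _ = L := mul_one L)
      calc ‖tbe R w j p‖ ≤ 2 * n ^ 2 * (A * ‖w‖ ^ 2) := norm_tbe_le hA w j p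
        _ ≤ 2 * n ^ 2 * (A * L) := by gcongr
  have hIn : 0 ≤ ∫ w : Cm n, X (quad G w).re := integral_nonneg fun w => hX.nonneg _
  rw [norm_mul]
  have h2 : ‖(2 : ℂ)‖ = 2 := by norm_num
  rw [h2]
  have hsum : ‖∑ j, ∑ p, (G⁻¹ * M * G⁻¹) j p * tI R X G j p‖ ≤
      n ^ 2 * ((G⁻¹ * M * G⁻¹).trace.re *
        (2 * n ^ 2 * (A * L) * ∫ w : Cm n, X (quad G w).re)) := by
    refine norm_sum2_le fun j p => ?_
    rw [norm_mul]
    exact mul_le_mul (C2.norm_entry_le_trace hP j p) (ht j p) (norm_nonneg _)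
      ((norm_nonneg _).trans (C2.norm_entry_le_trace hP j p))
  calc 2 * ‖∑ j, ∑ p, (G⁻¹ * M * G⁻¹) j p * tI R X G j p‖
      ≤ 2 * (n ^ 2 * ((G⁻¹ * M * G⁻¹).trace.re *
        (2 * n ^ 2 * (A * L) * ∫ w : Cm n, X (quad G w).re))) := by gcongr
    _ = _ := by ring

end rg

end Vale.Agent.P272.K.T4.L5
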