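import Vale.Agent.P272.K.T4.L5Iface
import Vale.Agent.P272.K.T4.L5Rg2

/-!
# T4, block L5: the pieces of the local estimate, as propositions

* `Ident` : the integrated identity (L1 for the conjugate spray and `f = ψ/τ Σ β_p S^p`);
* `BBound`: the term with the curvature of `g`;
* `ABound`: the pointwise algebra, averaged;
* `TBound`: the error terms.
-/

open scoped Manifold ContDiff ComplexOrder Topology
open Complex Set Filter MeasureTheory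

noncomputable section

namespace Vale.Agent.P272.K.T4.L5

variable {n : ℕ}

/-- `∫_w Σ_p β_p(z,w) (R^h(w,w̄)w)^p χ(|w|_g²)` -/
def AI (χ : ℝ → ℝ) (g h : Cm n → Matrix (Fin n) (Fin n) ℂ) (z : Cm n) : ℂ :=
  ∫ w : Cm n, (∑ p, beta (curv h z) w p * xiV h z w p) * ((χ (quad (g z) w).re : ℝ) : ℂ)

/-- `∫_w Σ_p β_p(z,w) (R^g(w,w̄)w)^p χ(|w|_g²)` -/
def BI (χ : ℝ → ℝ) (g h : Cm n → Matrix (Fin n) (Fin n) ℂ) (z : Cm n) : ℂ :=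
  ∫ w : Cm n, (∑ p, beta (curv h z) w p * xiV g z w p) * ((χ (quad (g z) w).re : ℝ) : ℂ)

/-- `∂_{z̄_k}` of the curvature components of `h` -/
def dcv (h : Cm n → Matrix (Fin n) (Fin n) ℂ) (z : Cm n) (k : Fin n) :
    Fin n → Fin n → Fin n → Fin n → ℂ :=
  fun i j a l => dzb k (fun y => curv h y i j a l) z

/-- the factor `u = ψ/τ` -/
def uu (ψ : Cm n → ℝ) (g h : Cm n → Matrix (Fin n) (Fin n) ℂ) (z : Cm n) : ℂ :=
  ((ψ z / Tl g h z : ℝ) : ℂ)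

/-- the error term `Σ_p (Ḡ_g B_p) S^p`, where `B_p = (ψ/τ) β_p`, `S = Γ_h(w,w) - Γ_g(w,w)` -/
def thr (ψ : Cm n → ℝ) (g h : Cm n → Matrix (Fin n) (Fin n) ℂ) (z w : Cm n) : ℂ :=
  ∑ p, ((∑ k, cj (w k) * dzb k (uu ψ g h) z) * beta (curv h z) w p
    + uu ψ g h z * (∑ k, cj (w k) * beta (dcv h z k) w p)
    - uu ψ g h z * (∑ m, cj (chr g z w m) * tbe (curv h z) w m p)) * P1.dGam g h z w p

/-- the integrated error term -/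
def TI (χ : ℝ → ℝ) (ψ : Cm n → ℝ) (g h : Cm n → Matrix (Fin n) (Fin n) ℂ) (z : Cm n) : ℂ :=
  ∫ w : Cm n, thr ψ g h z w * ((χ (quad (g z) w).re : ℝ) : ℂ)

/-- cutoff functions -/
structure Cut (U : Set (Cm n)) (ψ : Cm n → ℝ) : Prop where
  smooth : ContDiff ℝ ∞ ψ
  compact : HasCompactSupport ψ
  supp : tsupport ψ ⊆ U
  nonneg : ∀ z, 0 ≤ ψ z

/-- the identity -/
def Ident (n : ℕ) : Prop :=
  ∀ (_ : 0 < n) (χ : ℝ → ℝ) (_ : Wt χ) (U : Set (Cm n))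
    (g h : Cm n → Matrix (Fin n) (Fin n) ℂ) (_ : LocMet U g) (_ : SmPos U h)
    (ψ : Cm n → ℝ) (_ : Cut U ψ),
    Integrable (fun z => (uu ψ g h z * (BI χ g h z - AI χ g h z) + TI χ ψ g h z) *
      (g z).det ^ 2) ∧
    ∫ z, (uu ψ g h z * (BI χ g h z - AI χ g h z) + TI χ ψ g h z) * (g z).det ^ 2 = 0

/-- the term with the curvature of `g` -/
def BBound (n : ℕ) : Prop :=
  ∀ (_ : 0 < n) (χ : ℝ → ℝ) (_ : Wt χ) (U : Set (Cm n)) (_ : IsOpen U)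
    (h : Cm n → Matrix (Fin n) (Fin n) ℂ) (_ : SmPos U h) (ψ : Cm n → ℝ) (_ : Cut U ψ),
    ∃ C : ℝ, 0 ≤ C ∧ ∀ (g : Cm n → Matrix (Fin n) (Fin n) ℂ) (_ : LocMet U g)
      (_ : ∀ z ∈ U, (-cHess (fun y => Real.log (g y).det.re) z + g z).PosSemidef),
      ∀ z ∈ tsupport ψ, ‖uu ψ g h z * BI χ g h z‖ * (g z).det.re ≤ C * Ml g h z

/-- the pointwise algebra, averaged -/
def ABound (n : ℕ) : Prop :=
  ∀ (_ : 0 < n) (χ : ℝ → ℝ) (_ : Wt χ) (U : Set (Cm n)) (_ : IsOpen U)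
    (h : Cm n → Matrix (Fin n) (Fin n) ℂ) (_ : SmPos U h)
    (_ : ∀ z ∈ U, ∀ ξ : Cm n, (quart (curv h z) ξ).re ≤ 0) (ψ : Cm n → ℝ) (_ : Cut U ψ),
    ∃ C D : ℝ, 0 ≤ C ∧ 0 ≤ D ∧ ∀ (g : Cm n → Matrix (Fin n) (Fin n) ℂ) (_ : SmPos U g),
      ∀ z ∈ tsupport ψ, El χ g (Xl h) z ≤
        C * ((AI χ g h z).re * (g z).det.re + D * (Tl g h z * El χ g (Rl h) z))

/-- the error terms -/
def TBound (n : ℕ) : Prop :=
  ∀ (_ : 0 < n) (χ : ℝ → ℝ) (_ : Wt χ) (U : Set (Cm n)) (_ : IsOpen U)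
    (h : Cm n → Matrix (Fin n) (Fin n) ℂ) (_ : SmPos U h) (ψ : Cm n → ℝ) (_ : Cut U ψ)
    (δ : ℝ) (_ : 0 < δ), ∃ C : ℝ, 0 ≤ C ∧
    ∀ (g : Cm n → Matrix (Fin n) (Fin n) ℂ) (_ : LocMet U g),
      ∀ z ∈ tsupport ψ, ‖TI χ ψ g h z‖ * (g z).det.re ≤
        δ * Tl g h z ^ 2 + C * El χ g (Pl g h) z

/-- the moment comparison -/
def MomTrace (n : ℕ) : Prop :=
  ∀ (χ : ℝ → ℝ) (_ : Wt χ), ∃ C : ℝ, 0 ≤ C ∧ ∀ (G H : Matrix (Fin n) (Fin n) ℂ) (_ : G.PosDef)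
    (_ : H.PosDef) (s : Fin n → Matrix (Fin n) (Fin n) ℂ) (_ : ∀ i k m, s i k m = s k i m),
    ∫ w : Cm n, ‖∑ k, w k * (G⁻¹ * (s k * H)).trace‖ ^ 2 * χ (quad G w).re ≤
      C * (G⁻¹ * H).trace.re *
        ∫ w : Cm n, (quad H (fun m => ∑ i, ∑ k, w i * w k * s i k m)).re * χ (quad G w).re

end Vale.Agent.P272.K.T4.L5
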