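import Vale.Agent.P272.K.T4.L5T3
import Vale.Agent.P272.K.T4.L5Id
import Vale.Agent.P272.K.T4.L5GlobA

/-!
# T4, block L5: the local estimate
-/

open scoped Manifold ContDiff ComplexOrder Topology
open Complex Set Filter MeasureTheory

noncomputable section

namespace Vale.Agent.P272.K.T4.L5

variable {n : ℕ} {χ : ℝ → ℝ} {U : Set (Cm n)} {g h : Cm n → Matrix (Fin n) (Fin n) ℂ} {z : Cm n}

theorem El_eq (χ : ℝ → ℝ) (g : Cm n → Matrix (Fin n) (Fin n) ℂ) (F : Cm n → Cm n → ℝ) (z : Cm n) :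
    El χ g F z = (∫ w : Cm n, χ (quad (g z) w).re • F z w) * (g z).det.re := by
  unfold El
  rw [← integral_mul_const]
  refine integral_congr_ae (Eventually.of_forall fun w => ?_)
  simp only [smul_eq_mul]; ring

theorem El_contAt (hχ : Wt χ) (hg : LocMet U g) {F : Cm n → Cm n → ℝ}
    (hF : ∀ z ∈ U, ∀ w : Cm n, ContinuousAt (fun p : Cm n × Cm n => F p.1 p.2) (z, w))
    (hz : z ∈ U) : ContinuousAt (El χ g F) z := by
  have h1 : ∀ z ∈ U, ∀ i j, ContinuousAt (fun y => g y i j) z := fun z hz i j =>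
    (hg.smooth z hz i j).continuousAt
  have h2 := fib_cont_param (E := ℝ) (F := fun p : Cm n × Cm n => F p.1 p.2) hχ hg.isOpen h1
    hg.pos hF hz
  have h3 : El χ g F = fun z => (∫ w : Cm n, χ (quad (g z) w).re • F z w) * (g z).det.re :=
    funext fun z => El_eq χ g F z
  rw [h3]
  exact h2.mul (det_contAt (h1 z hz))

theorem Pl_contAt (hg : LocMet U g) (hh : SmPos U h) (hz : z ∈ U) (w : Cm n) :
    ContinuousAt (fun p : Cm n × Cm n => Pl g h p.1 p.2) (z, w) := by
  have hd : ∀ m, ContDiffAt ℝ ∞ (fun p : Cm n × Cm n => P1.dGam g h p.1 p.2 m) (z, w) := by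
    intro m
    have : (fun p : Cm n × Cm n => P1.dGam g h p.1 p.2 m) =
        fun p => chr h p.1 p.2 m - chr g p.1 p.2 m := by
      funext p; rw [dGam_eq]; rfl
    rw [this]
    exact (cd_chr (p := (z, w)) (hh.smooth z hz) (hh.pos z hz).det_pos.ne' m).sub
      (cd_chr (p := (z, w)) (hg.smooth z hz) (hg.det_ne hz) m)
  exact (cd_quad_vec (V := fun p : Cm n × Cm n => P1.dGam g h p.1 p.2) (hh.smooth z hz)
    hd).continuousAt

theorem Rl_contAt (hh : SmPos U h) (hz : z ∈ U) (w : Cm n) :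
    ContinuousAt (fun p : Cm n × Cm n => Rl h p.1 p.2) (z, w) := by
  have := cd_quart (w := w) (hh.smooth z hz) (hh.pos z hz).det_pos.ne'
  exact (Complex.reCLM.contDiff.contDiffAt.comp (z, w) this).neg.continuousAt

theorem continuous_Rl (h : Cm n → Matrix (Fin n) (Fin n) ℂ) (z : Cm n) :
    Continuous fun w : Cm n => Rl h z w := by
  unfold Rl quart
  refine (Complex.continuous_re.comp ?_).neg
  refine continuous_finsetSum _ fun i _ => continuous_finsetSum _ fun j _ =>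
    continuous_finsetSum _ fun k _ => continuous_finsetSum _ fun l _ => continuous_const.mul ?_
  exact (((contDiff_coord i).continuous.mul (contDiff_cj_coord j).continuous).mul
    (contDiff_coord k).continuous).mul (contDiff_cj_coord l).continuous

theorem Ml_contAt (hg : LocMet U g) (hh : SmPos U h) (hz : z ∈ U) :
    ContinuousAt (Ml g h) z := by
  have hgi : ∀ i j, ContDiffAt ℝ ∞ (fun y => (g y)⁻¹ i j) z :=
    fun i j => contDiffAt_inv (hg.smooth z hz) (hg.det_ne hz) i j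
  have hlog : ContDiffAt ℝ ∞ (fun y => Real.log (g y).det.re) z := by
    have h1 : ContDiffAt ℝ ∞ (fun y => (g y).det.re) z :=
      contDiffAt_re (contDiffAt_det (hg.smooth z hz))
    exact h1.log (INT.posDef_det_re (hg.pos z hz)).1.ne'
  have hR : ∀ i j, ContDiffAt ℝ ∞
      (fun y => (-cHess (fun y => Real.log (g y).det.re) y + g y) i j) z := by
    intro i j
    have h1 := contDiffAt_cHess (m := ∞) hlog (le_of_eq rfl) i j
    exact (h1.neg).add (hg.smooth z hz i j)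
  have h3 := contDiffAt_trace_mul (contDiffAt_mul_entry (contDiffAt_mul_entry hgi hR) hgi)
    (hh.smooth z hz)
  exact (contDiffAt_re h3).continuousAt

theorem Ml_nonneg' (hg : LocMet U g) (hh : SmPos U h) (hz : z ∈ U)
    (hric : (-cHess (fun y => Real.log (g y).det.re) z + g z).PosSemidef) : 0 ≤ Ml g h z := by
  have hgx := hg.pos z hz
  have hP : ((g z)⁻¹ * h z * (g z)⁻¹).PosSemidef := by
    have := (hh.pos z hz).posSemidef.mul_mul_conjTranspose_same (g z)⁻¹
    rwa [hgx.inv.isHermitian.eq] at this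
  have h2 := C2.trace_mul_nonneg hP hric
  have h3 : ((g z)⁻¹ * (-cHess (fun y => Real.log (g y).det.re) z + g z) *
      (g z)⁻¹ * h z).trace = ((g z)⁻¹ * h z * (g z)⁻¹ *
        (-cHess (fun y => Real.log (g y).det.re) z + g z)).trace := by
    rw [Matrix.mul_assoc ((g z)⁻¹ * _) (g z)⁻¹ (h z), Matrix.trace_mul_comm,
      ← Matrix.mul_assoc]
  unfold Ml
  rw [h3]
  exact (Complex.le_def.1 h2).1

theorem det_re_pos' (hg : LocMet U g) (hz : z ∈ U) :
    0 < (g z).det.re ∧ (g z).det = (((g z).det.re : ℝ) : ℂ) := by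
  have := (hg.pos z hz).det_pos
  rw [Complex.lt_def] at this
  exact ⟨by simpa using this.1, Complex.ext (by simp) (by simpa using this.2.symm)⟩

theorem El_nonneg (hχ : Wt χ) (hg : LocMet U g) (hz : z ∈ U) {F : Cm n → Cm n → ℝ}
    (hF : ∀ w, 0 ≤ F z w) : 0 ≤ El χ g F z :=
  integral_nonneg fun w => mul_nonneg (mul_nonneg (hF w) (hχ.nonneg _)) (det_re_pos' hg hz).1.le

theorem El_add (hχ : Wt χ) (hg : LocMet U g) (hz : z ∈ U) {F G : Cm n → Cm n → ℝ}
    (hF : Continuous (F z)) (hG : Continuous (G z)) :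
    El χ g (fun z w => F z w + G z w) z = El χ g F z + El χ g G z := by
  unfold El
  have h1 := (fib_intR hχ (hg.pos z hz) hF).mul_const (g z).det.re
  have h2 := (fib_intR hχ (hg.pos z hz) hG).mul_const (g z).det.re
  rw [← integral_add h1 h2]
  refine integral_congr_ae (Eventually.of_forall fun w => ?_)
  simp only []; ring

/-- the pointwise consequence of the four pieces -/
theorem local_pt {ψ : Cm n → ℝ} {CA DA CB CT δ ε Aψ a b t v τ d X P R M : ℝ}
    {BIz TIz AIz uz : ℂ} (hCA : 0 ≤ CA) (hDA : 0 ≤ DA) (hCB : 0 ≤ CB) (hCT : 0 ≤ CT)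
    (hd : 0 < d) (hτ : 0 < τ) (hv : 0 ≤ v) (hu : uz = (v : ℂ))
    (hvτ : v * τ ≤ Aψ) (hP : 0 ≤ P) (hR : 0 ≤ R) (hM : 0 ≤ M) (hδ : CA * δ ≤ ε)
    (hX : X ≤ CA * (AIz.re * d + DA * (τ * R)))
    (hB : ‖uz * BIz‖ * d ≤ CB * M) (hT : ‖TIz‖ * d ≤ δ * τ ^ 2 + CT * P) :
    v * X * d ≤ (ε * τ ^ 2 + CA * (CB + CT + DA * Aψ) * (P + R + M)) * d -
      CA * ((uz * (BIz - AIz) + TIz) * (d : ℂ) ^ 2).re := by
  have hA0' : 0 ≤ Aψ := (mul_nonneg hv hτ.le).trans hvτ
  have hA0 : 0 ≤ DA * Aψ := mul_nonneg hDA hA0'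
  have e1 : ((uz * (BIz - AIz) + TIz) * (d : ℂ) ^ 2).re =
      ((uz * BIz).re - v * AIz.re + TIz.re) * d ^ 2 := by
    have : (uz * (BIz - AIz) + TIz) * (d : ℂ) ^ 2 =
        (uz * BIz - (v : ℂ) * AIz + TIz) * ((d ^ 2 : ℝ) : ℂ) := by
      rw [hu]; push_cast; ring
    rw [this, Complex.re_mul_ofReal, Complex.add_re, Complex.sub_re, Complex.re_ofReal_mul]
  rw [e1]
  have h1 : v * X * d ≤ v * (CA * (AIz.re * d + DA * (τ * R))) * d := by gcongr
  have h2 : v * (CA * (AIz.re * d + DA * (τ * R))) * d =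
      CA * (v * AIz.re * d ^ 2) + CA * ((DA * (v * τ)) * R) * d := by ring
  have h3 : CA * ((DA * (v * τ)) * R) * d ≤ CA * ((DA * Aψ) * R) * d := by gcongr
  have h4 : (uz * BIz).re * d ^ 2 ≤ CB * M * d := by
    calc (uz * BIz).re * d ^ 2 ≤ ‖uz * BIz‖ * d ^ 2 := by
          gcongr; exact Complex.re_le_norm _
      _ = (‖uz * BIz‖ * d) * d := by ring
      _ ≤ _ := by gcongr
  have h5 : TIz.re * d ^ 2 ≤ (δ * τ ^ 2 + CT * P) * d := by
    calc TIz.re * d ^ 2 ≤ ‖TIz‖ * d ^ 2 := by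
          gcongr; exact Complex.re_le_norm _
      _ = (‖TIz‖ * d) * d := by ring
      _ ≤ _ := by gcongr
  have h6 : CA * ((uz * BIz).re * d ^ 2 + TIz.re * d ^ 2) ≤
      CA * (CB * M * d + (δ * τ ^ 2 + CT * P) * d) := by gcongr
  have h7 : CA * (δ * τ ^ 2) * d ≤ ε * τ ^ 2 * d := by
    have : CA * (δ * τ ^ 2) * d = (CA * δ) * (τ ^ 2 * d) := by ring
    rw [this, mul_assoc ε]
    exact mul_le_mul_of_nonneg_right hδ (by positivity)
  have h9 : CB * M + CT * P + DA * Aψ * R ≤ (CB + CT + DA * Aψ) * (P + R + M) := by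
    have q1 := mul_nonneg hCB hP
    have q2 := mul_nonneg hCB hR
    have q3 := mul_nonneg hCT hR
    have q4 := mul_nonneg hCT hM
    have q5 := mul_nonneg hA0 hP
    have q6 := mul_nonneg hA0 hM
    have q7 : (CB + CT + DA * Aψ) * (P + R + M) = (CB * M + CT * P + DA * Aψ * R) +
        (CB * P + CB * R + CT * R + CT * M + DA * Aψ * P + DA * Aψ * M) := by ring
    rw [q7]; linarith
  have h8 : CA * (CB * M + CT * P + DA * Aψ * R) * d ≤ CA * (CB + CT + DA * Aψ) * (P + R + M) * d := by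
    have q : CA * (CB + CT + DA * Aψ) * (P + R + M) * d =
        CA * ((CB + CT + DA * Aψ) * (P + R + M)) * d := by ring
    rw [q]
    exact mul_le_mul_of_nonneg_right (mul_le_mul_of_nonneg_left h9 hCA) hd.le
  have f1 : CA * (CB * M * d + (δ * τ ^ 2 + CT * P) * d) = CA * (CB * M + CT * P) * d +
      CA * (δ * τ ^ 2) * d := by ring
  have f2 : CA * (CB * M + CT * P + DA * Aψ * R) * d = CA * (CB * M + CT * P) * d +
      CA * (DA * Aψ * R) * d := by ring
  have f3 : (ε * τ ^ 2 + CA * (CB + CT + DA * Aψ) * (P + R + M)) * d -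
      CA * (((uz * BIz).re - v * AIz.re + TIz.re) * d ^ 2) =
      ε * τ ^ 2 * d + CA * (CB + CT + DA * Aψ) * (P + R + M) * d -
      CA * ((uz * BIz).re * d ^ 2 + TIz.re * d ^ 2) + CA * (v * AIz.re * d ^ 2) := by ring
  rw [f3]
  linarith

end Vale.Agent.P272.K.T4.L5
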