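import Vale.Agent.P272.K.T4.L5Local

/-!
# T4, block L5: the local estimate, assembly
-/

open scoped Manifold ContDiff ComplexOrder Topology
open Complex Set Filter MeasureTheory

noncomputable section

namespace Vale.Agent.P272.K.T4.L5

variable {n : ℕ}

theorem localL5_of (hIdent : Ident n) (hBB : BBound n) (hAA : ABound n) (hTT : TBound n) :
    LocalL5 n := by
  intro χ hχ U hU h hh hneg ψ hψs hψc hψU hψ0 ε hε
  rcases Nat.eq_zero_or_pos n with hn0 | hn
  · subst hn0
    refine ⟨0, le_rfl, fun g hg hgc hric => ?_⟩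
    have hT : ∀ z, Tl g h z = 0 := fun z => by
      unfold Tl; simp [Matrix.trace]
    simp only [hT, div_zero, zero_mul, mul_zero, integral_zero]
    simp
  have hψ : Cut U ψ := ⟨hψs, hψc, hψU, hψ0⟩
  obtain ⟨CA, DA, hCA, hDA, hA⟩ := hAA hn χ hχ U hU h hh hneg ψ hψ
  obtain ⟨CB, hCB, hB⟩ := hBB hn χ hχ U hU h hh ψ hψ
  obtain ⟨CT, hCT, hT⟩ := hTT hn χ hχ U hU h hh ψ hψ (ε / (CA + 1)) (by positivity)
  obtain ⟨Aψ, hAψ1, hCon⟩ := exists_consts hU hh hψ
  refine ⟨CA * (CB + CT + DA * Aψ), by positivity, fun g hg hgc hric => ?_⟩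
  have hgl : LocMet U g := ⟨hU, hg.smooth, hg.pos, hgc⟩
  obtain ⟨hZi, hZ0⟩ := hIdent hn χ hχ U g h hgl hh ψ hψ
  set K := tsupport ψ with hK
  have hKc : IsCompact K := hψc
  have hKm : MeasurableSet K := hKc.measurableSet
  set Z : Cm n → ℂ := fun z => (uu ψ g h z * (BI χ g h z - AI χ g h z) + TI χ ψ g h z) *
    (g z).det ^ 2 with hZ
  -- `Z` vanishes off `K`
  have hu0 : ∀ z, z ∉ K → uu ψ g h z = 0 := fun z hz => by
    unfold uu; rw [image_eq_zero_of_notMem_tsupport hz]; simp
  have hZK : ∀ z, z ∉ K → Z z = 0 := by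
    intro z hz
    have hev : uu ψ g h =ᶠ[𝓝 z] fun _ => 0 := by
      filter_upwards [(isClosed_tsupport ψ).isOpen_compl.mem_nhds hz] with y hy using hu0 y hy
    have e2 : TI χ ψ g h z = 0 := by
      unfold TI thr
      simp only [hu0 z hz, dzb_zero_of hev, mul_zero, zero_mul, Finset.sum_const_zero, add_zero,
        sub_zero, integral_zero]
    simp only [hZ, hu0 z hz, e2]
    ring
  have hZre : ∫ z in K, (Z z).re = 0 := by
    have e1 : ∫ z in K, (Z z).re = ∫ z, (Z z).re :=
      setIntegral_eq_integral_of_forall_compl_eq_zero fun z hz => by rw [hZK z hz]; simp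
    rw [e1]
    have e2 : ∫ z, (Z z).re = (∫ z, Z z).re := integral_re hZi
    rw [e2, hZ0]; simp
  have hZrei : IntegrableOn (fun z => (Z z).re) K := hZi.re.integrableOn
  -- continuity of the right-hand side
  set R : Cm n → ℝ := fun z => (ε * Tl g h z ^ 2 + CA * (CB + CT + DA * Aψ) *
    (El χ g (fun z w => Pl g h z w + Rl h z w) z + Ml g h z)) * (g z).det.re with hR
  have hRc : ContinuousOn R K := by
    intro z hz
    have hzU := hψU hz
    have c1 : ContinuousAt (Tl g h) z := (tl_smooth hgl hh hzU).continuousAt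
    have c2 : ContinuousAt (El χ g (fun z w => Pl g h z w + Rl h z w)) z :=
      El_contAt hχ hgl (fun z hz w => (Pl_contAt hgl hh hz w).add (Rl_contAt hh hz w)) hzU
    have c3 : ContinuousAt (Ml g h) z := Ml_contAt hgl hh hzU
    have c4 : ContinuousAt (fun y => (g y).det.re) z :=
      det_contAt fun i j => (hg.smooth z hzU i j).continuousAt
    exact ((((c1.pow 2).const_mul ε).add ((c2.add c3).const_mul
      (CA * (CB + CT + DA * Aψ)))).mul c4).continuousWithinAt
  have hRi : IntegrableOn R K := hRc.integrableOn_compact hKc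
  -- reduction to `K`
  set f : Cm n → ℝ := fun z => ψ z * (El χ g (Xl h) z / Tl g h z * (g z).det.re) with hf
  have hfK : ∫ z in U, f z = ∫ z in K, f z := by
    refine (setIntegral_eq_of_subset_of_forall_diff_eq_zero hU.measurableSet hψU ?_)
    intro z hz
    rw [hf]
    simp only []
    rw [image_eq_zero_of_notMem_tsupport hz.2, zero_mul]
  have hf0 : ∀ z ∈ K, 0 ≤ f z := by
    intro z hz
    have hzU := hψU hz
    have h1 : 0 ≤ El χ g (Xl h) z := El_nonneg hχ hgl hzU fun w =>
      quad_nonneg (hh.pos z hzU).posSemidef _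
    have h2 : 0 < Tl g h z := trace_pos hn (hg.pos z hzU) (hh.pos z hzU)
    have h3 := (det_re_pos' hgl hzU).1
    have h4 := hψ0 z
    simp only [hf]
    positivity
  have hle : ∀ z ∈ K, f z ≤ R z - CA * (Z z).re := by
    intro z hz
    have hzU := hψU hz
    have hτ : 0 < Tl g h z := trace_pos hn (hg.pos z hzU) (hh.pos z hzU)
    obtain ⟨hd, hdet⟩ := det_re_pos' hgl hzU
    have hPn : 0 ≤ El χ g (Pl g h) z := El_nonneg hχ hgl hzU fun w =>
      quad_nonneg (hh.pos z hzU).posSemidef _
    have hRn : 0 ≤ El χ g (Rl h) z := El_nonneg hχ hgl hzU fun w => by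
      have := hneg z hzU w
      unfold Rl; linarith
    have hMn : 0 ≤ Ml g h z := Ml_nonneg' hgl hh hzU (hric z hzU)
    have hEl : El χ g (fun z w => Pl g h z w + Rl h z w) z =
        El χ g (Pl g h) z + El χ g (Rl h) z :=
      El_add hχ hgl hzU (continuous_Pl g h z) (continuous_Rl h z)
    have hv : 0 ≤ ψ z / Tl g h z := div_nonneg (hψ0 z) hτ.le
    have hvτ : ψ z / Tl g h z * Tl g h z ≤ Aψ := by
      rw [div_mul_cancel₀ _ hτ.ne']
      exact (le_abs_self _).trans (hCon z hz).ps
    have hδ : CA * (ε / (CA + 1)) ≤ ε := by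
      rw [mul_div_assoc', div_le_iff₀ (by positivity)]
      nlinarith
    have key := local_pt (n := n) (ψ := ψ) (a := 0) (b := 0) (t := 0) (v := ψ z / Tl g h z)
      (τ := Tl g h z) (d := (g z).det.re) (X := El χ g (Xl h) z) (P := El χ g (Pl g h) z)
      (R := El χ g (Rl h) z) (M := Ml g h z) (BIz := BI χ g h z) (TIz := TI χ ψ g h z)
      (AIz := AI χ g h z) (uz := uu ψ g h z) hCA hDA hCB hCT hd hτ hv rfl hvτ hPn hRn hMn hδ
      (hA g hg z hz) (hB g hgl hric z hz) (hT g hgl z hz)
    simp only [hf, hR, hZ]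
    rw [hEl]
    have e1 : ψ z * (El χ g (Xl h) z / Tl g h z * (g z).det.re) =
        ψ z / Tl g h z * El χ g (Xl h) z * (g z).det.re := by
      field_simp
    rw [e1, hdet, Complex.ofReal_re]
    exact key
  rw [hfK]
  have hint : IntegrableOn (fun z => R z - CA * (Z z).re) K :=
    hRi.sub (hZrei.const_mul CA)
  have h1 : ∫ z in K, f z ≤ ∫ z in K, (R z - CA * (Z z).re) := by
    refine integral_mono_of_nonneg ?_ hint ?_
    · exact (ae_restrict_iff' hKm).2 (Eventually.of_forall fun z hz => hf0 z hz)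
    · exact (ae_restrict_iff' hKm).2 (Eventually.of_forall fun z hz => hle z hz)
  have h2 : ∫ z in K, (R z - CA * (Z z).re) = ∫ z in K, R z := by
    have e1 : ∫ z in K, (R z - CA * (Z z).re) =
        (∫ z in K, R z) - ∫ z in K, CA * (Z z).re := integral_sub hRi (hZrei.const_mul CA)
    rw [e1, integral_const_mul, hZre, mul_zero, sub_zero]
  rw [h2] at h1
  exact h1

end Vale.Agent.P272.K.T4.L5
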