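import Vale.Agent.P272.K.T4.L5If2
import Vale.Agent.P272.K.T4.Fun
import Vale.Agent.P272.K.T4.Mom
import Vale.Agent.P272.K.C2.Point

/-!
# T4, block L5: pointwise bounds
-/

open scoped Manifold ContDiff ComplexOrder Topology
open Complex Set Filter MeasureTheory

noncomputable section

namespace Vale.Agent.P272.K.T4.L5

variable {n : ℕ}

section lin
variable {G H : Matrix (Fin n) (Fin n) ℂ}

theorem trace_re_eq (hG : G.PosDef) (hH : H.PosSemidef) :
    (G⁻¹ * H).trace = (((G⁻¹ * H).trace.re : ℝ) : ℂ) ∧ 0 ≤ (G⁻¹ * H).trace.re := by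
  have := C2.trace_mul_nonneg hG.inv.posSemidef hH
  rw [Complex.le_def] at this
  refine ⟨Complex.ext (by simp) (by simpa using this.2.symm), by simpa using this.1⟩

/-- `h(w,w) ≤ tr_g h g(w,w)` -/
theorem quad_le_tr (hG : G.PosDef) (hH : H.PosSemidef) (w : Cm n) :
    (quad H w).re ≤ (G⁻¹ * H).trace.re * (quad G w).re := by
  obtain ⟨h1, -⟩ := trace_re_eq hG hH
  have h2 := quad_nonneg (C2.trace_smul_sub_posSemidef hG hH) w
  have h3 : quad ((G⁻¹ * H).trace • G - H) w = (((G⁻¹ * H).trace.re : ℝ) : ℂ) * quad G w -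
      quad H w := by
    rw [← h1]
    unfold quad
    rw [Finset.mul_sum, ← Finset.sum_sub_distrib]
    refine Finset.sum_congr rfl fun i _ => ?_
    rw [Finset.mul_sum, ← Finset.sum_sub_distrib]
    refine Finset.sum_congr rfl fun j _ => ?_
    rw [Matrix.sub_apply, Matrix.smul_apply, smul_eq_mul]; ring
  rw [h3, Complex.sub_re, Complex.re_ofReal_mul] at h2
  linarith

theorem trace_pos (hn : 0 < n) (hG : G.PosDef) (hH : H.PosDef) : 0 < (G⁻¹ * H).trace.re := by
  haveI : Nonempty (Fin n) := ⟨⟨0, hn⟩⟩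
  have := C2.trace_mul_pos hG.inv hH
  rw [Complex.lt_def] at this
  simpa using this.1

end lin

/-! ### bounds on compact sets -/

theorem exists_bound_fin {ι : Type*} [Fintype ι] {K : Set (Cm n)} (hK : IsCompact K)
    {f : ι → Cm n → ℂ} (hf : ∀ i, ContinuousOn (f i) K) :
    ∃ A : ℝ, 0 ≤ A ∧ ∀ i, ∀ z ∈ K, ‖f i z‖ ≤ A := by
  have h1 : ContinuousOn (fun z => fun i => f i z) K := continuousOn_pi.2 hf
  obtain ⟨A, hA⟩ := hK.exists_bound_of_continuousOn h1
  refine ⟨|A|, abs_nonneg _, fun i z hz => ?_⟩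
  exact (norm_le_pi_norm (fun i => f i z) i).trans ((hA z hz).trans (le_abs_self A))

/-- constants for `h`, `ψ` on the support of `ψ` -/
structure Consts (h : Cm n → Matrix (Fin n) (Fin n) ℂ) (ψ : Cm n → ℝ) (A : ℝ) (z : Cm n) :
    Prop where
  cv : ∀ i j k l, ‖curv h z i j k l‖ ≤ A
  dcv : ∀ k i j a l, ‖dcv h z k i j a l‖ ≤ A
  ps : |ψ z| ≤ A
  dps : ∀ k, ‖dzb k (fun y => (ψ y : ℂ)) z‖ ≤ A
  gam : ∀ i k m, ‖P1.Gam h i z k m‖ ≤ A
  he : ∀ i j, ‖h z i j‖ ≤ A
  low : ∀ w : Cm n, ‖w‖ ^ 2 ≤ A * (quad (h z) w).re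
  itr : ((h z)⁻¹).trace.re ≤ A

theorem Consts.mono {h : Cm n → Matrix (Fin n) (Fin n) ℂ} {ψ : Cm n → ℝ} {A B : ℝ} {z : Cm n}
    (H : Consts h ψ A z) (hpos : (h z).PosDef) (hAB : A ≤ B) : Consts h ψ B z where
  cv := fun i j k l => (H.cv i j k l).trans hAB
  dcv := fun k i j a l => (H.dcv k i j a l).trans hAB
  ps := H.ps.trans hAB
  dps := fun k => (H.dps k).trans hAB
  gam := fun i k m => (H.gam i k m).trans hAB
  he := fun i j => (H.he i j).trans hAB
  low := fun w => (H.low w).trans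
    (mul_le_mul_of_nonneg_right hAB (quad_nonneg hpos.posSemidef w))
  itr := H.itr.trans hAB

theorem exists_consts {U : Set (Cm n)} (hU : IsOpen U) {h : Cm n → Matrix (Fin n) (Fin n) ℂ}
    (hh : SmPos U h) {ψ : Cm n → ℝ} (hψ : Cut U ψ) :
    ∃ A : ℝ, 1 ≤ A ∧ ∀ z ∈ tsupport ψ, Consts h ψ A z := by
  have hK : IsCompact (tsupport ψ) := hψ.compact
  have hdet : ∀ z ∈ U, (h z).det ≠ 0 := fun z hz => (hh.pos z hz).det_pos.ne'
  have hcv : ∀ z ∈ U, ∀ i j k l, ContDiffAt ℝ ∞ (fun y => curv h y i j k l) z :=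
    fun z hz i j k l => contDiffAt_curv (hh.smooth z hz) (hdet z hz) i j k l
  obtain ⟨A1, hA1, b1⟩ := exists_bound_fin (ι := Fin n × Fin n × Fin n × Fin n) hK
    (f := fun i z => curv h z i.1 i.2.1 i.2.2.1 i.2.2.2)
    (fun i z hz => (hcv z (hψ.supp hz) _ _ _ _).continuousAt.continuousWithinAt)
  obtain ⟨A2, hA2, b2⟩ := exists_bound_fin (ι := Fin n × Fin n × Fin n × Fin n × Fin n) hK
    (f := fun i z => L5.dcv h z i.1 i.2.1 i.2.2.1 i.2.2.2.1 i.2.2.2.2)
    (fun i z hz => (INT.smooth_dzb (hcv z (hψ.supp hz) _ _ _ _)).continuousAt.continuousWithinAt)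
  obtain ⟨A3, hA3, b3⟩ := exists_bound_fin (ι := Unit) hK (f := fun _ z => (ψ z : ℂ))
    (fun _ => (Complex.continuous_ofReal.comp hψ.smooth.continuous).continuousOn)
  obtain ⟨A4, hA4, b4⟩ := exists_bound_fin (ι := Fin n) hK
    (f := fun k z => dzb k (fun y => (ψ y : ℂ)) z)
    (fun k z hz => (INT.smooth_dzb ((Complex.ofRealCLM.contDiff.comp hψ.smooth).contDiffAt
      (x := z))).continuousAt.continuousWithinAt)
  have hinv : ∀ z ∈ U, ∀ i j, ContDiffAt ℝ ∞ (fun y => (h y)⁻¹ i j) z := fun z hz i j =>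
    contDiffAt_inv (hh.smooth z hz) (hdet z hz) i j
  have hgam : ∀ z ∈ U, ∀ i k m, ContDiffAt ℝ ∞ (fun y => P1.Gam h i y k m) z := by
    intro z hz i k m
    have : (fun y => P1.Gam h i y k m) = fun y => ∑ q, dz i (fun y => h y k q) y * (h y)⁻¹ q m := by
      funext y; rw [P1.Gam, Matrix.mul_apply]; rfl
    rw [this]
    exact ContDiffAt.sum fun q _ => (INT.smooth_dz (hh.smooth z hz k q)).mul (hinv z hz q m)
  obtain ⟨A5, hA5, b5⟩ := exists_bound_fin (ι := Fin n × Fin n × Fin n) hK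
    (f := fun i z => P1.Gam h i.1 z i.2.1 i.2.2)
    (fun i z hz => (hgam z (hψ.supp hz) _ _ _).continuousAt.continuousWithinAt)
  obtain ⟨A6, hA6, b6⟩ := exists_bound_fin (ι := Fin n × Fin n) hK
    (f := fun i z => h z i.1 i.2)
    (fun i z hz => (hh.smooth z (hψ.supp hz) _ _).continuousAt.continuousWithinAt)
  obtain ⟨A7, hA7, b7⟩ := exists_lower hK (g := h)
    (fun i j z hz => (hh.smooth z (hψ.supp hz) i j).continuousAt.continuousWithinAt)
    (fun z hz => hh.pos z (hψ.supp hz))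
  obtain ⟨A8, hA8, b8⟩ := exists_bound_fin (ι := Unit) hK (f := fun _ z => ((h z)⁻¹).trace)
    (fun _ z hz => by
      have : ContinuousAt (fun z => ((h z)⁻¹).trace) z := by
        unfold Matrix.trace
        exact tendsto_finset_sum _ fun i _ => (hinv z (hψ.supp hz) i i).continuousAt
      exact this.continuousWithinAt)
  set A : ℝ := 1 + A1 + A2 + A3 + A4 + A5 + A6 + A7 + A8 with hA
  refine ⟨A, by linarith, fun z hz => ⟨?_, ?_, ?_, ?_, ?_, ?_, ?_, ?_⟩⟩
  · exact fun i j k l => (b1 (i, j, k, l) z hz).trans (by linarith)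
  · exact fun k i j a l => (b2 (k, i, j, a, l) z hz).trans (by linarith)
  · have := b3 () z hz
    rw [Complex.norm_real] at this
    exact this.trans (by linarith)
  · exact fun k => (b4 k z hz).trans (by linarith)
  · exact fun i k m => (b5 (i, k, m) z hz).trans (by linarith)
  · exact fun i j => (b6 (i, j) z hz).trans (by linarith)
  · intro w
    exact (b7 z hz w).trans (mul_le_mul_of_nonneg_right (by linarith)
      (quad_nonneg (hh.pos z (hψ.supp hz)).posSemidef w))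
  · have := b8 () z hz
    exact (Complex.re_le_norm _).trans (this.trans (by linarith))

end Vale.Agent.P272.K.T4.L5
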