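import Vale.Agent.P272.K.T4.L5Fib
import Vale.Agent.P272.K.T4.L5Alg
import Vale.Agent.P272.K.C2.PosLin

/-!
# T4, block L5: the term with the curvature of the Kähler metric
-/

open scoped Manifold ContDiff ComplexOrder Topology
open Complex Set Filter MeasureTheory

noncomputable section

namespace Vale.Agent.P272.K.T4.L5

variable {n : ℕ}

/-! ### fibre derivatives of `β` -/

/-- `∂β_p/∂w_m` -/
def dbe (R : Fin n → Fin n → Fin n → Fin n → ℂ) (w : Cm n) (m p : Fin n) : ℂ :=
  (∑ j, ∑ l, R m j p l * (cj (w j) * cj (w l)) - ∑ j, ∑ l, R p j m l * (cj (w j) * cj (w l))) / 2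

/-- `∂bz_p/∂w̄_m` -/
def tbz (R : Fin n → Fin n → Fin n → Fin n → ℂ) (w : Cm n) (m p : Fin n) : ℂ :=
  ∑ i, ∑ l, R i m p l * (w i * cj (w l)) + ∑ i, ∑ j, R i j p m * (w i * cj (w j))

/-- `∂bz'_p/∂w̄_m` -/
def tbz' (R : Fin n → Fin n → Fin n → Fin n → ℂ) (w : Cm n) (m p : Fin n) : ℂ :=
  ∑ i, ∑ l, R p m i l * (w i * cj (w l)) + ∑ i, ∑ j, R p j i m * (w i * cj (w j))

/-- `∂β_p/∂w̄_m` -/
def tbe (R : Fin n → Fin n → Fin n → Fin n → ℂ) (w : Cm n) (m p : Fin n) : ℂ :=
  (tbz R w m p - tbz' R w m p) / 2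

theorem dbe_antisymm (R : Fin n → Fin n → Fin n → Fin n → ℂ) (w : Cm n) (m p : Fin n) :
    dbe R w m p = -dbe R w p m := by
  rw [dbe, dbe]; ring

theorem dzb_coord (k i : Fin n) (w : Cm n) : dzb k (fun y : Cm n => y i) w = 0 :=
  dzb_of_holo (differentiableAt_apply i w)

theorem dzb_cj_coord (k i : Fin n) (w : Cm n) :
    dzb k (fun y : Cm n => cj (y i)) w = if k = i then 1 else 0 := by
  rw [dzb_cj (diff_coord i w), dz_coord]
  split_ifs <;> simp [cj]

theorem sum_ite_one (m : Fin n) (f : Fin n → ℂ) : ∑ i, (if m = i then 1 else 0) * f i = f m := by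
  rw [Finset.sum_eq_single m]
  · simp
  · intro i _ hi; simp [hi.symm]
  · simp

section deriv
variable (R : Fin n → Fin n → Fin n → Fin n → ℂ) (w : Cm n) (m p : Fin n)

theorem diff_term (i j l : Fin n) :
    DifferentiableAt ℝ (fun y : Cm n => y i * cj (y j) * cj (y l)) w :=
  ((diff_coord i w).fun_mul (diff_conj_coord j w)).fun_mul (diff_conj_coord l w)

theorem dz_term (i j l : Fin n) : dz m (fun y : Cm n => y i * cj (y j) * cj (y l)) w =
    (if m = i then 1 else 0) * (cj (w j) * cj (w l)) := by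
  rw [dz_mul ((diff_coord i w).fun_mul (diff_conj_coord j w)) (diff_conj_coord l w),
    dz_mul (diff_coord i w) (diff_conj_coord j w), dz_coord, dz_conj_coord, dz_conj_coord]
  ring

theorem dzb_term (i j l : Fin n) : dzb m (fun y : Cm n => y i * cj (y j) * cj (y l)) w =
    (if m = j then 1 else 0) * (w i * cj (w l)) + (if m = l then 1 else 0) * (w i * cj (w j)) := by
  rw [dzb_mul ((diff_coord i w).fun_mul (diff_conj_coord j w)) (diff_conj_coord l w),
    dzb_mul (diff_coord i w) (diff_conj_coord j w), dzb_coord, dzb_cj_coord, dzb_cj_coord]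
  ring

theorem diff_bz : DifferentiableAt ℝ (fun y => bz R y p) w := by
  unfold bz
  exact DifferentiableAt.fun_sum fun i _ => DifferentiableAt.fun_sum fun j _ =>
    DifferentiableAt.fun_sum fun l _ => (diff_term w i j l).const_mul _

theorem diff_bz' : DifferentiableAt ℝ (fun y => bz' R y p) w := by
  unfold bz'
  exact DifferentiableAt.fun_sum fun i _ => DifferentiableAt.fun_sum fun j _ =>
    DifferentiableAt.fun_sum fun l _ => (diff_term w i j l).const_mul _

theorem diff_beta : DifferentiableAt ℝ (fun y => beta R y p) w := by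
  have h : (fun y => beta R y p) = fun y => (2 : ℂ)⁻¹ * (bz R y p - bz' R y p) := by
    funext y; rw [beta]; ring
  rw [h]
  exact ((diff_bz R w p).fun_sub (diff_bz' R w p)).const_mul _

theorem dz_bz : dz m (fun y => bz R y p) w = ∑ j, ∑ l, R m j p l * (cj (w j) * cj (w l)) := by
  unfold bz
  rw [dz_sum _ fun i _ => DifferentiableAt.fun_sum fun j _ =>
    DifferentiableAt.fun_sum fun l _ => (diff_term w i j l).const_mul _]
  have h1 : ∀ i, dz m (fun y : Cm n => ∑ j, ∑ l, R i j p l * (y i * cj (y j) * cj (y l))) w =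
      (if m = i then 1 else 0) * ∑ j, ∑ l, R i j p l * (cj (w j) * cj (w l)) := by
    intro i
    rw [dz_sum _ fun j _ => DifferentiableAt.fun_sum fun l _ => (diff_term w i j l).const_mul _,
      Finset.mul_sum]
    refine Finset.sum_congr rfl fun j _ => ?_
    rw [dz_sum _ fun l _ => (diff_term w i j l).const_mul _, Finset.mul_sum]
    refine Finset.sum_congr rfl fun l _ => ?_
    rw [dz_const_mul _ (diff_term w i j l), dz_term]
    ring
  simp only [h1]
  exact sum_ite_one m _

theorem dz_bz' : dz m (fun y => bz' R y p) w = ∑ j, ∑ l, R p j m l * (cj (w j) * cj (w l)) := by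
  unfold bz'
  rw [dz_sum _ fun i _ => DifferentiableAt.fun_sum fun j _ =>
    DifferentiableAt.fun_sum fun l _ => (diff_term w i j l).const_mul _]
  have h1 : ∀ i, dz m (fun y : Cm n => ∑ j, ∑ l, R p j i l * (y i * cj (y j) * cj (y l))) w =
      (if m = i then 1 else 0) * ∑ j, ∑ l, R p j i l * (cj (w j) * cj (w l)) := by
    intro i
    rw [dz_sum _ fun j _ => DifferentiableAt.fun_sum fun l _ => (diff_term w i j l).const_mul _,
      Finset.mul_sum]
    refine Finset.sum_congr rfl fun j _ => ?_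
    rw [dz_sum _ fun l _ => (diff_term w i j l).const_mul _, Finset.mul_sum]
    refine Finset.sum_congr rfl fun l _ => ?_
    rw [dz_const_mul _ (diff_term w i j l), dz_term]
    ring
  simp only [h1]
  exact sum_ite_one m _

theorem dz_beta : dz m (fun y => beta R y p) w = dbe R w m p := by
  have h : (fun y => beta R y p) = fun y => (2 : ℂ)⁻¹ * (bz R y p - bz' R y p) := by
    funext y; rw [beta]; ring
  rw [h, dz_const_mul _ ((diff_bz R w p).fun_sub (diff_bz' R w p)), dz_sub (diff_bz R w p)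
    (diff_bz' R w p), dz_bz, dz_bz', dbe]
  ring

theorem dzb_bz : dzb m (fun y => bz R y p) w = tbz R w m p := by
  unfold bz tbz
  rw [dzb_sum _ fun i _ => DifferentiableAt.fun_sum fun j _ =>
    DifferentiableAt.fun_sum fun l _ => (diff_term w i j l).const_mul _, ← Finset.sum_add_distrib]
  refine Finset.sum_congr rfl fun i _ => ?_
  rw [dzb_sum _ fun j _ => DifferentiableAt.fun_sum fun l _ => (diff_term w i j l).const_mul _]
  have h1 : ∀ j, dzb m (fun y : Cm n => ∑ l, R i j p l * (y i * cj (y j) * cj (y l))) w =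
      (if m = j then 1 else 0) * (∑ l, R i j p l * (w i * cj (w l))) +
        R i j p m * (w i * cj (w j)) := by
    intro j
    rw [dzb_sum _ fun l _ => (diff_term w i j l).const_mul _, Finset.mul_sum]
    have h2 : ∀ l, dzb m (fun y : Cm n => R i j p l * (y i * cj (y j) * cj (y l))) w =
        (if m = j then 1 else 0) * (R i j p l * (w i * cj (w l))) +
          (if m = l then 1 else 0) * (R i j p l * (w i * cj (w j))) := by
      intro l
      rw [dzb_const_mul _ (diff_term w i j l), dzb_term]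
      ring
    simp only [h2, Finset.sum_add_distrib]
    congr 1
    exact sum_ite_one m fun l => R i j p l * (w i * cj (w j))
  simp only [h1, Finset.sum_add_distrib]
  congr 1
  exact sum_ite_one m fun j => ∑ l, R i j p l * (w i * cj (w l))

theorem dzb_bz' : dzb m (fun y => bz' R y p) w = tbz' R w m p := by
  unfold bz' tbz'
  rw [dzb_sum _ fun i _ => DifferentiableAt.fun_sum fun j _ =>
    DifferentiableAt.fun_sum fun l _ => (diff_term w i j l).const_mul _, ← Finset.sum_add_distrib]
  refine Finset.sum_congr rfl fun i _ => ?_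
  rw [dzb_sum _ fun j _ => DifferentiableAt.fun_sum fun l _ => (diff_term w i j l).const_mul _]
  have h1 : ∀ j, dzb m (fun y : Cm n => ∑ l, R p j i l * (y i * cj (y j) * cj (y l))) w =
      (if m = j then 1 else 0) * (∑ l, R p j i l * (w i * cj (w l))) +
        R p j i m * (w i * cj (w j)) := by
    intro j
    rw [dzb_sum _ fun l _ => (diff_term w i j l).const_mul _, Finset.mul_sum]
    have h2 : ∀ l, dzb m (fun y : Cm n => R p j i l * (y i * cj (y j) * cj (y l))) w =
        (if m = j then 1 else 0) * (R p j i l * (w i * cj (w l))) +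
          (if m = l then 1 else 0) * (R p j i l * (w i * cj (w j))) := by
      intro l
      rw [dzb_const_mul _ (diff_term w i j l), dzb_term]
      ring
    simp only [h2, Finset.sum_add_distrib]
    congr 1
    exact sum_ite_one m fun l => R p j i l * (w i * cj (w j))
  simp only [h1, Finset.sum_add_distrib]
  congr 1
  exact sum_ite_one m fun j => ∑ l, R p j i l * (w i * cj (w l))

theorem dzb_beta : dzb m (fun y => beta R y p) w = tbe R w m p := by
  have h : (fun y => beta R y p) = fun y => (2 : ℂ)⁻¹ * (bz R y p - bz' R y p) := by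
    funext y; rw [beta]; ring
  rw [h, dzb_const_mul _ ((diff_bz R w p).fun_sub (diff_bz' R w p)), dzb_sub (diff_bz R w p)
    (diff_bz' R w p), dzb_bz, dzb_bz', tbe]
  ring

end deriv

theorem contDiff_beta (R : Fin n → Fin n → Fin n → Fin n → ℂ) (p : Fin n) :
    ContDiff ℝ ∞ fun y : Cm n => beta R y p := by
  unfold beta bz bz'
  refine ContDiff.div_const (ContDiff.sub ?_ ?_) 2 <;>
  exact ContDiff.sum fun i _ => ContDiff.sum fun j _ => ContDiff.sum fun l _ =>
    contDiff_const.mul (((contDiff_coord _).mul (contDiff_cj_coord _)).mul (contDiff_cj_coord _))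

theorem norm_sum2_le {M : ℝ} {f : Fin n → Fin n → ℂ} (hf : ∀ i j, ‖f i j‖ ≤ M) :
    ‖∑ i, ∑ j, f i j‖ ≤ n ^ 2 * M := by
  calc ‖∑ i, ∑ j, f i j‖ ≤ ∑ _i : Fin n, ∑ _j : Fin n, M :=
        (norm_sum_le _ _).trans (Finset.sum_le_sum fun i _ => (norm_sum_le _ _).trans
          (Finset.sum_le_sum fun j _ => hf i j))
    _ = _ := by
        simp only [Finset.sum_const, Finset.card_univ, Fintype.card_fin, nsmul_eq_mul]; ring

theorem norm_tbe_le {R : Fin n → Fin n → Fin n → Fin n → ℂ} {M : ℝ}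
    (hM : ∀ i j k l, ‖R i j k l‖ ≤ M) (w : Cm n) (m p : Fin n) :
    ‖tbe R w m p‖ ≤ 2 * n ^ 2 * (M * ‖w‖ ^ 2) := by
  have h : ∀ (a : ℂ), ‖a‖ ≤ M → ∀ i j, ‖a * (w i * cj (w j))‖ ≤ M * ‖w‖ ^ 2 := by
    intro a ha i j
    have hM0 : 0 ≤ M := (norm_nonneg _).trans ha
    rw [norm_mul, norm_mul, cj, Complex.norm_conj]
    refine mul_le_mul ha ?_ (by positivity) hM0
    calc ‖w i‖ * ‖w j‖ ≤ ‖w‖ * ‖w‖ := by gcongr <;> exact norm_le_pi_norm w _
      _ = _ := by ring
  have h1 : ‖tbz R w m p‖ ≤ n ^ 2 * (M * ‖w‖ ^ 2) + n ^ 2 * (M * ‖w‖ ^ 2) := by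
    unfold tbz
    exact (norm_add_le _ _).trans (add_le_add
      (norm_sum2_le fun i l => h _ (hM _ _ _ _) _ _) (norm_sum2_le fun i l => h _ (hM _ _ _ _) _ _))
  have h2 : ‖tbz' R w m p‖ ≤ n ^ 2 * (M * ‖w‖ ^ 2) + n ^ 2 * (M * ‖w‖ ^ 2) := by
    unfold tbz'
    exact (norm_add_le _ _).trans (add_le_add
      (norm_sum2_le fun i l => h _ (hM _ _ _ _) _ _) (norm_sum2_le fun i l => h _ (hM _ _ _ _) _ _))
  have h3 := norm_sub_le (tbz R w m p) (tbz' R w m p)
  rw [tbe, norm_div]
  have : ‖(2 : ℂ)‖ = 2 := by norm_num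
  rw [this]
  linarith

end Vale.Agent.P272.K.T4.L5
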