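import Vale.Agent.P272.K.T4.L5Pt
import Vale.Agent.P272.K.C2.ChernLu

/-!
# T4, block L5: the error terms
-/

open scoped Manifold ContDiff ComplexOrder Topology
open Complex Set Filter MeasureTheory

noncomputable section

namespace Vale.Agent.P272.K.T4.L5

variable {n : ℕ}

/-! ### real inequalities -/

theorem real_ineq {x s D τ A lam : ℝ} (hs : 0 ≤ s) (hτ : 0 < τ) (hA : 0 ≤ A)
    (hlam : 0 < lam) (hxτ : x ^ 2 ≤ A * τ) :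
    (x ^ 4 / τ + x ^ 3 * D / τ ^ 2 + x ^ 2 * s / τ) * s ≤
      lam * τ ^ 2 + lam * D ^ 2 / τ + ((A ^ 4 + A ^ 3) / lam + A) * s ^ 2 := by
  have h4 : x ^ 4 / τ ≤ A ^ 2 * τ := by
    rw [div_le_iff₀ hτ]
    calc x ^ 4 = x ^ 2 * x ^ 2 := by ring
      _ ≤ (A * τ) * (A * τ) := by gcongr
      _ = _ := by ring
  have h6 : x ^ 6 / τ ^ 3 ≤ A ^ 3 := by
    rw [div_le_iff₀ (by positivity)]
    calc x ^ 6 = (x ^ 2) ^ 3 := by ring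
      _ ≤ (A * τ) ^ 3 := by gcongr
      _ = _ := by ring
  have h2 : x ^ 2 / τ ≤ A := by
    rw [div_le_iff₀ hτ]; exact hxτ
  have t1 : x ^ 4 / τ * s ≤ lam * τ ^ 2 + A ^ 4 / lam * s ^ 2 := by
    have e1 : x ^ 4 / τ * s ≤ A ^ 2 * τ * s := by gcongr
    have e2 : A ^ 2 * τ * s ≤ lam * τ ^ 2 + A ^ 4 / lam * s ^ 2 := by
      have e3 : 0 ≤ (lam * τ - A ^ 2 * s / 2) ^ 2 := sq_nonneg _
      have e4 : lam * τ ^ 2 + A ^ 4 / lam * s ^ 2 - A ^ 2 * τ * s =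
          ((lam * τ - A ^ 2 * s / 2) ^ 2 + 3 / 4 * (A ^ 2 * s) ^ 2) / lam := by
        field_simp; ring
      have e5 : 0 ≤ ((lam * τ - A ^ 2 * s / 2) ^ 2 + 3 / 4 * (A ^ 2 * s) ^ 2) / lam := by
        positivity
      linarith
    linarith
  have t2 : x ^ 3 * D / τ ^ 2 * s ≤ lam * D ^ 2 / τ + A ^ 3 / lam * s ^ 2 := by
    have e2 : x ^ 3 * D / τ ^ 2 * s ≤ lam * D ^ 2 / τ + x ^ 6 / τ ^ 3 / lam * s ^ 2 := by
      have e4 : lam * D ^ 2 / τ + x ^ 6 / τ ^ 3 / lam * s ^ 2 - x ^ 3 * D / τ ^ 2 * s =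
          ((lam * D - x ^ 3 * s / (2 * τ)) ^ 2 + 3 / 4 * (x ^ 3 * s / τ) ^ 2) / (lam * τ) := by
        field_simp; ring
      have e5 : 0 ≤ ((lam * D - x ^ 3 * s / (2 * τ)) ^ 2 + 3 / 4 * (x ^ 3 * s / τ) ^ 2) /
          (lam * τ) := by positivity
      linarith
    have e3 : x ^ 6 / τ ^ 3 / lam * s ^ 2 ≤ A ^ 3 / lam * s ^ 2 := by gcongr
    linarith
  have t3 : x ^ 2 * s / τ * s ≤ A * s ^ 2 := by
    have : x ^ 2 * s / τ * s = x ^ 2 / τ * s ^ 2 := by field_simp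
    rw [this]; gcongr
  have : ((A ^ 4 + A ^ 3) / lam + A) * s ^ 2 =
      A ^ 4 / lam * s ^ 2 + A ^ 3 / lam * s ^ 2 + A * s ^ 2 := by ring
  rw [this, add_mul, add_mul]
  linarith

/-! ### the norm of `thr` -/

theorem chr_eq_Gam (h : Cm n → Matrix (Fin n) (Fin n) ℂ) (z w : Cm n) (m : Fin n) :
    chr h z w m = ∑ i, ∑ k, w i * w k * P1.Gam h i z k m := by
  unfold chr P1.Gam
  simp only [Matrix.mul_apply, C2.DM_apply]

theorem norm_chr_le {h : Cm n → Matrix (Fin n) (Fin n) ℂ} {ψ : Cm n → ℝ} {A : ℝ} {z : Cm n}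
    (hC : Consts h ψ A z) (w : Cm n) (m : Fin n) : ‖chr h z w m‖ ≤ n ^ 2 * (A * ‖w‖ ^ 2) := by
  rw [chr_eq_Gam]
  refine norm_sum2_le fun i k => ?_
  rw [norm_mul, norm_mul, mul_comm]
  have hA0 : 0 ≤ A := (norm_nonneg _).trans (hC.gam i k m)
  refine mul_le_mul (hC.gam i k m) ?_ (by positivity) hA0
  calc ‖w i‖ * ‖w k‖ ≤ ‖w‖ * ‖w‖ := by gcongr <;> exact norm_le_pi_norm w _
    _ = _ := by ring

theorem norm_sum1_le {M : ℝ} {f : Fin n → ℂ} (hf : ∀ i, ‖f i‖ ≤ M) : ‖∑ i, f i‖ ≤ n * M := by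
  calc ‖∑ i, f i‖ ≤ ∑ _i : Fin n, M := (norm_sum_le _ _).trans (Finset.sum_le_sum fun i _ => hf i)
    _ = _ := by simp

theorem norm_thr_le {g h : Cm n → Matrix (Fin n) (Fin n) ℂ} {ψ : Cm n → ℝ} {A τ D : ℝ} {z : Cm n}
    (hA : 0 ≤ A) (hC : Consts h ψ A z) (hτ : 0 < τ) (hu : ‖uu ψ g h z‖ ≤ A / τ)
    (w : Cm n) (hD0 : 0 ≤ D)
    (hdu : ‖∑ k, cj (w k) * dzb k (uu ψ g h) z‖ ≤ n * (‖w‖ * A) / τ + A * D / τ ^ 2) :
    ‖thr ψ g h z w‖ ≤ (n * (2 * n ^ 4 * A ^ 2 + 2 * n ^ 5 * A ^ 3 + 3 * n ^ 3 * A ^ 2)) *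
      ((‖w‖ ^ 4 / τ + ‖w‖ ^ 3 * D / τ ^ 2 + ‖w‖ ^ 2 * ‖P1.dGam g h z w‖ / τ) *
        ‖P1.dGam g h z w‖) := by
  set x := ‖w‖ with hx
  set s := ‖P1.dGam g h z w‖ with hs
  have hx0 : 0 ≤ x := norm_nonneg _
  have hs0 : 0 ≤ s := norm_nonneg _
  have hS : ∀ p, ‖P1.dGam g h z w p‖ ≤ s := fun p => norm_le_pi_norm _ p
  have hwk : ∀ k, ‖cj (w k)‖ ≤ x := fun k => by
    rw [cj, Complex.norm_conj]; exact norm_le_pi_norm w k
  have hchr : ∀ m, ‖cj (chr g z w m)‖ ≤ n ^ 2 * (A * x ^ 2) + s := fun m => by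
    rw [cj, Complex.norm_conj]
    have : chr g z w m = chr h z w m - P1.dGam g h z w m := by
      rw [dGam_eq]; simp
    rw [this]
    exact (norm_sub_le _ _).trans (add_le_add (norm_chr_le hC w m) (hS m))
  have hb : ∀ p, ‖beta (curv h z) w p‖ ≤ n ^ 3 * (A * x ^ 3) := fun p =>
    norm_beta_le hC.cv p
  have hbd : ∀ p, ‖∑ k, cj (w k) * beta (dcv h z k) w p‖ ≤ n * (x * (n ^ 3 * (A * x ^ 3))) :=
    fun p => norm_sum1_le fun k => by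
      rw [norm_mul]
      exact mul_le_mul (hwk k) (norm_beta_le (hC.dcv k) p) (norm_nonneg _) hx0
  have ht : ∀ p, ‖∑ m, cj (chr g z w m) * tbe (curv h z) w m p‖ ≤
      n * ((n ^ 2 * (A * x ^ 2) + s) * (2 * n ^ 2 * (A * x ^ 2))) := fun p =>
    norm_sum1_le fun m => by
      rw [norm_mul]
      exact mul_le_mul (hchr m) (norm_tbe_le hC.cv w m p) (norm_nonneg _) (by positivity)
  have hterm : ∀ p, ‖((∑ k, cj (w k) * dzb k (uu ψ g h) z) * beta (curv h z) w p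
      + uu ψ g h z * (∑ k, cj (w k) * beta (dcv h z k) w p)
      - uu ψ g h z * (∑ m, cj (chr g z w m) * tbe (curv h z) w m p)) * P1.dGam g h z w p‖ ≤
      ((n * (x * A) / τ + A * D / τ ^ 2) * (n ^ 3 * (A * x ^ 3)) +
        (A / τ) * (n * (x * (n ^ 3 * (A * x ^ 3)))) +
        (A / τ) * (n * ((n ^ 2 * (A * x ^ 2) + s) * (2 * n ^ 2 * (A * x ^ 2))))) * s := by
    intro p
    rw [norm_mul]
    refine mul_le_mul ?_ (hS p) (norm_nonneg _) (by positivity)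
    refine (norm_sub_le _ _).trans (add_le_add ((norm_add_le _ _).trans (add_le_add ?_ ?_)) ?_)
    · rw [norm_mul]
      exact mul_le_mul hdu (hb p) (norm_nonneg _) (by positivity)
    · rw [norm_mul]
      exact mul_le_mul hu (hbd p) (norm_nonneg _) (by positivity)
    · rw [norm_mul]
      exact mul_le_mul hu (ht p) (norm_nonneg _) (by positivity)
  refine (norm_sum1_le hterm).trans ?_
  have e1 : (n : ℝ) * (((n * (x * A) / τ + A * D / τ ^ 2) * (n ^ 3 * (A * x ^ 3)) +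
        (A / τ) * (n * (x * (n ^ 3 * (A * x ^ 3)))) +
        (A / τ) * (n * ((n ^ 2 * (A * x ^ 2) + s) * (2 * n ^ 2 * (A * x ^ 2))))) * s) =
      (n * (2 * n ^ 4 * A ^ 2 + 2 * n ^ 5 * A ^ 3)) * (x ^ 4 / τ * s) +
      (n * (n ^ 3 * A ^ 2)) * (x ^ 3 * D / τ ^ 2 * s) +
      (n * (2 * n ^ 3 * A ^ 2)) * (x ^ 2 * s / τ * s) := by
    field_simp
    ring
  rw [e1]
  have p1 : 0 ≤ x ^ 4 / τ * s := by positivity
  have p2 : 0 ≤ x ^ 3 * D / τ ^ 2 * s := by positivity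
  have p3 : 0 ≤ x ^ 2 * s / τ * s := by positivity
  have n0 : (0 : ℝ) ≤ n := Nat.cast_nonneg n
  have q1 : (n : ℝ) * (2 * n ^ 4 * A ^ 2 + 2 * n ^ 5 * A ^ 3) ≤
      n * (2 * n ^ 4 * A ^ 2 + 2 * n ^ 5 * A ^ 3 + 3 * n ^ 3 * A ^ 2) := by
    refine mul_le_mul_of_nonneg_left ?_ n0
    have : (0 : ℝ) ≤ 3 * n ^ 3 * A ^ 2 := by positivity
    linarith
  have q2 : (n : ℝ) * (n ^ 3 * A ^ 2) ≤
      n * (2 * n ^ 4 * A ^ 2 + 2 * n ^ 5 * A ^ 3 + 3 * n ^ 3 * A ^ 2) := by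
    refine mul_le_mul_of_nonneg_left ?_ n0
    have a1 : (0 : ℝ) ≤ n ^ 3 * A ^ 2 := by positivity
    have a2 : (0 : ℝ) ≤ 2 * n ^ 4 * A ^ 2 := by positivity
    have a3 : (0 : ℝ) ≤ 2 * n ^ 5 * A ^ 3 := by positivity
    linarith
  have q3 : (n : ℝ) * (2 * n ^ 3 * A ^ 2) ≤
      n * (2 * n ^ 4 * A ^ 2 + 2 * n ^ 5 * A ^ 3 + 3 * n ^ 3 * A ^ 2) := by
    refine mul_le_mul_of_nonneg_left ?_ n0
    have a1 : (0 : ℝ) ≤ n ^ 3 * A ^ 2 := by positivity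
    have a2 : (0 : ℝ) ≤ 2 * n ^ 4 * A ^ 2 := by positivity
    have a3 : (0 : ℝ) ≤ 2 * n ^ 5 * A ^ 3 := by positivity
    linarith
  calc _ ≤ (n * (2 * n ^ 4 * A ^ 2 + 2 * n ^ 5 * A ^ 3 + 3 * n ^ 3 * A ^ 2)) *
        (x ^ 4 / τ * s) +
      (n * (2 * n ^ 4 * A ^ 2 + 2 * n ^ 5 * A ^ 3 + 3 * n ^ 3 * A ^ 2)) *
        (x ^ 3 * D / τ ^ 2 * s) +
      (n * (2 * n ^ 4 * A ^ 2 + 2 * n ^ 5 * A ^ 3 + 3 * n ^ 3 * A ^ 2)) *
        (x ^ 2 * s / τ * s) := by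
        gcongr
    _ = _ := by ring

end Vale.Agent.P272.K.T4.L5
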