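import Vale.Agent.P272.K.T4.L5T

/-!
# T4, block L5: the error terms, the derivative of the trace
-/

open scoped Manifold ContDiff ComplexOrder Topology
open Complex Set Filter MeasureTheory

noncomputable section

namespace Vale.Agent.P272.K.T4.L5

variable {n : ℕ} {U : Set (Cm n)} {g h : Cm n → Matrix (Fin n) (Fin n) ℂ} {ψ : Cm n → ℝ}
  {z : Cm n}

theorem tl_smooth (hg : LocMet U g) (hh : SmPos U h) (hz : z ∈ U) :
    ContDiffAt ℝ ∞ (Tl g h) z := by
  have h1 : C2.MC ∞ (fun y => (g y)⁻¹) z := C2.MC.inv (hg.smooth z hz) (hg.det_ne hz)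
  have h2 : C2.MC ∞ (fun y => (g y)⁻¹ * h y) z := h1.mul (hh.smooth z hz)
  exact Complex.reCLM.contDiff.contDiffAt.comp z h2.trace

/-- the trace of `(Γ_h - Γ_g)(∂_k, ·)` -/
def dk (g h : Cm n → Matrix (Fin n) (Fin n) ℂ) (z : Cm n) (k : Fin n) : ℂ :=
  ((g z)⁻¹ * ((P1.Gam h k z - P1.Gam g k z) * h z)).trace

theorem dz_tl (hg : LocMet U g) (hh : SmPos U h) (hz : z ∈ U) (k : Fin n) :
    dz k (fun y => ((Tl g h y : ℝ) : ℂ)) z = dk g h z k := by
  have e1 : (fun y => ((Tl g h y : ℝ) : ℂ)) =ᶠ[𝓝 z] fun y => ((g y)⁻¹ * h y).trace := by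
    filter_upwards [hg.isOpen.mem_nhds hz] with y hy
    exact (trace_re_eq (hg.pos y hy) (hh.pos y hy).posSemidef).1.symm
  have hG1 : C2.MC 1 g z := C2.MC.mono (hg.smooth z hz) (by norm_cast)
  have hH1 : C2.MC 1 h z := C2.MC.mono (hh.smooth z hz) (by norm_cast)
  have hu : IsUnit (h z).det := isUnit_iff_ne_zero.2 (hh.pos z hz).det_pos.ne'
  rw [dz_congr e1, C2.dz_trace_inv_mul hG1 hH1 (hg.det_ne hz), dk, Matrix.trace_mul_comm]
  congr 2
  rw [C2.BM, Matrix.sub_mul, P1.Gam, P1.Gam, Matrix.mul_assoc (C2.DM k h z),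
    Matrix.nonsing_inv_mul _ hu, Matrix.mul_one]

theorem dzb_uu (hn : 0 < n) (hg : LocMet U g) (hh : SmPos U h) (hψ : Cut U ψ) (hz : z ∈ U)
    (k : Fin n) : dzb k (uu ψ g h) z = dzb k (fun y => (ψ y : ℂ)) z / (Tl g h z : ℂ) -
      (ψ z : ℂ) * cj (dk g h z k) / (Tl g h z : ℂ) ^ 2 := by
  have hτ : 0 < Tl g h z := trace_pos hn (hg.pos z hz) (hh.pos z hz)
  have hτ' : (Tl g h z : ℂ) ≠ 0 := by exact_mod_cast hτ.ne'
  have hT : DifferentiableAt ℝ (Tl g h) z := (tl_smooth hg hh hz).differentiableAt (by simp)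
  have hP : DifferentiableAt ℝ (fun y => (ψ y : ℂ)) z :=
    C2.differentiableAt_ofReal (hψ.smooth.differentiable (by simp) z)
  have hI : DifferentiableAt ℝ (fun y => ((((Tl g h y)⁻¹ : ℝ)) : ℂ)) z :=
    C2.differentiableAt_ofReal (hT.inv hτ.ne')
  have e0 : uu ψ g h = fun y => (ψ y : ℂ) * ((((Tl g h y)⁻¹ : ℝ)) : ℂ) := by
    funext y; rw [uu, div_eq_mul_inv]; push_cast; rfl
  rw [e0, dzb_mul hP hI]
  have e1 : dzb k (fun y => ((((Tl g h y)⁻¹ : ℝ)) : ℂ)) z =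
      ((-((Tl g h z) ^ 2)⁻¹ : ℝ) : ℂ) * dzb k (fun y => ((Tl g h y : ℝ) : ℂ)) z :=
    C2.dzb_comp_real k (hasDerivAt_inv hτ.ne') hT
  have e2 : dzb k (fun y => ((Tl g h y : ℝ) : ℂ)) z = cj (dk g h z k) := by
    rw [← dz_tl hg hh hz k]
    exact C2.dzb_real k hT
  rw [e1, e2]
  push_cast
  field_simp
  ring

theorem norm_uu_le (hn : 0 < n) (hg : LocMet U g) (hh : SmPos U h) (hz : z ∈ U) {A : ℝ}
    (hC : Consts h ψ A z) : ‖uu ψ g h z‖ ≤ A / Tl g h z := by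
  have hτ : 0 < Tl g h z := trace_pos hn (hg.pos z hz) (hh.pos z hz)
  rw [uu, Complex.norm_real, norm_div, Real.norm_of_nonneg hτ.le]
  exact div_le_div_of_nonneg_right hC.ps hτ.le

theorem norm_sum_dzb_uu (hn : 0 < n) (hg : LocMet U g) (hh : SmPos U h) (hψ : Cut U ψ)
    (hz : z ∈ U) {A : ℝ} (hC : Consts h ψ A z) (w : Cm n) :
    ‖∑ k, cj (w k) * dzb k (uu ψ g h) z‖ ≤ n * (‖w‖ * A) / Tl g h z +
      A * ‖∑ k, w k * dk g h z k‖ / Tl g h z ^ 2 := by
  have hτ : 0 < Tl g h z := trace_pos hn (hg.pos z hz) (hh.pos z hz)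
  have hτ' : (Tl g h z : ℂ) ≠ 0 := by exact_mod_cast hτ.ne'
  have e1 : ∑ k, cj (w k) * dzb k (uu ψ g h) z =
      (∑ k, cj (w k) * dzb k (fun y => (ψ y : ℂ)) z) / (Tl g h z : ℂ) -
        (ψ z : ℂ) * cj (∑ k, w k * dk g h z k) / (Tl g h z : ℂ) ^ 2 := by
    simp only [dzb_uu hn hg hh hψ hz, cj, map_sum, map_mul]
    rw [Finset.mul_sum, Finset.sum_div, Finset.sum_div, ← Finset.sum_sub_distrib]
    refine Finset.sum_congr rfl fun k _ => ?_
    field_simp
  rw [e1]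
  refine (norm_sub_le _ _).trans (add_le_add ?_ ?_)
  · rw [norm_div, Complex.norm_real, Real.norm_of_nonneg hτ.le]
    refine div_le_div_of_nonneg_right (norm_sum1_le fun k => ?_) hτ.le
    rw [norm_mul, cj, Complex.norm_conj]
    exact mul_le_mul (norm_le_pi_norm w k) (hC.dps k) (norm_nonneg _) (norm_nonneg _)
  · rw [norm_div, norm_mul, norm_pow, Complex.norm_real, Complex.norm_real,
      Real.norm_of_nonneg hτ.le, cj, Complex.norm_conj]
    exact div_le_div_of_nonneg_right (mul_le_mul_of_nonneg_right hC.ps (norm_nonneg _))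
      (by positivity)

/-! ### symmetric and antisymmetric parts -/

/-- symmetric part of `Γ_h - Γ_g` -/
def sg (g h : Cm n → Matrix (Fin n) (Fin n) ℂ) (z : Cm n) (k : Fin n) :
    Matrix (Fin n) (Fin n) ℂ :=
  Matrix.of fun i m => ((P1.Gam h k z - P1.Gam g k z) i m + (P1.Gam h i z - P1.Gam g i z) k m) / 2

/-- antisymmetric part of `Γ_h - Γ_g` -/
def tg (g h : Cm n → Matrix (Fin n) (Fin n) ℂ) (z : Cm n) (k : Fin n) :
    Matrix (Fin n) (Fin n) ℂ :=
  Matrix.of fun i m => ((P1.Gam h k z - P1.Gam g k z) i m - (P1.Gam h i z - P1.Gam g i z) k m) / 2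

theorem sg_symm (k i m : Fin n) : sg g h z k i m = sg g h z i k m := by
  simp only [sg, Matrix.of_apply]; ring

theorem sg_add_tg (k : Fin n) : sg g h z k + tg g h z k = P1.Gam h k z - P1.Gam g k z := by
  ext i m
  simp only [sg, tg, Matrix.add_apply, Matrix.of_apply]; ring

theorem gam_symm (hg : LocMet U g) (hz : z ∈ U) (k i m : Fin n) :
    P1.Gam g k z i m = P1.Gam g i z k m := by
  rw [P1.Gam, P1.Gam, Matrix.mul_apply, Matrix.mul_apply]
  refine Finset.sum_congr rfl fun q _ => ?_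
  rw [C2.DM_apply, C2.DM_apply, hg.closed z hz i q k]

theorem norm_tg_le (hg : LocMet U g) (hz : z ∈ U) {A : ℝ} (hC : Consts h ψ A z) (k i m : Fin n) :
    ‖tg g h z k i m‖ ≤ A := by
  have e : tg g h z k i m = (P1.Gam h k z i m - P1.Gam h i z k m) / 2 := by
    simp only [tg, Matrix.of_apply, Matrix.sub_apply]
    rw [gam_symm hg hz k i m]; ring
  rw [e, norm_div]
  have h2 : ‖(2 : ℂ)‖ = 2 := by norm_num
  rw [h2]
  have h1 := norm_sub_le (P1.Gam h k z i m) (P1.Gam h i z k m)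
  have h3 := hC.gam k i m
  have h4 := hC.gam i k m
  linarith

theorem sum_sg_eq (w : Cm n) (m : Fin n) :
    ∑ i, ∑ k, w i * w k * sg g h z i k m = P1.dGam g h z w m := by
  have e1 : ∑ i, ∑ k, w i * w k * sg g h z i k m =
      (∑ i, ∑ k, w i * w k * (P1.Gam h i z - P1.Gam g i z) k m +
        ∑ i, ∑ k, w i * w k * (P1.Gam h k z - P1.Gam g k z) i m) / 2 := by
    rw [← Finset.sum_add_distrib, Finset.sum_div]
    refine Finset.sum_congr rfl fun i _ => ?_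
    rw [← Finset.sum_add_distrib, Finset.sum_div]
    refine Finset.sum_congr rfl fun k _ => ?_
    simp only [sg, Matrix.of_apply]; ring
  have e2 : ∑ i, ∑ k, w i * w k * (P1.Gam h k z - P1.Gam g k z) i m =
      ∑ i, ∑ k, w i * w k * (P1.Gam h i z - P1.Gam g i z) k m := by
    rw [Finset.sum_comm]
    exact Finset.sum_congr rfl fun i _ => Finset.sum_congr rfl fun k _ => by ring
  rw [e1, e2, P1.dGam]; ring

theorem dk_split (k : Fin n) : dk g h z k = ((g z)⁻¹ * (sg g h z k * h z)).trace +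
    ((g z)⁻¹ * (tg g h z k * h z)).trace := by
  rw [dk, ← sg_add_tg, Matrix.add_mul, Matrix.mul_add, Matrix.trace_add]

theorem norm_dt_le (hg : LocMet U g) (hh : SmPos U h) (hz : z ∈ U) {A : ℝ} (hA : 0 ≤ A)
    (hC : Consts h ψ A z) (w : Cm n) :
    ‖∑ k, w k * ((g z)⁻¹ * (tg g h z k * h z)).trace‖ ≤
      n * (‖w‖ * (n ^ 2 * ((A * Tl g h z) * (n * (A * A))))) := by
  refine norm_sum1_le fun k => ?_
  rw [norm_mul]
  refine mul_le_mul (norm_le_pi_norm w k) ?_ (norm_nonneg _) (norm_nonneg _)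
  have h1 : ∀ i j, ‖(g z)⁻¹ i j‖ ≤ A * Tl g h z := fun i j =>
    (C2.norm_entry_le_trace (hg.pos z hz).inv.posSemidef i j).trans
      (C2.trace_le_trace_mul (hg.pos z hz).inv.posSemidef (hh.pos z hz) hC.itr)
  have h2 : ∀ i j, ‖(tg g h z k * h z) i j‖ ≤ n * (A * A) :=
    C2.norm_mul_entry_le hA (norm_tg_le hg hz hC k) hC.he
  have hτ : 0 ≤ Tl g h z := (trace_re_eq (hg.pos z hz) (hh.pos z hz).posSemidef).2
  exact C2.norm_trace_mul_le (by positivity) h1 h2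

end Vale.Agent.P272.K.T4.L5
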