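import Vale.Agent.P272.K.T4.L5T2

/-!
# T4, block L5: the error terms
-/

open scoped Manifold ContDiff ComplexOrder Topology
open Complex Set Filter MeasureTheory

noncomputable section

namespace Vale.Agent.P272.K.T4.L5

variable {n : ℕ}

theorem continuous_dGam (g h : Cm n → Matrix (Fin n) (Fin n) ℂ) (z : Cm n) :
    Continuous fun w : Cm n => P1.dGam g h z w := by
  refine continuous_pi fun m => ?_
  unfold P1.dGam
  exact continuous_finsetSum _ fun i _ => continuous_finsetSum _ fun k _ =>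
    ((continuous_apply i).mul (continuous_apply k)).mul continuous_const

theorem continuous_Pl (g h : Cm n → Matrix (Fin n) (Fin n) ℂ) (z : Cm n) :
    Continuous fun w : Cm n => Pl g h z w :=
  (cont_quad (h z)).comp (continuous_dGam g h z)

/-- real arithmetic for the error terms -/
theorem fin_real {B lam τ E A x D d s P t : ℝ} (hB : 0 ≤ B) (hlam : 0 < lam) (hτ : 0 < τ)
    (hE : 0 ≤ E) (hA : 0 ≤ A) (hx : 0 ≤ x) (hD : 0 ≤ D) (hd : 0 ≤ d) (hs : 0 ≤ s)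
    (ht : t ≤ B * ((x ^ 4 / τ + x ^ 3 * D / τ ^ 2 + x ^ 2 * s / τ) * s))
    (hDd : D ≤ d + E * (x * τ)) (hs2 : s ^ 2 ≤ A * P) (hx2 : x ^ 2 ≤ A * τ) :
    t ≤ B * lam * (1 + 2 * E ^ 2 * A) * τ ^ 2 + B * lam * (2 / τ) * d ^ 2 +
      B * (((A ^ 4 + A ^ 3) / lam + A) * A) * P := by
  have hre := real_ineq (x := x) (D := D) hs hτ hA hlam hx2
  have hD2 : D ^ 2 ≤ 2 * d ^ 2 + 2 * E ^ 2 * A * τ ^ 3 := by
    have b2 : D ^ 2 ≤ (d + E * (x * τ)) ^ 2 := by gcongr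
    have b3 : (d + E * (x * τ)) ^ 2 ≤ 2 * d ^ 2 + 2 * (E * (x * τ)) ^ 2 := by
      nlinarith [sq_nonneg (d - E * (x * τ))]
    have b4 : (E * (x * τ)) ^ 2 ≤ E ^ 2 * A * τ ^ 3 := by
      calc (E * (x * τ)) ^ 2 = E ^ 2 * x ^ 2 * τ ^ 2 := by ring
        _ ≤ E ^ 2 * (A * τ) * τ ^ 2 := by gcongr
        _ = _ := by ring
    linarith
  have c1 : lam * D ^ 2 / τ ≤ lam * (2 * d ^ 2 + 2 * E ^ 2 * A * τ ^ 3) / τ := by gcongr
  have c2 : lam * (2 * d ^ 2 + 2 * E ^ 2 * A * τ ^ 3) / τ =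
      lam * (2 / τ) * d ^ 2 + lam * (2 * E ^ 2 * A) * τ ^ 2 := by
    field_simp
  have c3 : ((A ^ 4 + A ^ 3) / lam + A) * s ^ 2 ≤ ((A ^ 4 + A ^ 3) / lam + A) * A * P := by
    rw [mul_assoc]
    exact mul_le_mul_of_nonneg_left hs2 (by positivity)
  have c4 : (x ^ 4 / τ + x ^ 3 * D / τ ^ 2 + x ^ 2 * s / τ) * s ≤
      lam * τ ^ 2 + (lam * (2 / τ) * d ^ 2 + lam * (2 * E ^ 2 * A) * τ ^ 2) +
        ((A ^ 4 + A ^ 3) / lam + A) * A * P := by linarith
  calc t ≤ B * ((x ^ 4 / τ + x ^ 3 * D / τ ^ 2 + x ^ 2 * s / τ) * s) := ht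
    _ ≤ B * (lam * τ ^ 2 + (lam * (2 / τ) * d ^ 2 + lam * (2 * E ^ 2 * A) * τ ^ 2) +
        ((A ^ 4 + A ^ 3) / lam + A) * A * P) := by gcongr
    _ = _ := by ring

/-- the constant `B` -/
def cB (n : ℕ) (A : ℝ) : ℝ := n * (2 * n ^ 4 * A ^ 2 + 2 * n ^ 5 * A ^ 3 + 3 * n ^ 3 * A ^ 2)

/-- the constant `E` -/
def cE (n : ℕ) (A : ℝ) : ℝ := n * (n ^ 2 * (A * (n * (A * A))))

/-- the symmetric part of `w · ∂τ` -/
def Ds (g h : Cm n → Matrix (Fin n) (Fin n) ℂ) (z w : Cm n) : ℂ :=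
  ∑ k, w k * ((g z)⁻¹ * (sg g h z k * h z)).trace

theorem norm_D_le {U : Set (Cm n)} {g h : Cm n → Matrix (Fin n) (Fin n) ℂ} {ψ : Cm n → ℝ}
    {z : Cm n} (hg : LocMet U g) (hh : SmPos U h) (hz : z ∈ U) {A : ℝ} (hA : 0 ≤ A)
    (hC : Consts h ψ A z) (w : Cm n) :
    ‖∑ k, w k * dk g h z k‖ ≤ ‖Ds g h z w‖ + cE n A * (‖w‖ * Tl g h z) := by
  have hDt : ‖∑ k, w k * ((g z)⁻¹ * (tg g h z k * h z)).trace‖ ≤ cE n A * (‖w‖ * Tl g h z) := by
    refine (norm_dt_le hg hh hz hA hC w).trans (le_of_eq ?_)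
    rw [cE]; ring
  have hDsum : ∑ k, w k * dk g h z k =
      Ds g h z w + ∑ k, w k * ((g z)⁻¹ * (tg g h z k * h z)).trace := by
    rw [Ds, ← Finset.sum_add_distrib]
    exact Finset.sum_congr rfl fun k _ => by rw [dk_split]; ring
  rw [hDsum]
  exact (norm_add_le _ _).trans (add_le_add le_rfl hDt)

theorem sq_norm_le_of {G H : Matrix (Fin n) (Fin n) ℂ} (hG : G.PosDef) (hH : H.PosSemidef)
    {A : ℝ} (hA : 0 ≤ A) {w : Cm n} (hlow : ‖w‖ ^ 2 ≤ A * (quad H w).re)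
    (hq : (quad G w).re ≤ 1) : ‖w‖ ^ 2 ≤ A * (G⁻¹ * H).trace.re := by
  have a2 := quad_le_tr hG hH w
  have a4 := (trace_re_eq hG hH).2
  calc ‖w‖ ^ 2 ≤ A * (quad H w).re := hlow
    _ ≤ A * ((G⁻¹ * H).trace.re * (quad G w).re) := by gcongr
    _ ≤ A * ((G⁻¹ * H).trace.re * 1) := by gcongr
    _ = _ := by ring

theorem thr_pt {χ : ℝ → ℝ} (hχ : Wt χ) (hn : 0 < n) {U : Set (Cm n)}
    {g h : Cm n → Matrix (Fin n) (Fin n) ℂ} {ψ : Cm n → ℝ}
    {z : Cm n} (hg : LocMet U g) (hh : SmPos U h) (hψ : Cut U ψ) (hz : z ∈ U) {A lam : ℝ}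
    (hA : 0 ≤ A) (hlam : 0 < lam) (hC : Consts h ψ A z) (w : Cm n) :
    ‖thr ψ g h z w * ((χ (quad (g z) w).re : ℝ) : ℂ)‖ ≤
      (cB n A * lam * (1 + 2 * cE n A ^ 2 * A) * Tl g h z ^ 2) * χ (quad (g z) w).re +
        (cB n A * lam * (2 / Tl g h z)) * (‖Ds g h z w‖ ^ 2 * χ (quad (g z) w).re) +
        (cB n A * (((A ^ 4 + A ^ 3) / lam + A) * A)) * (Pl g h z w * χ (quad (g z) w).re) := by
  rw [norm_mul, Complex.norm_real, Real.norm_of_nonneg (hχ.nonneg _)]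
  rcases le_or_gt 1 (quad (g z) w).re with h1 | h1
  · rw [hχ.zero _ h1]; simp
  have hG := hg.pos z hz
  have hH := hh.pos z hz
  have hτ : 0 < Tl g h z := trace_pos hn hG hH
  have hχ0 := hχ.nonneg (quad (g z) w).re
  have hx2 : ‖w‖ ^ 2 ≤ A * Tl g h z := sq_norm_le_of hG hH.posSemidef hA (hC.low w) h1.le
  have hs2 : ‖P1.dGam g h z w‖ ^ 2 ≤ A * Pl g h z w := hC.low _
  have hthr : ‖thr ψ g h z w‖ ≤ cB n A * ((‖w‖ ^ 4 / Tl g h z +
      ‖w‖ ^ 3 * ‖∑ k, w k * dk g h z k‖ / Tl g h z ^ 2 +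
      ‖w‖ ^ 2 * ‖P1.dGam g h z w‖ / Tl g h z) * ‖P1.dGam g h z w‖) :=
    norm_thr_le (g := g) hA hC hτ (norm_uu_le hn hg hh hz hC) w (norm_nonneg _)
      (norm_sum_dzb_uu hn hg hh hψ hz hC w)
  have hB0 : 0 ≤ cB n A := by unfold cB; positivity
  have hE0 : 0 ≤ cE n A := by unfold cE; positivity
  have hfin := fin_real hB0 hlam hτ hE0 hA (norm_nonneg w) (norm_nonneg _) (norm_nonneg _)
    (norm_nonneg _) hthr (norm_D_le hg hh hz hA hC w) hs2 hx2
  calc ‖thr ψ g h z w‖ * χ (quad (g z) w).re ≤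
      (cB n A * lam * (1 + 2 * cE n A ^ 2 * A) * Tl g h z ^ 2 +
        cB n A * lam * (2 / Tl g h z) * ‖Ds g h z w‖ ^ 2 +
        cB n A * (((A ^ 4 + A ^ 3) / lam + A) * A) * Pl g h z w) * χ (quad (g z) w).re :=
        mul_le_mul_of_nonneg_right hfin hχ0
    _ = _ := by ring

theorem norm_int_comb {f1 f2 f3 : Cm n → ℝ} (i1 : Integrable f1) (i2 : Integrable f2)
    (i3 : Integrable f3) {a b c : ℝ} {F : Cm n → ℂ}
    (hF : ∀ w, ‖F w‖ ≤ a * f1 w + b * f2 w + c * f3 w) :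
    ‖∫ w, F w‖ ≤ a * (∫ w, f1 w) + b * (∫ w, f2 w) + c * (∫ w, f3 w) := by
  have j12 : Integrable fun w => a * f1 w + b * f2 w := (i1.const_mul a).add (i2.const_mul b)
  have j : Integrable fun w => a * f1 w + b * f2 w + c * f3 w := j12.add (i3.const_mul c)
  have e : ∫ w, (a * f1 w + b * f2 w + c * f3 w) =
      a * (∫ w, f1 w) + b * (∫ w, f2 w) + c * (∫ w, f3 w) := by
    rw [integral_add j12 (i3.const_mul c), integral_add (i1.const_mul a) (i2.const_mul b),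
      integral_const_mul, integral_const_mul, integral_const_mul]
  rw [← e]
  exact norm_integral_le_of_norm_le j (Eventually.of_forall hF)

theorem thr_int {χ : ℝ → ℝ} (hχ : Wt χ) (hn : 0 < n) {U : Set (Cm n)}
    {g h : Cm n → Matrix (Fin n) (Fin n) ℂ} {ψ : Cm n → ℝ}
    {z : Cm n} (hg : LocMet U g) (hh : SmPos U h) (hψ : Cut U ψ) (hz : z ∈ U) {A lam : ℝ}
    (hA : 0 ≤ A) (hlam : 0 < lam) (hC : Consts h ψ A z) :
    ‖TI χ ψ g h z‖ ≤ (cB n A * lam * (1 + 2 * cE n A ^ 2 * A) * Tl g h z ^ 2) *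
      (∫ w : Cm n, χ (quad (g z) w).re) +
        (cB n A * lam * (2 / Tl g h z)) *
          (∫ w : Cm n, ‖Ds g h z w‖ ^ 2 * χ (quad (g z) w).re) +
        (cB n A * (((A ^ 4 + A ^ 3) / lam + A) * A)) *
          (∫ w : Cm n, Pl g h z w * χ (quad (g z) w).re) := by
  have hG := hg.pos z hz
  have i1 : Integrable fun w : Cm n => χ (quad (g z) w).re := by
    have := fib_intR hχ hG (F := fun _ => 1) continuous_const
    simpa using this
  have cDs : Continuous fun w : Cm n => ‖Ds g h z w‖ ^ 2 := by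
    unfold Ds
    exact (continuous_finsetSum _ fun k _ =>
      (continuous_apply k).mul continuous_const).norm.pow 2
  have i2 : Integrable fun w : Cm n => ‖Ds g h z w‖ ^ 2 * χ (quad (g z) w).re :=
    fib_intR hχ hG cDs
  have i3 : Integrable fun w : Cm n => Pl g h z w * χ (quad (g z) w).re :=
    fib_intR hχ hG (continuous_Pl g h z)
  exact norm_int_comb i1 i2 i3 (fun w => thr_pt hχ hn hg hh hψ hz hA hlam hC w)

theorem tBound (hM : MomTrace n) : TBound n := by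
  intro hn χ hχ U hU h hh ψ hψ δ hδ
  obtain ⟨A, hA1, hCon⟩ := exists_consts hU hh hψ
  obtain ⟨C', hC'0, hMom⟩ := hM χ hχ
  have hA0 : 0 ≤ A := by linarith
  set B : ℝ := cB n A with hB
  have hB0 : 0 ≤ B := by rw [hB]; unfold cB; positivity
  set E : ℝ := cE n A with hE
  have hE0 : 0 ≤ E := by rw [hE]; unfold cE; positivity
  set m0 : ℝ := ∫ w : Cm n, χ (quad (1 : Matrix (Fin n) (Fin n) ℂ) w).re with hm0
  have hm00 : 0 ≤ m0 := integral_nonneg fun w => hχ.nonneg _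
  set lam : ℝ := δ / (B * (m0 * (1 + 2 * E ^ 2 * A)) + 1) with hlam
  have hden : 0 < B * (m0 * (1 + 2 * E ^ 2 * A)) + 1 := by positivity
  have hlam0 : 0 < lam := by positivity
  set Q : ℝ := ((A ^ 4 + A ^ 3) / lam + A) * A with hQ
  have hQ0 : 0 ≤ Q := by positivity
  refine ⟨B * (lam * (2 * C') + Q), by positivity, fun g hg z hzψ => ?_⟩
  have hz : z ∈ U := hψ.supp hzψ
  have hC := hCon z hzψ
  have hG := hg.pos z hz
  have hH := hh.pos z hz
  set τ : ℝ := Tl g h z with hτd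
  have hτ : 0 < τ := trace_pos hn hG hH
  have hdet : 0 < (g z).det.re := by
    have := hG.det_pos
    rw [Complex.lt_def] at this
    simpa using this.1
  have hTI := thr_int (χ := χ) hχ hn hg hh hψ hz hA0 hlam0 hC
  rw [← hB, ← hE, ← hτd, ← hQ] at hTI
  have hmom : ∫ w : Cm n, ‖Ds g h z w‖ ^ 2 * χ (quad (g z) w).re ≤
      C' * τ * ∫ w : Cm n, Pl g h z w * χ (quad (g z) w).re := by
    have h1 := hMom (g z) (h z) hG hH (sg g h z) (fun i k m => sg_symm i k m)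
    have h2 : ∀ w : Cm n, (fun m => ∑ i, ∑ k, w i * w k * sg g h z i k m) =
        P1.dGam g h z w := fun w => funext fun m => sum_sg_eq w m
    simp only [h2] at h1
    exact h1
  have hmass : (∫ w : Cm n, χ (quad (g z) w).re) * (g z).det.re = m0 := by
    have := mass_eq (fun s => χ s) hG
    rw [smul_eq_mul, mul_comm] at this
    exact this
  have hEl : El χ g (Pl g h) z =
      (∫ w : Cm n, Pl g h z w * χ (quad (g z) w).re) * (g z).det.re := by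
    rw [El, integral_mul_const]
  set IP : ℝ := ∫ w : Cm n, Pl g h z w * χ (quad (g z) w).re with hIP
  have hIP0 : 0 ≤ IP := integral_nonneg fun w =>
    mul_nonneg (quad_nonneg hH.posSemidef _) (hχ.nonneg _)
  have hTI2 : ‖TI χ ψ g h z‖ ≤ (B * lam * (1 + 2 * E ^ 2 * A) * τ ^ 2) *
      (∫ w : Cm n, χ (quad (g z) w).re) + (B * (lam * (2 * C') + Q)) * IP := by
    have d1 : (B * lam * (2 / τ)) * (∫ w : Cm n, ‖Ds g h z w‖ ^ 2 * χ (quad (g z) w).re) ≤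
        (B * lam * (2 / τ)) * (C' * τ * IP) :=
      mul_le_mul_of_nonneg_left hmom (by positivity)
    have d2 : (B * lam * (2 / τ)) * (C' * τ * IP) = B * (lam * (2 * C')) * IP := by
      field_simp
    linarith
  rw [hEl]
  have hlast : B * lam * (1 + 2 * E ^ 2 * A) * m0 ≤ δ := by
    have e1 : B * lam * (1 + 2 * E ^ 2 * A) * m0 = lam * (B * (m0 * (1 + 2 * E ^ 2 * A))) := by
      ring
    rw [e1, hlam, div_mul_eq_mul_div, div_le_iff₀ hden]
    nlinarith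
  calc ‖TI χ ψ g h z‖ * (g z).det.re ≤ ((B * lam * (1 + 2 * E ^ 2 * A) * τ ^ 2) *
      (∫ w : Cm n, χ (quad (g z) w).re) + (B * (lam * (2 * C') + Q)) * IP) * (g z).det.re :=
        mul_le_mul_of_nonneg_right hTI2 hdet.le
    _ = (B * lam * (1 + 2 * E ^ 2 * A)) * τ ^ 2 *
        ((∫ w : Cm n, χ (quad (g z) w).re) * (g z).det.re) +
        (B * (lam * (2 * C') + Q)) * (IP * (g z).det.re) := by ring
    _ = (B * lam * (1 + 2 * E ^ 2 * A) * m0) * τ ^ 2 +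
        (B * (lam * (2 * C') + Q)) * (IP * (g z).det.re) := by rw [hmass]; ring
    _ ≤ δ * τ ^ 2 + (B * (lam * (2 * C') + Q)) * (IP * (g z).det.re) := by gcongr

end Vale.Agent.P272.K.T4.L5
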