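import Vale.Agent.P272.K.T4.L3
import Vale.Agent.P272.K.Asm.Twisted
import Vale.Agent.P272.K.INT.Gronwall

/-! P272/T4: the assembly of `HypStatement` from the blocks. -/

open scoped Manifold ContDiff ComplexOrder Topology

set_option linter.all false

noncomputable section

namespace Vale.Agent.P272.K.T4

/-- all the analytic blocks of T4+ for one manifold -/
structure Blocks (n : ℕ) (X : Type) [TopologicalSpace X] [T2Space X] [CompactSpace X]
    [ChartedSpace (Cm n) X] [IsManifold 𝓘(ℂ, Cm n) ω X] : Prop where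
  dens : DensStatement n X
  l1 : L1Statement n X
  l2 : L2Statement n X
  mom : MomStatement n X
  l5 : L5Statement n X
  coer : CoerStatement n X

theorem hypStatement
    (hB : ∀ (n : ℕ) (X : Type) [TopologicalSpace X] [T2Space X] [CompactSpace X] [Nonempty X]
      [ChartedSpace (Cm n) X] [IsManifold 𝓘(ℂ, Cm n) ω X], 1 ≤ n → Blocks n X)
    (hAY : ∀ (n : ℕ) (X : Type) [TopologicalSpace X] [T2Space X] [CompactSpace X] [Nonempty X]
      [ChartedSpace (Cm n) X] [IsManifold 𝓘(ℂ, Cm n) ω X], 1 ≤ n → AubinYau n X) :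
    HypStatement := by
  intro n hn X _ _ _ _ _ _ hyp w h hw hh hneg a ha hnef φ hφ
  have B := hB n X hn
  exact conclusion (fun w hw a φ hφ C H => INT.pos_of_ineq hw a hφ C H) hw hh
    (trace_bound_hyp B.dens B.l1 B.l2 B.mom B.l5 B.coer hyp hh hneg)
    (twistedKE_of_nef (hAY n X hn) hw ha hnef) hφ

end Vale.Agent.P272.K.T4
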