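import Mathlib.Analysis.InnerProductSpace.Calculus
import Mathlib.Analysis.SpecialFunctions.SmoothTransition
import Mathlib.Order.Zorn

/-!
# Positive combinations of derivatives, or a common invariant compact set

`E` is a real inner product space, `Z ⊆ E` compact, `V a : E → E` (`a : ι`, finite) vector fields
which are continuous on `Z`. Either there are smooth functions `Ψ a` with
`∑ a, DΨ_a(z) V_a(z) > 0` on `Z`, or `Z` contains a nonempty compact set `K` all of whose proximal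
normals are orthogonal to all the `V a`. (No measure and no Hahn-Banach: Zorn's lemma.)
-/

open scoped ContDiff RealInnerProductSpace Topology
open Set Filter Metric

noncomputable section

namespace Vale.Agent.P272.K.T4

variable {E : Type*} [NormedAddCommGroup E] [InnerProductSpace ℝ E]

/-- the smooth bump `exp(-1/(ρ - |y-c|²))` (zero outside of the ball). -/
def bmp (c : E) (ρ : ℝ) (y : E) : ℝ := expNegInvGlue (ρ - ‖y - c‖ ^ 2)

lemma bmp_contDiff (c : E) (ρ : ℝ) : ContDiff ℝ ∞ (bmp c ρ) := by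
  unfold bmp
  refine expNegInvGlue.contDiff.comp ?_
  exact contDiff_const.sub ((contDiff_id.sub contDiff_const).norm_sq ℝ)

lemma hasDerivAt_glue (x : ℝ) :
    HasDerivAt expNegInvGlue ((x⁻¹) ^ 2 * expNegInvGlue x) x := by
  have := expNegInvGlue.hasDerivAt_polynomial_eval_inv_mul 1 x
  simpa using this

lemma fderiv_bmp (c : E) (ρ : ℝ) (y v : E) :
    fderiv ℝ (bmp c ρ) y v =
      ((ρ - ‖y - c‖ ^ 2)⁻¹) ^ 2 * expNegInvGlue (ρ - ‖y - c‖ ^ 2) * (2 * ⟪c - y, v⟫) := by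
  have h1 : HasFDerivAt (fun y : E => ρ - ‖y - c‖ ^ 2) (-(2 • (innerSL ℝ (y - c)))) y := by
    have h2 : HasFDerivAt (fun y : E => y - c) (ContinuousLinearMap.id ℝ E) y :=
      (hasFDerivAt_id y).sub_const c
    have h3 := h2.norm_sq
    have h4 := h3.const_sub ρ
    refine h4.congr_fderiv ?_
    ext w
    simp
  have h5 := (hasDerivAt_glue (ρ - ‖y - c‖ ^ 2)).comp_hasFDerivAt y h1
  have h6 : fderiv ℝ (bmp c ρ) y = _ := h5.fderiv
  rw [h6]
  simp only [smul_apply, neg_apply, innerSL_apply_apply, smul_eq_mul, nsmul_eq_mul]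
  rw [← neg_sub y c, inner_neg_left]
  simp

variable {ι : Type*} [Fintype ι]

/-- there are smooth functions `Ψ a` with `∑ a, DΨ_a(z) V_a(z) > 0` on `Z`. -/
def PosOn (V : ι → E → E) (Z : Set E) : Prop :=
  ∃ Ψ : ι → E → ℝ, (∀ a, ContDiff ℝ ∞ (Ψ a)) ∧ ∀ z ∈ Z, 0 < ∑ a, fderiv ℝ (Ψ a) z (V a z)

lemma continuousOn_sum_fderiv {V : ι → E → E} {Z : Set E} (hV : ∀ a, ContinuousOn (V a) Z)
    {Ψ : ι → E → ℝ} (hΨ : ∀ a, ContDiff ℝ ∞ (Ψ a)) :
    ContinuousOn (fun z => ∑ a, fderiv ℝ (Ψ a) z (V a z)) Z := by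
  refine continuousOn_finsetSum _ fun a _ => ?_
  exact ((hΨ a).continuous_fderiv (by simp)).continuousOn.clm_apply (hV a)

lemma posOn_empty (V : ι → E → E) : PosOn V ∅ :=
  ⟨fun _ _ => 0, fun _ => contDiff_const, fun _ hz => hz.elim⟩

/-- adding a nonnegative derivative which is positive on `K ∩ U`. -/
lemma posOn_of_diff [DecidableEq ι] {V : ι → E → E} {K U : Set E} (hK : IsCompact K)
    (hV : ∀ a, ContinuousOn (V a) K) (h : PosOn V (K \ U)) (a₀ : ι) {ψ : E → ℝ}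
    (hψ : ContDiff ℝ ∞ ψ) (h0 : ∀ z ∈ K, 0 ≤ fderiv ℝ ψ z (V a₀ z))
    (h1 : ∀ z ∈ K ∩ U, 0 < fderiv ℝ ψ z (V a₀ z)) : PosOn V K := by
  obtain ⟨Ψ, hΨ, hpos⟩ := h
  have hG := continuousOn_sum_fderiv hV hΨ
  set G : E → ℝ := fun z => ∑ a, fderiv ℝ (Ψ a) z (V a z) with hGdef
  have hH : ContinuousOn (fun z => fderiv ℝ ψ z (V a₀ z)) K :=
    (hψ.continuous_fderiv (by simp)).continuousOn.clm_apply (hV a₀)
  have key : ∃ c : ℝ, ∀ z ∈ K, 0 < G z + c * fderiv ℝ ψ z (V a₀ z) := by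
    have hBc : IsCompact (K ∩ {z | G z ≤ 0}) := by
      have h2 : IsClosed (K ∩ G ⁻¹' (Iic 0)) := hG.preimage_isClosed_of_isClosed hK.isClosed isClosed_Iic
      exact hK.of_isClosed_subset h2 inter_subset_left
    rcases (K ∩ {z | G z ≤ 0}).eq_empty_or_nonempty with hB | hB
    · refine ⟨0, fun z hz => ?_⟩
      rw [zero_mul, add_zero]
      by_contra hcon
      exact (hB.subset ⟨hz, not_lt.1 hcon⟩ : z ∈ (∅ : Set E))
    · obtain ⟨z1, hz1, hmin⟩ := hBc.exists_isMinOn hB (hH.mono inter_subset_left)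
      obtain ⟨z2, hz2, hmin2⟩ := hBc.exists_isMinOn hB (hG.mono inter_subset_left)
      have hU1 : z1 ∈ U := by
        by_contra hcon
        exact absurd (hpos z1 ⟨hz1.1, hcon⟩) (not_lt.2 hz1.2)
      have hm : 0 < fderiv ℝ ψ z1 (V a₀ z1) := h1 z1 ⟨hz1.1, hU1⟩
      set m := fderiv ℝ ψ z1 (V a₀ z1)
      have hz2' : G z2 ≤ 0 := hz2.2
      refine ⟨(1 - G z2) / m, fun z hz => ?_⟩
      by_cases hzB : G z ≤ 0
      · have h3 : m ≤ fderiv ℝ ψ z (V a₀ z) := hmin ⟨hz, hzB⟩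
        have h4 : G z2 ≤ G z := hmin2 ⟨hz, hzB⟩
        have h5 : (1 - G z2) ≤ (1 - G z2) / m * fderiv ℝ ψ z (V a₀ z) := by
          calc (1 - G z2) = (1 - G z2) / m * m := by field_simp
            _ ≤ _ := by
              refine mul_le_mul_of_nonneg_left h3 ?_
              exact div_nonneg (by linarith) hm.le
        linarith
      · have h3 := h0 z hz
        have h4 : 0 ≤ (1 - G z2) / m * fderiv ℝ ψ z (V a₀ z) :=
          mul_nonneg (div_nonneg (by linarith) hm.le) h3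
        push Not at hzB
        linarith
  obtain ⟨c, hc⟩ := key
  refine ⟨fun a => if a = a₀ then (fun z => Ψ a z + c * ψ z) else Ψ a, fun a => ?_, fun z hz => ?_⟩
  · by_cases ha : a = a₀
    · simp only [ha, if_true]
      exact (hΨ a₀).add (contDiff_const.mul hψ)
    · simp only [ha, if_false]
      exact hΨ a
  · have h2 : ∀ a, fderiv ℝ ((fun a => if a = a₀ then (fun z => Ψ a z + c * ψ z) else Ψ a) a) z (V a z)
        = fderiv ℝ (Ψ a) z (V a z) + if a = a₀ then c * fderiv ℝ ψ z (V a₀ z) else 0 := by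
      intro a
      by_cases ha : a = a₀
      · subst ha
        simp only [if_true]
        have hd1 : DifferentiableAt ℝ (Ψ a) z := (hΨ a).differentiable (by simp) z
        have hd2 : DifferentiableAt ℝ ψ z := hψ.differentiable (by simp) z
        rw [fderiv_fun_add hd1 (hd2.const_mul c), fderiv_const_mul hd2]
        simp
      · simp [ha]
    simp only [h2, Finset.sum_add_distrib, Finset.sum_ite_eq', Finset.mem_univ, if_true]
    exact hc z hz

/-- The intersection of a chain of compact sets on which there is no positive combination has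
none either. -/
lemma not_posOn_sInter {V : ι → E → E} {Z : Set E} (hZ : IsCompact Z)
    (hV : ∀ a, ContinuousOn (V a) Z) {c : Set (Set E)} (hc : IsChain (· ⊆ ·) c) (hne : c.Nonempty)
    (h : ∀ K ∈ c, IsClosed K ∧ K ⊆ Z ∧ ¬ PosOn V K) : ¬ PosOn V (⋂₀ c) := by
  rintro ⟨Ψ, hΨ, hpos⟩
  have hG := continuousOn_sum_fderiv hV hΨ
  set G : E → ℝ := fun z => ∑ a, fderiv ℝ (Ψ a) z (V a z) with hGdef
  have hcl : IsClosed (Z ∩ G ⁻¹' (Iic 0)) :=
    hG.preimage_isClosed_of_isClosed hZ.isClosed isClosed_Iic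
  have hne2 : ∀ K ∈ c, (K ∩ (Z ∩ G ⁻¹' (Iic 0))).Nonempty := by
    intro K hK
    by_contra hcon
    rw [not_nonempty_iff_eq_empty] at hcon
    refine (h K hK).2.2 ⟨Ψ, hΨ, fun z hz => ?_⟩
    by_contra hlt
    exact (hcon.subset ⟨hz, (h K hK).2.1 hz, not_lt.1 hlt⟩ : z ∈ (∅ : Set E))
  have : Nonempty c := hne.to_subtype
  have hint : (⋂ K : c, ((K : Set E) ∩ (Z ∩ G ⁻¹' (Iic 0)))).Nonempty := by
    refine IsCompact.nonempty_iInter_of_directed_nonempty_isCompact_isClosed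
      (fun K : c => (K : Set E) ∩ (Z ∩ G ⁻¹' (Iic 0))) ?_ (fun K => hne2 K K.2) ?_ ?_
    · intro K L
      rcases hc.total K.2 L.2 with h1 | h1
      · exact ⟨K, subset_rfl, inter_subset_inter_left _ h1⟩
      · exact ⟨L, inter_subset_inter_left _ h1, subset_rfl⟩
    · intro K
      exact hZ.of_isClosed_subset ((h K K.2).1.inter hcl) (inter_subset_left.trans (h K K.2).2.1)
    · intro K
      exact (h K K.2).1.inter hcl
  obtain ⟨z, hz⟩ := hint
  rw [mem_iInter] at hz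
  have hzc : z ∈ ⋂₀ c := fun K hK => (hz ⟨K, hK⟩).1
  have h2 : G z ≤ 0 := (hz ⟨hne.some, hne.some_mem⟩).2.2
  exact absurd (hpos z hzc) (not_lt.2 h2)

/-- **Alternative.** Either a combination of derivatives is positive on `Z`, or `Z` contains a
nonempty compact set all of whose proximal normals are orthogonal to the fields `V a`. -/
theorem posOn_or_exists {V : ι → E → E} {Z : Set E} (hZ : IsCompact Z)
    (hV : ∀ a, ContinuousOn (V a) Z) : PosOn V Z ∨ ∃ K, K ⊆ Z ∧ K.Nonempty ∧ IsCompact K ∧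
      ∀ k ∈ K, ∀ v : E, (∀ y ∈ K, ‖v‖ ≤ ‖y - (k + v)‖) → ∀ a, ⟪v, V a k⟫ = 0 := by
  classical
  by_cases hP : PosOn V Z
  · exact Or.inl hP
  right
  obtain ⟨K, hKZ, hKmin⟩ := zorn_superset_nonempty {K : Set E | IsClosed K ∧ K ⊆ Z ∧ ¬ PosOn V K}
    (fun c hcS hc hne => ⟨⋂₀ c, ⟨isClosed_sInter fun K hK => (hcS hK).1,
      (sInter_subset_of_mem hne.some_mem).trans (hcS hne.some_mem).2.1,
      not_posOn_sInter hZ hV hc hne hcS⟩, fun s hs => sInter_subset_of_mem hs⟩) Z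
    ⟨hZ.isClosed, subset_rfl, hP⟩
  obtain ⟨hKcl, -, hKP⟩ := hKmin.prop
  have hKc : IsCompact K := hZ.of_isClosed_subset hKcl hKZ
  have hVK : ∀ a, ContinuousOn (V a) K := fun a => (hV a).mono hKZ
  refine ⟨K, hKZ, ?_, hKc, fun k hk v hv a => ?_⟩
  · rw [nonempty_iff_ne_empty]
    rintro rfl
    exact hKP (posOn_empty V)
  by_contra hne
  -- the sign
  obtain ⟨σ, hσ, hσpos⟩ : ∃ σ : ℝ, (σ = 1 ∨ σ = -1) ∧ 0 < σ * ⟪v, V a k⟫ := by
    rcases lt_or_gt_of_ne hne with h | h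
    · exact ⟨-1, Or.inr rfl, by linarith⟩
    · exact ⟨1, Or.inl rfl, by linarith⟩
  set c : E := k + (2⁻¹ : ℝ) • v with hcdef
  set r2 : ℝ := ‖v‖ ^ 2 / 4 with hr2
  have hkc : ‖k - c‖ ^ 2 = r2 := by
    have : k - c = -((2⁻¹ : ℝ) • v) := by rw [hcdef]; abel
    rw [this, norm_neg, norm_smul, hr2]
    simp only [norm_inv, Real.norm_ofNat]
    ring
  have hfar : ∀ y ∈ K, r2 + ‖y - k‖ ^ 2 / 2 ≤ ‖y - c‖ ^ 2 := by
    intro y hy
    have h1 := hv y hy
    have h2 : ‖v‖ ^ 2 ≤ ‖y - (k + v)‖ ^ 2 := by gcongr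
    have h3 : y - (k + v) = (y - k) - v := by abel
    have h4 : y - c = (y - k) - (2⁻¹ : ℝ) • v := by rw [hcdef]; abel
    rw [h3, norm_sub_sq_real] at h2
    rw [h4, norm_sub_sq_real (y - k) ((2⁻¹ : ℝ) • v), norm_smul, inner_smul_right, hr2]
    simp only [norm_inv, Real.norm_ofNat]
    nlinarith
  -- continuity of the sign
  have hcont : ContinuousOn (fun y => σ * (2 * ⟪c - y, V a y⟫)) K :=
    continuousOn_const.mul (continuousOn_const.mul
      ((continuousOn_const.sub continuousOn_id).inner (𝕜 := ℝ) (hVK a)))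
  have hkpos : 0 < σ * (2 * ⟪c - k, V a k⟫) := by
    have : c - k = (2⁻¹ : ℝ) • v := by rw [hcdef]; abel
    rw [this, inner_smul_left]
    simp only [conj_trivial]
    linarith
  obtain ⟨δ, hδ, hball⟩ : ∃ δ > 0, ∀ y ∈ K, ‖y - k‖ < δ → 0 < σ * (2 * ⟪c - y, V a y⟫) := by
    have h1 := (hcont k hk).eventually (lt_mem_nhds hkpos)
    rw [eventually_nhdsWithin_iff, Metric.eventually_nhds_iff] at h1
    obtain ⟨δ, hδ, h1⟩ := h1
    exact ⟨δ, hδ, fun y hy hyk => h1 (by rwa [dist_eq_norm]) hy⟩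
  set ρ : ℝ := r2 + δ ^ 2 / 2 with hρ
  set U : Set E := {y | ‖y - c‖ ^ 2 < ρ} with hUdef
  have hUo : IsOpen U := isOpen_lt (by fun_prop) continuous_const
  have hnear : ∀ y ∈ K, ‖y - c‖ ^ 2 < ρ → 0 < σ * (2 * ⟪c - y, V a y⟫) := by
    intro y hy hyU
    refine hball y hy ?_
    have h1 := hfar y hy
    have h2 : ‖y - k‖ ^ 2 < δ ^ 2 := by linarith
    exact lt_of_pow_lt_pow_left₀ 2 hδ.le h2
  have hψd : ∀ y, fderiv ℝ (fun z => σ * bmp c ρ z) y (V a y) =
      ((ρ - ‖y - c‖ ^ 2)⁻¹) ^ 2 * expNegInvGlue (ρ - ‖y - c‖ ^ 2) *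
        (σ * (2 * ⟪c - y, V a y⟫)) := by
    intro y
    rw [fderiv_const_mul ((bmp_contDiff c ρ).differentiable (by simp) y)]
    simp only [smul_apply, smul_eq_mul]
    rw [fderiv_bmp]
    ring
  have hKU : PosOn V (K \ U) := by
    by_contra hcon
    have h1 : K ⊆ K \ U := hKmin.2 (y := K \ U)
      ⟨hKcl.sdiff hUo, sdiff_subset.trans hKZ, hcon⟩ sdiff_subset
    refine (h1 hk).2 ?_
    rw [hUdef, mem_ofPred_eq, hkc, hρ]
    have : 0 < δ ^ 2 / 2 := by positivity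
    linarith
  refine hKP (posOn_of_diff hKc hVK hKU a (ψ := fun z => σ * bmp c ρ z)
    (contDiff_const.mul (bmp_contDiff c ρ)) (fun z hz => ?_) fun z hz => ?_)
  · rw [hψd]
    rcases lt_or_ge (‖z - c‖ ^ 2) ρ with h | h
    · exact mul_nonneg (mul_nonneg (sq_nonneg _) (expNegInvGlue.nonneg _)) (hnear z hz h).le
    · rw [expNegInvGlue.zero_of_nonpos (by linarith)]
      simp
  · rw [hψd]
    have h : ‖z - c‖ ^ 2 < ρ := hz.2
    have h2 : 0 < ρ - ‖z - c‖ ^ 2 := by linarith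
    exact mul_pos (mul_pos (by positivity) (expNegInvGlue.pos_of_pos h2)) (hnear z hz.1 h)

end Vale.Agent.P272.K.T4
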